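import Vale.Agent.Lib.P321.Defs

/-!
# P321: exact formulas for traces of alternating strings with one defect
-/

namespace Vale.Agent.Lib.P321

/-- The alternating string `(01)^M` (`false` is the bit 0 and `true` is the bit 1). -/
def alt : ℕ → List Bool
  | 0 => []
  | M + 1 => false :: true :: alt M

theorem alt_add (s t : ℕ) : alt (s + t) = alt s ++ alt t := by
  induction s with
  | zero => simp [alt]
  | succ s ih =>
    rw [show s + 1 + t = (s + t) + 1 by ring]
    simp [alt, ih]

theorem alt_length (M : ℕ) : (alt M).length = 2 * M := by
  induction M with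
  | zero => simp [alt]
  | succ M ih => simp [alt, ih]; ring

/-- Binomial coefficient `C(a+j, j)` with integer `a`, vanishing for negative `a`. -/
noncomputable def chZ (a : ℤ) (j : ℕ) : ℝ :=
  if a < 0 then 0 else ((a.toNat + j).choose j : ℝ)

theorem chZ_neg {a : ℤ} (h : a < 0) (j : ℕ) : chZ a j = 0 := by simp [chZ, h]

theorem chZ_natCast (a j : ℕ) : chZ (a : ℤ) j = ((a + j).choose j : ℝ) := by
  simp [chZ]

theorem chZ_nonneg (a : ℤ) (j : ℕ) : 0 ≤ chZ a j := by
  unfold chZ; split_ifs <;> positivity

theorem chZ_zero (a : ℤ) (ha : 0 ≤ a) : chZ a 0 = 1 := by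
  simp [chZ, not_lt.2 ha]

theorem chZ_pascal (a : ℤ) (N : ℕ) : chZ (a + 1) (N + 1) = chZ a (N + 1) + chZ (a + 1) N := by
  by_cases h : a < -1
  · rw [chZ_neg (by omega), chZ_neg (by omega), chZ_neg (by omega)]; simp
  · by_cases h' : a = -1
    · subst h'
      rw [show chZ (-1) (N + 1) = 0 from chZ_neg (by norm_num) _]
      have : ((-1 : ℤ) + 1) = ((0 : ℕ) : ℤ) := by norm_num
      rw [this, chZ_natCast, chZ_natCast]
      simp
    · have ha : 0 ≤ a := by omega
      lift a to ℕ using ha
      have : ((a : ℤ) + 1) = ((a + 1 : ℕ) : ℤ) := by push_cast; ring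
      rw [this, chZ_natCast, chZ_natCast, chZ_natCast]
      have e1 : a + 1 + (N + 1) = (a + N + 1) + 1 := by ring
      have e2 : a + (N + 1) = a + N + 1 := by ring
      have e3 : a + 1 + N = a + N + 1 := by ring
      rw [e1, e2, e3, Nat.choose_succ_succ' (a + N + 1) N]
      push_cast
      ring

/-- Token count of the string `T` when the previous symbol is `b` (a symbol `1` after a symbol
`0` uses no new token). -/
def tk : Bool → List Bool → ℕ
  | _, [] => 0
  | b, c :: T => (if (!b && c) = true then 0 else 1) + tk c T

/-- The state (the previous symbol) after reading `τ` from the state `b`. -/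
def endState : Bool → List Bool → Bool
  | b, [] => b
  | _, c :: τ => endState c τ

theorem tk_append (b : Bool) (π ρ : List Bool) :
    tk b (π ++ ρ) = tk b π + tk (endState b π) ρ := by
  induction π generalizing b with
  | nil => simp [tk, endState]
  | cons c π ih =>
    simp only [List.cons_append, tk, endState, ih]
    ring

theorem endState_append (b : Bool) (π ρ : List Bool) :
    endState b (π ++ ρ) = endState (endState b π) ρ := by
  induction π generalizing b with
  | nil => simp [endState]
  | cons c π ih => simp [endState, ih]

/-- The token count of a string, started from the state `1`. -/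
def tok (T : List Bool) : ℕ := tk true T

theorem tok_nil : tok [] = 0 := rfl

theorem tok_true_cons (T : List Bool) : tok (true :: T) = 1 + tok T := by
  simp [tok, tk]

theorem tok_false_nil : tok [false] = 1 := by simp [tok, tk]

theorem tok_false_true (T : List Bool) : tok (false :: true :: T) = 1 + tok T := by
  simp [tok, tk]

theorem tok_false_false (T : List Bool) : tok (false :: false :: T) = 1 + tok (false :: T) := by
  simp [tok, tk]

section

variable {q : ℝ} (hq0 : 0 < q) (hq1 : q < 1)

/-- The weight `p^N q^(2M-N)`. -/
noncomputable def wgt (q : ℝ) (M : ℕ) (N : ℕ) : ℝ := (1 - q) ^ N * q ^ ((2 * M : ℤ) - N)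

include hq0 in
theorem wgt_succ_left (M N : ℕ) : wgt q (M + 1) N = q ^ 2 * wgt q M N := by
  unfold wgt
  have e : (2 * ((M + 1 : ℕ) : ℤ) - N) = 2 + (2 * (M : ℤ) - N) := by push_cast; ring
  rw [e, zpow_add₀ hq0.ne']
  simp only [zpow_two, pow_two]
  ring

include hq0 in
theorem wgt_succ_right (M N : ℕ) : q * wgt q M (N + 1) = (1 - q) * wgt q M N := by
  unfold wgt
  have e : (2 * (M : ℤ) - ((N + 1 : ℕ) : ℤ)) = (2 * (M : ℤ) - N) - 1 := by push_cast; ring
  rw [e, zpow_sub₀ hq0.ne', zpow_one, pow_succ]
  field_simp

theorem traceProb_nil_cons (q : ℝ) (c : Bool) (T : List Bool) :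
    traceProb q [] (c :: T) = 0 := by simp [traceProb]

theorem traceProb_cons_nil (q : ℝ) (b : Bool) (x : List Bool) :
    traceProb q (b :: x) [] = q * traceProb q x [] := by simp [traceProb]

theorem traceProb_cons_cons (q : ℝ) (b c : Bool) (x T : List Bool) :
    traceProb q (b :: x) (c :: T) =
      q * traceProb q x (c :: T) + if b = c then (1 - q) * traceProb q x T else 0 := by
  simp [traceProb]

include hq0 in
/-- The closed form of the trace probabilities of `(01)^M`. -/
theorem traceProb_alt (M : ℕ) (T : List Bool) :
    traceProb q (alt M) T = wgt q M T.length * chZ ((M : ℤ) - tok T) T.length := by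
  induction M generalizing T with
  | zero =>
    cases T with
    | nil => simp [alt, traceProb, wgt, chZ, tok, tk]
    | cons c T =>
      have : ((0 : ℕ) : ℤ) - (tok (c :: T) : ℤ) < 0 := by
        have : 1 ≤ tok (c :: T) := by
          simp only [tok, tk]; cases c <;> simp <;> omega
        push_cast; omega
      rw [chZ_neg this]
      simp [alt, traceProb]
  | succ M ih =>
    have ihq := fun τ => ih τ
    -- the three kinds of strings
    cases T with
    | nil =>
      simp only [alt, traceProb_cons_nil, ih, wgt_succ_left hq0, List.length_nil, tok_nil]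
      rw [chZ_zero _ (by push_cast; omega), chZ_zero _ (by push_cast; omega)]
      ring
    | cons c T =>
      cases c with
      | true =>
        have e1 : traceProb q (alt (M + 1)) (true :: T) =
            q * (q * traceProb q (alt M) (true :: T) + (1 - q) * traceProb q (alt M) T) := by
          simp [alt, traceProb_cons_cons]
        rw [e1, ih, ih]
        simp only [List.length_cons, tok_true_cons, wgt_succ_left hq0]
        have e2 : ((M + 1 : ℕ) : ℤ) - ((1 + tok T : ℕ) : ℤ) = ((M : ℤ) - tok T) := by
          push_cast; ring
        have e3 : ((M : ℤ) - ((1 + tok T : ℕ) : ℤ)) + 1 = ((M : ℤ) - tok T) := by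
          push_cast; ring
        have e4 := chZ_pascal ((M : ℤ) - ((1 + tok T : ℕ) : ℤ)) T.length
        rw [e3] at e4
        rw [e2, e4, ← sub_eq_zero]
        have e5 := wgt_succ_right hq0 M T.length
        have e6 : (q * (q * (wgt q M (T.length + 1) * chZ (↑M - ↑(1 + tok T)) (T.length + 1))
              + (1 - q) * (wgt q M T.length * chZ (↑M - ↑(tok T)) T.length))) =
            q ^ 2 * wgt q M (T.length + 1) * chZ (↑M - ↑(1 + tok T)) (T.length + 1)
            + q * ((1 - q) * wgt q M T.length) * chZ (↑M - ↑(tok T)) T.length := by ring
        rw [e6, ← e5]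
        ring
      | false =>
        cases T with
        | nil =>
          have e1 : traceProb q (alt (M + 1)) [false] =
              q * (q * traceProb q (alt M) [false]) + (1 - q) * (q * traceProb q (alt M) []) := by
            simp [alt, traceProb_cons_cons, traceProb_cons_nil]
          rw [e1, ih, ih]
          simp only [List.length_cons, List.length_nil, tok_false_nil, tok_nil,
            wgt_succ_left hq0]
          have e4 := chZ_pascal ((M : ℤ) - ((1 : ℕ) : ℤ)) 0
          have e3 : ((M : ℤ) - ((1 : ℕ) : ℤ)) + 1 = ((M : ℤ) - ((0 : ℕ) : ℤ)) := by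
            push_cast; ring
          rw [e3] at e4
          have e2 : ((M + 1 : ℕ) : ℤ) - ((1 : ℕ) : ℤ) = ((M : ℤ) - ((0 : ℕ) : ℤ)) := by
            push_cast; ring
          have e5 := wgt_succ_right hq0 M 0
          simp only [zero_add] at e4 e5 ⊢
          rw [e2, e4]
          linear_combination (-(q * chZ (↑M - ↑0) 0)) * e5
        | cons d T =>
          cases d with
          | true =>
            have e1 : traceProb q (alt (M + 1)) (false :: true :: T) =
                q * (q * traceProb q (alt M) (false :: true :: T)) + (1 - q) *
                  (q * traceProb q (alt M) (true :: T) + (1 - q) * traceProb q (alt M) T) := by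
              simp [alt, traceProb_cons_cons]
            rw [e1, ih, ih, ih]
            simp only [List.length_cons, tok_false_true, tok_true_cons, wgt_succ_left hq0]
            set a : ℤ := (M : ℤ) - ((1 + tok T : ℕ) : ℤ) with ha
            have e2 : ((M + 1 : ℕ) : ℤ) - ((1 + tok T : ℕ) : ℤ) = a + 1 := by
              rw [ha]; push_cast; ring
            have e3 : ((M : ℤ) - (tok T : ℤ)) = a + 1 := by
              rw [ha]; push_cast; ring
            rw [e2, e3, chZ_pascal a (T.length + 1), chZ_pascal a T.length]
            have e5 := wgt_succ_right hq0 M T.length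
            have e7 := wgt_succ_right hq0 M (T.length + 1)
            linear_combination (-(q * chZ a (T.length + 1)) - q * chZ (a + 1) T.length) * e7 + (-(1 - q) * chZ (a + 1) T.length) * e5
          | false =>
            have e1 : traceProb q (alt (M + 1)) (false :: false :: T) =
                q * (q * traceProb q (alt M) (false :: false :: T)) + (1 - q) *
                  (q * traceProb q (alt M) (false :: T)) := by
              simp [alt, traceProb_cons_cons]
            rw [e1, ih, ih]
            simp only [List.length_cons, tok_false_false, wgt_succ_left hq0]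
            set a : ℤ := (M : ℤ) - ((1 + tok (false :: T) : ℕ) : ℤ) with ha
            have e2 : ((M + 1 : ℕ) : ℤ) - ((1 + tok (false :: T) : ℕ) : ℤ) = a + 1 := by
              rw [ha]; push_cast; ring
            have e3 : ((M : ℤ) - (tok (false :: T) : ℤ)) = a + 1 := by
              rw [ha]; push_cast; ring
            rw [e2, e3, chZ_pascal a (T.length + 1)]
            have e7 := wgt_succ_right hq0 M (T.length + 1)
            linear_combination (-(q * chZ (a + 1) (T.length + 1))) * e7

/-! ### splitting traces -/

/-- Sum over all ways of cutting `T` in two. -/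
noncomputable def splitSum : (List Bool → ℝ) → (List Bool → ℝ) → List Bool → ℝ
  | A, B, [] => A [] * B []
  | A, B, c :: T => A [] * B (c :: T) + splitSum (fun τ => A (c :: τ)) B T

/-- Sum over all ways of writing `T = π ++ 1 :: ρ`. -/
noncomputable def onesSum : (List Bool → ℝ) → (List Bool → ℝ) → List Bool → ℝ
  | _, _, [] => 0
  | A, B, c :: T => (if c = true then A [] * B T else 0) + onesSum (fun τ => A (c :: τ)) B T

theorem splitSum_add (A₁ A₂ B : List Bool → ℝ) (a₁ a₂ : ℝ) (T : List Bool) :
    splitSum (fun τ => a₁ * A₁ τ + a₂ * A₂ τ) B T =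
      a₁ * splitSum A₁ B T + a₂ * splitSum A₂ B T := by
  induction T generalizing A₁ A₂ with
  | nil => simp [splitSum]; ring
  | cons c T ih =>
    simp only [splitSum]
    rw [ih]
    ring

theorem splitSum_zero (B : List Bool → ℝ) (T : List Bool) :
    splitSum (fun _ => 0) B T = 0 := by
  induction T with
  | nil => simp [splitSum]
  | cons c T ih => simp [splitSum, ih]

theorem traceProb_append (q : ℝ) (u v T : List Bool) :
    traceProb q (u ++ v) T = splitSum (traceProb q u) (traceProb q v) T := by
  induction u generalizing T with
  | nil =>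
    cases T with
    | nil => simp [traceProb, splitSum]
    | cons c T =>
      simp only [List.nil_append, splitSum]
      have : (fun τ => traceProb q [] (c :: τ)) = fun _ => (0 : ℝ) := by
        funext τ; simp [traceProb]
      rw [this, splitSum_zero]
      simp [traceProb]
  | cons b u ih =>
    -- split the first bit
    have key : ∀ T : List Bool, splitSum (traceProb q (b :: u)) (traceProb q v) T =
        q * splitSum (traceProb q u) (traceProb q v) T +
          (match T with
            | [] => 0
            | c :: T' => if b = c then (1 - q) * splitSum (traceProb q u) (traceProb q v) T'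
                else 0) := by
      intro T
      cases T with
      | nil => simp [splitSum, traceProb]; ring
      | cons c T =>
        simp only [splitSum, traceProb_cons_nil]
        have e : (fun τ => traceProb q (b :: u) (c :: τ)) = fun τ =>
            q * traceProb q u (c :: τ) + (if b = c then (1 - q) else 0) * traceProb q u τ := by
          funext τ
          rw [traceProb_cons_cons]
          split_ifs <;> ring
        rw [e, splitSum_add]
        split_ifs
        · ring
        · ring
    rw [key]
    cases T with
    | nil => simp [traceProb, ih]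
    | cons c T =>
      simp only [List.cons_append, traceProb_cons_cons, ih]

theorem splitSum_cons_true (q : ℝ) (A : List Bool → ℝ) (v T : List Bool) :
    splitSum A (traceProb q (true :: v)) T =
      q * splitSum A (traceProb q v) T + (1 - q) * onesSum A (traceProb q v) T := by
  induction T generalizing A with
  | nil => simp [splitSum, onesSum, traceProb_cons_nil]; ring
  | cons c T ih =>
    simp only [splitSum, onesSum, ih, traceProb_cons_cons]
    cases c <;> simp <;> ring

/-- The trace probability of `(01)^s 1 (01)^t`. -/
theorem traceProb_defect (q : ℝ) (s t : ℕ) (T : List Bool) :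
    traceProb q (alt s ++ true :: alt t) T =
      q * traceProb q (alt (s + t)) T
        + (1 - q) * onesSum (traceProb q (alt s)) (traceProb q (alt t)) T := by
  rw [traceProb_append, splitSum_cons_true, alt_add, traceProb_append]

/-! ### the chain sum -/

/-- The next value of the free-token coordinate. -/
def nxt (a : ℤ) (b c : Bool) : ℤ := if (!b && c) = true then a else a - 1

/-- `1` if the state is `1`, otherwise `0`. -/
def fb (b : Bool) : ℕ := if b = true then 1 else 0

/-- The summand of the defect formula. -/
noncomputable def ker (N : ℕ) (S : ℤ) (b : Bool) (a : ℤ) (j : ℕ) : ℝ :=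
  chZ a j * chZ (S + fb b - a) (N - 1 - j)

/-- The sum of the summands `ker` along the string. -/
noncomputable def chainK (N : ℕ) (S : ℤ) : ℤ → ℕ → Bool → List Bool → ℝ
  | _, _, _, [] => 0
  | a, j, b, c :: ρ =>
      (if c = true then ker N S b a j else 0) + chainK N S (nxt a b c) (j + 1) c ρ

theorem tk_one_add (b c : Bool) : tk b [c] = if (!b && c) = true then 0 else 1 := by
  simp [tk]

include hq0 in
/-- `onesSum` along a string, in closed form. -/
theorem onesSum_alt (s t : ℕ) (π ρ : List Bool) :
    onesSum (fun τ => traceProb q (alt s) (π ++ τ)) (traceProb q (alt t)) ρ =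
      (1 - q) ^ (π.length + ρ.length - 1) *
        q ^ ((2 * ((s + t : ℕ) : ℤ)) - (π.length + ρ.length - 1 : ℤ)) *
        chainK (π.length + ρ.length) (((s + t : ℕ) : ℤ) - tok (π ++ ρ))
          ((s : ℤ) - tok π) π.length (endState true π) ρ := by
  induction ρ generalizing π with
  | nil => simp [onesSum, chainK]
  | cons c ρ ih =>
    simp only [onesSum, chainK]
    have e := ih (π ++ [c])
    have e1 : (fun τ => traceProb q (alt s) (π ++ [c] ++ τ)) =
        fun τ => traceProb q (alt s) (π ++ c :: τ) := by
      funext τ; simp
    rw [e1] at e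
    rw [e]
    have e2 : (π ++ [c]).length + ρ.length = π.length + (c :: ρ).length := by simp; ring
    have e3 : π ++ [c] ++ ρ = π ++ c :: ρ := by simp
    have e4 : ((s : ℤ) - (tok (π ++ [c]) : ℤ)) = nxt ((s : ℤ) - tok π) (endState true π) c := by
      have : tok (π ++ [c]) = tok π + tk (endState true π) [c] := tk_append _ _ _
      rw [this, tk_one_add]
      unfold nxt
      split_ifs <;> push_cast <;> ring
    have e5 : endState true (π ++ [c]) = c := by
      rw [endState_append]; rfl
    have e7 : (π ++ [c]).length = π.length + 1 := by simp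
    have e6 : ((π.length + 1 : ℕ) : ℤ) + (ρ.length : ℤ) - 1 =
        (π.length : ℤ) + ((c :: ρ).length : ℤ) - 1 := by
      simp; ring
    rw [e2, e3, e4, e5, e7, e6]
    simp only [mul_add]
    congr 1
    -- the new term
    split_ifs with hc
    · subst hc
      rw [List.append_nil, traceProb_alt hq0, traceProb_alt hq0]
      unfold ker wgt
      set N := π.length + (ρ.length + 1) with hN
      have hN' : (π ++ true :: ρ).length = N := by simp [hN]
      have e8 : ((s + t : ℕ) : ℤ) - tok (π ++ true :: ρ) + (fb (endState true π) : ℤ)
          - ((s : ℤ) - tok π) = (t : ℤ) - tok ρ := by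
        have : tok (π ++ true :: ρ) = tok π + tk (endState true π) (true :: ρ) := tk_append _ _ _
        rw [this]
        simp only [tk, tok]
        cases endState true π <;> simp [fb] <;> ring
      simp only [List.length_cons] at *
      rw [← hN, e8]
      have e9 : N - 1 - π.length = ρ.length := by omega
      rw [e9]
      have e10 : N - 1 = π.length + ρ.length := by omega
      rw [e10, pow_add]
      have e11 : (2 * ((s + t : ℕ) : ℤ)) - ((π.length : ℤ) + ((ρ.length + 1 : ℕ) : ℤ) - 1) =
          (2 * (s : ℤ) - π.length) + (2 * (t : ℤ) - ρ.length) := by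
        push_cast; ring
      rw [e11, zpow_add₀ hq0.ne']
      ring
    · simp

/-- The sum `chainK` is shifted along with its starting point. -/
theorem nxt_add_one (a : ℤ) (b c : Bool) : nxt (a + 1) b c = nxt a b c + 1 := by
  unfold nxt; split_ifs <;> ring

/-- Differences of `ker` along the string, normalized by `C(S+N, N)`. -/
noncomputable def hk (N S : ℕ) (b : Bool) (a : ℤ) (j : ℕ) : ℝ :=
  (ker N S b a j - ker N S b (a + 1) j) / ((S + N).choose N : ℝ)

/-- The main chain sum: the sum of the `hk` along the string. -/
noncomputable def chainSum (N S : ℕ) : ℤ → ℕ → Bool → List Bool → ℝ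
  | _, _, _, [] => 0
  | a, j, b, c :: ρ =>
      (if c = true then hk N S b a j else 0) + chainSum N S (nxt a b c) (j + 1) c ρ

theorem chainK_sub (N S : ℕ) (a : ℤ) (j : ℕ) (b : Bool) (ρ : List Bool) :
    chainK N S a j b ρ - chainK N S (a + 1) j b ρ =
      ((S + N).choose N : ℝ) * chainSum N S a j b ρ := by
  have hC : ((S + N).choose N : ℝ) ≠ 0 := by
    have : 0 < (S + N).choose N := Nat.choose_pos (by omega)
    positivity
  induction ρ generalizing a j b with
  | nil => simp [chainK, chainSum]
  | cons c ρ ih =>
    simp only [chainK, chainSum, nxt_add_one]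
    have e := ih (nxt a b c) (j + 1) c
    split_ifs with hc
    · simp only [hk]
      field_simp
      field_simp at e
      linear_combination e
    · simp only [zero_add]
      simpa using e

include hq0 in
/-- The exact formula for the difference of the trace laws of the two strings
`(01)^m 1 (01)^(t+1)` and `(01)^(m+1) 1 (01)^t`. -/
theorem traceProb_diff (m t S : ℕ) (T : List Bool)
    (hS : (S : ℤ) = ((m + t + 1 : ℕ) : ℤ) - tok T) :
    traceProb q (alt m ++ true :: alt (t + 1)) T - traceProb q (alt (m + 1) ++ true :: alt t) T =
      traceProb q (alt (m + t + 1)) T * (q * chainSum T.length S (m : ℤ) 0 true T) := by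
  have e1 := traceProb_defect q m (t + 1) T
  have e2 := traceProb_defect q (m + 1) t T
  have a1 : m + (t + 1) = m + t + 1 := by ring
  have a2 : m + 1 + t = m + t + 1 := by ring
  rw [e1, e2, a1, a2]
  have o1 := onesSum_alt hq0 m (t + 1) [] T
  have o2 := onesSum_alt hq0 (m + 1) t [] T
  simp only [List.nil_append, List.length_nil, Nat.cast_zero, zero_add, tok_nil, sub_zero] at o1 o2
  have o1' : onesSum (traceProb q (alt m)) (traceProb q (alt (t + 1))) T = _ := o1
  have o2' : onesSum (traceProb q (alt (m + 1))) (traceProb q (alt t)) T = _ := o2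
  rw [o1', o2', a1, a2, traceProb_alt hq0, ← hS]
  have e3 : ((m + 1 : ℕ) : ℤ) = (m : ℤ) + 1 := by push_cast; ring
  have e4 : (endState true [] ) = true := rfl
  rw [e3, e4]
  have e5 := chainK_sub T.length S (m : ℤ) 0 true T
  have e6 : ((S : ℤ) + (0 : ℕ)) = (S : ℤ) := by simp
  have e7 : chZ (S : ℤ) T.length = ((S + T.length).choose T.length : ℝ) := chZ_natCast _ _
  rw [e7]
  cases hT : T.length with
  | zero =>
    have : T = [] := List.length_eq_zero_iff.1 hT
    subst this
    simp [chainK, chainSum]
  | succ n =>
    rw [hT] at e5
    have hz : (q : ℝ) ^ ((2 : ℤ) * ((m + t + 1 : ℕ) : ℤ) - ((n : ℤ) + 1 - 1)) =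
        q * q ^ ((2 * ((m + t + 1 : ℕ) : ℤ)) - ((n + 1 : ℕ) : ℤ)) := by
      have : (2 : ℤ) * ((m + t + 1 : ℕ) : ℤ) - ((n : ℤ) + 1 - 1) =
          1 + ((2 * ((m + t + 1 : ℕ) : ℤ)) - ((n + 1 : ℕ) : ℤ)) := by push_cast; ring
      rw [this, zpow_add₀ hq0.ne', zpow_one]
    have hz' : n + 1 - 1 = n := by omega
    simp only [wgt, hz', Nat.cast_add, Nat.cast_one] at *
    rw [hz]
    linear_combination
      ((1 - q) * ((1 - q) ^ n * (q * q ^ (2 * ((m : ℤ) + t + 1) - ((n : ℤ) + 1))))) * e5

end

end Vale.Agent.Lib.P321
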