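import Vale.Agent.Lib.P321.Class
import Vale.Agent.Lib.P321.Exact

/-!
# P321: the mask expectation and the tails of the statistics of a trace
-/

namespace Vale.Agent.Lib.P321

/-- Expectation of a function of the trace of `x`. -/
noncomputable def Ex (q : ℝ) : List Bool → (List Bool → ℝ) → ℝ
  | [], φ => φ []
  | b :: x, φ => q * Ex q x φ + (1 - q) * Ex q x (fun T => φ (b :: T))

section

variable {q : ℝ}

theorem Ex_add (x : List Bool) (φ ψ : List Bool → ℝ) :
    Ex q x (fun T => φ T + ψ T) = Ex q x φ + Ex q x ψ := by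
  induction x generalizing φ ψ with
  | nil => simp [Ex]
  | cons b x ih =>
    simp only [Ex]
    rw [ih, ih]
    ring

theorem Ex_mul (x : List Bool) (c : ℝ) (φ : List Bool → ℝ) :
    Ex q x (fun T => c * φ T) = c * Ex q x φ := by
  induction x generalizing φ with
  | nil => simp [Ex]
  | cons b x ih =>
    simp only [Ex]
    rw [ih, ih]
    ring

theorem Ex_const (x : List Bool) (c : ℝ) : Ex q x (fun _ => c) = c := by
  induction x with
  | nil => simp [Ex]
  | cons b x ih =>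
    simp only [Ex, ih]
    ring

theorem Ex_mono (h0 : 0 ≤ q) (h1 : q ≤ 1) (x : List Bool) {φ ψ : List Bool → ℝ}
    (h : ∀ T, φ T ≤ ψ T) : Ex q x φ ≤ Ex q x ψ := by
  induction x generalizing φ ψ with
  | nil => simpa [Ex] using h []
  | cons b x ih =>
    simp only [Ex]
    have h2 := ih h
    have h3 := ih (φ := fun T => φ (b :: T)) (ψ := fun T => ψ (b :: T)) (fun T => h _)
    have h4 : 0 ≤ 1 - q := by linarith
    nlinarith [mul_le_mul_of_nonneg_left h2 h0, mul_le_mul_of_nonneg_left h3 h4]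

theorem Ex_nonneg (h0 : 0 ≤ q) (h1 : q ≤ 1) (x : List Bool) {φ : List Bool → ℝ}
    (h : ∀ T, 0 ≤ φ T) : 0 ≤ Ex q x φ := by
  have := Ex_mono h0 h1 x (φ := fun _ => 0) (ψ := φ) h
  rwa [Ex_const] at this

theorem Ex_append (u v : List Bool) (φ : List Bool → ℝ) :
    Ex q (u ++ v) φ = Ex q u (fun τ₁ => Ex q v (fun τ₂ => φ (τ₁ ++ τ₂))) := by
  induction u generalizing φ with
  | nil => simp [Ex]
  | cons b u ih =>
    simp only [List.cons_append, Ex]
    rw [ih, ih]

/-- The expectation of the indicator-free exponential of the length. -/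
theorem Ex_length (x : List Bool) (l : ℝ) :
    Ex q x (fun T => l ^ T.length) = (q + (1 - q) * l) ^ x.length := by
  induction x with
  | nil => simp [Ex]
  | cons b x ih =>
    simp only [Ex, List.length_cons, pow_succ]
    have e : (fun T : List Bool => l ^ T.length * l) = fun T => l * l ^ T.length := by
      funext T; ring
    rw [e, Ex_mul, ih]
    ring

/-! ### facts on tokens -/

theorem tk_false_le (T : List Bool) : tk false T ≤ tk true T := by
  cases T with
  | nil => simp [tk]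
  | cons c T => cases c <;> simp [tk]

theorem tk_le_tok (b : Bool) (T : List Bool) : tk b T ≤ tok T := by
  cases b
  · exact tk_false_le T
  · exact le_rfl

theorem tok_cons_le (c : Bool) (T : List Bool) : tok (c :: T) ≤ 1 + tok T := by
  cases c
  · simp only [tok, tk]
    have := tk_false_le T
    simp
    omega
  · simp [tok, tk]

theorem tk_le_length (b : Bool) (T : List Bool) : tk b T ≤ T.length := by
  induction T generalizing b with
  | nil => simp [tk]
  | cons c T ih =>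
    have := ih c
    simp only [tk, List.length_cons]
    split_ifs <;> omega

theorem tok_append_le (u v : List Bool) : tok (u ++ v) ≤ tok u + tok v := by
  have e : tok (u ++ v) = tok u + tk (endState true u) v := tk_append _ _ _
  have := tk_le_tok (endState true u) v
  omega

theorem tok_append_one_le (u v : List Bool) : tok (u ++ true :: v) ≤ tok u + 1 + tok v := by
  have e : tok (u ++ true :: v) = tok u + tk (endState true u) (true :: v) := tk_append _ _ _
  have h2 : tk (endState true u) (true :: v) ≤ 1 + tok v := by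
    simp only [tk, tok]
    split_ifs <;> omega
  omega

/-- The statistic counting the `01` in a string, as an integer. -/
def cz (T : List Bool) : ℤ := (T.length : ℤ) - tok T

theorem cz_cons (c : Bool) (T : List Bool) : cz T ≤ cz (c :: T) := by
  unfold cz
  have := tok_cons_le c T
  simp only [List.length_cons]
  push_cast
  omega

theorem cz_zero_one (T : List Bool) : cz (false :: true :: T) = cz T + 1 := by
  unfold cz
  rw [tok_false_true]
  simp only [List.length_cons]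
  push_cast
  ring

theorem cz_append (u v : List Bool) : cz u + cz v ≤ cz (u ++ v) := by
  unfold cz
  have := tok_append_le u v
  simp only [List.length_append]
  push_cast
  omega

theorem cz_append_one (u v : List Bool) : cz u + cz v ≤ cz (u ++ true :: v) := by
  unfold cz
  have := tok_append_one_le u v
  simp only [List.length_append, List.length_cons]
  push_cast
  omega

/-! ### exponential moments -/

variable {l : ℝ}

theorem zpow_anti (hl0 : 0 < l) (hl1 : l ≤ 1) {e f : ℤ} (h : e ≤ f) : l ^ f ≤ l ^ e :=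
  zpow_le_zpow_right_of_le_one₀ hl0 hl1 h

/-- Exponential moment of the number of free tokens for `(01)^s`. -/
theorem Ex_alt_free (h0 : 0 < q) (h1 : q < 1) (hl0 : 0 < l) (hl1 : l ≤ 1) (s : ℕ) :
    Ex q (alt s) (fun T => l ^ ((s : ℤ) - tok T)) ≤ (1 - q ^ 2 + q ^ 2 * l) ^ s := by
  have hp : 0 ≤ 1 - q := by linarith
  induction s with
  | zero => simp [alt, Ex, tok, tk]
  | succ s ih =>
    have hE : Ex q (alt (s + 1)) (fun T => l ^ (((s + 1 : ℕ) : ℤ) - tok T)) =
        q * (q * Ex q (alt s) (fun T => l ^ (((s + 1 : ℕ) : ℤ) - tok T))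
          + (1 - q) * Ex q (alt s) (fun T => l ^ (((s + 1 : ℕ) : ℤ) - tok (true :: T))))
        + (1 - q) * (q * Ex q (alt s) (fun T => l ^ (((s + 1 : ℕ) : ℤ) - tok (false :: T)))
          + (1 - q) * Ex q (alt s) (fun T => l ^ (((s + 1 : ℕ) : ℤ) - tok (false :: true :: T)))) := by
      simp only [alt, Ex]
    rw [hE]
    set E := Ex q (alt s) (fun T => l ^ ((s : ℤ) - tok T)) with hEdef
    have hE0 : 0 ≤ E := Ex_nonneg h0.le h1.le _ (fun T => by positivity)
    have e1 : Ex q (alt s) (fun T => l ^ (((s + 1 : ℕ) : ℤ) - tok T)) = l * E := by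
      rw [hEdef, ← Ex_mul]
      congr 1
      funext T
      have : ((s + 1 : ℕ) : ℤ) - tok T = 1 + ((s : ℤ) - tok T) := by push_cast; ring
      rw [this, zpow_add₀ hl0.ne', zpow_one]
    have e2 : Ex q (alt s) (fun T => l ^ (((s + 1 : ℕ) : ℤ) - tok (true :: T))) = E := by
      rw [hEdef]
      congr 1
      funext T
      rw [tok_true_cons]
      congr 1
      push_cast
      ring
    have e3 : Ex q (alt s) (fun T => l ^ (((s + 1 : ℕ) : ℤ) - tok (false :: T))) ≤ E := by
      apply Ex_mono h0.le h1.le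
      intro T
      apply zpow_anti hl0 hl1
      have := tok_cons_le false T
      push_cast
      omega
    have e4 : Ex q (alt s) (fun T => l ^ (((s + 1 : ℕ) : ℤ) - tok (false :: true :: T))) = E := by
      rw [hEdef]
      congr 1
      funext T
      rw [tok_false_true]
      congr 1
      push_cast
      ring
    rw [e1, e2, e4]
    have hθ : 0 ≤ 1 - q ^ 2 + q ^ 2 * l := by nlinarith [sq_nonneg q, mul_pos hl0 hl0]
    calc q * (q * (l * E) + (1 - q) * E) + (1 - q) * (q * Ex q (alt s) (fun T => l ^ (((s + 1 : ℕ) : ℤ) - tok (false :: T))) + (1 - q) * E)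
        ≤ q * (q * (l * E) + (1 - q) * E) + (1 - q) * (q * E + (1 - q) * E) := by
          have := mul_le_mul_of_nonneg_left e3 h0.le
          have h5 := mul_le_mul_of_nonneg_left (add_le_add_right this ((1 - q) * E)) hp
          linarith
      _ = (1 - q ^ 2 + q ^ 2 * l) * E := by ring
      _ ≤ (1 - q ^ 2 + q ^ 2 * l) * (1 - q ^ 2 + q ^ 2 * l) ^ s :=
          mul_le_mul_of_nonneg_left ih hθ
      _ = _ := by rw [pow_succ]; ring

/-- Exponential moment of the `01`-count for `(01)^s`. -/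
theorem Ex_alt_cz (h0 : 0 < q) (h1 : q < 1) (hl0 : 0 < l) (hl1 : l ≤ 1) (s : ℕ) :
    Ex q (alt s) (fun T => l ^ (cz T)) ≤ (1 - (1 - q) ^ 2 + (1 - q) ^ 2 * l) ^ s := by
  have hp : 0 ≤ 1 - q := by linarith
  induction s with
  | zero => simp [alt, Ex, cz, tok, tk]
  | succ s ih =>
    have hE : Ex q (alt (s + 1)) (fun T => l ^ (cz T)) =
        q * (q * Ex q (alt s) (fun T => l ^ (cz T))
          + (1 - q) * Ex q (alt s) (fun T => l ^ (cz (true :: T))))
        + (1 - q) * (q * Ex q (alt s) (fun T => l ^ (cz (false :: T)))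
          + (1 - q) * Ex q (alt s) (fun T => l ^ (cz (false :: true :: T)))) := by
      simp only [alt, Ex]
    rw [hE]
    set E := Ex q (alt s) (fun T => l ^ (cz T)) with hEdef
    have hE0 : 0 ≤ E := Ex_nonneg h0.le h1.le _ (fun T => by positivity)
    have e1 : Ex q (alt s) (fun T => l ^ (cz (true :: T))) ≤ E :=
      Ex_mono h0.le h1.le _ (fun T => zpow_anti hl0 hl1 (cz_cons _ _))
    have e2 : Ex q (alt s) (fun T => l ^ (cz (false :: T))) ≤ E :=
      Ex_mono h0.le h1.le _ (fun T => zpow_anti hl0 hl1 (cz_cons _ _))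
    have e3 : Ex q (alt s) (fun T => l ^ (cz (false :: true :: T))) = l * E := by
      rw [hEdef, ← Ex_mul]
      congr 1
      funext T
      rw [cz_zero_one, zpow_add₀ hl0.ne', zpow_one]
      ring
    rw [e3]
    have hθ : 0 ≤ 1 - (1 - q) ^ 2 + (1 - q) ^ 2 * l := by
      have : (1 - q) ^ 2 ≤ 1 := by nlinarith
      have : 0 ≤ (1 - q) ^ 2 * l := by positivity
      linarith
    have t1 := mul_le_mul_of_nonneg_left e1 hp
    have t2 := mul_le_mul_of_nonneg_left e2 h0.le
    have t3 := mul_le_mul_of_nonneg_left t1 h0.le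
    have t4 := mul_le_mul_of_nonneg_left t2 hp
    calc q * (q * E + (1 - q) * Ex q (alt s) (fun T => l ^ (cz (true :: T))))
          + (1 - q) * (q * Ex q (alt s) (fun T => l ^ (cz (false :: T))) + (1 - q) * (l * E))
        ≤ q * (q * E + (1 - q) * E) + (1 - q) * (q * E + (1 - q) * (l * E)) := by
          nlinarith
      _ = (1 - (1 - q) ^ 2 + (1 - q) ^ 2 * l) * E := by ring
      _ ≤ (1 - (1 - q) ^ 2 + (1 - q) ^ 2 * l) * (1 - (1 - q) ^ 2 + (1 - q) ^ 2 * l) ^ s :=
          mul_le_mul_of_nonneg_left ih hθ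
      _ = _ := by rw [pow_succ]; ring

/-- Expectation for a string with a defect. -/
theorem Ex_defect (s t : ℕ) (φ : List Bool → ℝ) :
    Ex q (alt s ++ true :: alt t) φ = Ex q (alt s) (fun τ₁ =>
      q * Ex q (alt t) (fun τ₂ => φ (τ₁ ++ τ₂))
        + (1 - q) * Ex q (alt t) (fun τ₂ => φ (τ₁ ++ true :: τ₂))) := by
  rw [Ex_append]
  simp only [Ex]

/-- Exponential moment of the number of free tokens for a string with a defect. -/
theorem Ex_defect_free (h0 : 0 < q) (h1 : q < 1) (hl0 : 0 < l) (hl1 : l ≤ 1) (s t : ℕ) :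
    Ex q (alt s ++ true :: alt t) (fun T => l ^ (((s + t : ℕ) : ℤ) - tok T)) ≤
      l⁻¹ * (1 - q ^ 2 + q ^ 2 * l) ^ (s + t) := by
  rw [Ex_defect]
  have hp : 0 ≤ 1 - q := by linarith
  have hθ : 0 ≤ 1 - q ^ 2 + q ^ 2 * l := by nlinarith [sq_nonneg q, mul_pos hl0 hl0]
  have key : ∀ τ₁ : List Bool,
      q * Ex q (alt t) (fun τ₂ => l ^ (((s + t : ℕ) : ℤ) - tok (τ₁ ++ τ₂)))
        + (1 - q) * Ex q (alt t) (fun τ₂ => l ^ (((s + t : ℕ) : ℤ) - tok (τ₁ ++ true :: τ₂))) ≤
      (l⁻¹ * (1 - q ^ 2 + q ^ 2 * l) ^ t) * l ^ ((s : ℤ) - tok τ₁) := by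
    intro τ₁
    have hbd : ∀ (τ₂ : List Bool) (T : List Bool), tok T ≤ tok τ₁ + 1 + tok τ₂ →
        l ^ (((s + t : ℕ) : ℤ) - tok T) ≤ l⁻¹ * (l ^ ((s : ℤ) - tok τ₁) * l ^ ((t : ℤ) - tok τ₂)) := by
      intro τ₂ T hT
      have e : l⁻¹ * (l ^ ((s : ℤ) - tok τ₁) * l ^ ((t : ℤ) - tok τ₂)) =
          l ^ ((-1 : ℤ) + (((s : ℤ) - tok τ₁) + ((t : ℤ) - tok τ₂))) := by
        rw [zpow_add₀ hl0.ne', zpow_add₀ hl0.ne', zpow_neg_one]
      rw [e]
      apply zpow_anti hl0 hl1
      push_cast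
      omega
    have t1 : Ex q (alt t) (fun τ₂ => l ^ (((s + t : ℕ) : ℤ) - tok (τ₁ ++ τ₂))) ≤
        Ex q (alt t) (fun τ₂ => (l⁻¹ * l ^ ((s : ℤ) - tok τ₁)) * l ^ ((t : ℤ) - tok τ₂)) := by
      apply Ex_mono h0.le h1.le
      intro τ₂
      have := hbd τ₂ (τ₁ ++ τ₂) (by have := tok_append_le τ₁ τ₂; omega)
      calc _ ≤ _ := this
        _ = _ := by ring
    have t2 : Ex q (alt t) (fun τ₂ => l ^ (((s + t : ℕ) : ℤ) - tok (τ₁ ++ true :: τ₂))) ≤
        Ex q (alt t) (fun τ₂ => (l⁻¹ * l ^ ((s : ℤ) - tok τ₁)) * l ^ ((t : ℤ) - tok τ₂)) := by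
      apply Ex_mono h0.le h1.le
      intro τ₂
      have := hbd τ₂ (τ₁ ++ true :: τ₂) (tok_append_one_le τ₁ τ₂)
      calc _ ≤ _ := this
        _ = _ := by ring
    rw [Ex_mul] at t1 t2
    have h3 := Ex_alt_free h0 h1 hl0 hl1 t
    have hc : 0 ≤ l⁻¹ * l ^ ((s : ℤ) - tok τ₁) := by positivity
    have h4 := mul_le_mul_of_nonneg_left h3 hc
    have h5 := mul_le_mul_of_nonneg_left (t1.trans h4) h0.le
    have h6 := mul_le_mul_of_nonneg_left (t2.trans h4) hp
    calc _ ≤ q * (l⁻¹ * l ^ ((s : ℤ) - tok τ₁) * (1 - q ^ 2 + q ^ 2 * l) ^ t)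
          + (1 - q) * (l⁻¹ * l ^ ((s : ℤ) - tok τ₁) * (1 - q ^ 2 + q ^ 2 * l) ^ t) :=
          add_le_add h5 h6
      _ = _ := by ring
  have h7 := Ex_mono h0.le h1.le (alt s) key
  refine h7.trans ?_
  rw [Ex_mul]
  have h8 := Ex_alt_free h0 h1 hl0 hl1 s
  have hc : 0 ≤ l⁻¹ * (1 - q ^ 2 + q ^ 2 * l) ^ t := by positivity
  have h9 := mul_le_mul_of_nonneg_left h8 hc
  refine h9.trans (le_of_eq ?_)
  rw [pow_add]
  ring

/-- Exponential moment of the `01`-count for a string with a defect. -/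
theorem Ex_defect_cz (h0 : 0 < q) (h1 : q < 1) (hl0 : 0 < l) (hl1 : l ≤ 1) (s t : ℕ) :
    Ex q (alt s ++ true :: alt t) (fun T => l ^ (cz T)) ≤
      (1 - (1 - q) ^ 2 + (1 - q) ^ 2 * l) ^ (s + t) := by
  rw [Ex_defect]
  have hp : 0 ≤ 1 - q := by linarith
  have hθ : 0 ≤ 1 - (1 - q) ^ 2 + (1 - q) ^ 2 * l := by
    have : (1 - q) ^ 2 ≤ 1 := by nlinarith
    have : 0 ≤ (1 - q) ^ 2 * l := by positivity
    linarith
  have key : ∀ τ₁ : List Bool,
      q * Ex q (alt t) (fun τ₂ => l ^ (cz (τ₁ ++ τ₂)))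
        + (1 - q) * Ex q (alt t) (fun τ₂ => l ^ (cz (τ₁ ++ true :: τ₂))) ≤
      ((1 - (1 - q) ^ 2 + (1 - q) ^ 2 * l) ^ t) * l ^ (cz τ₁) := by
    intro τ₁
    have t1 : Ex q (alt t) (fun τ₂ => l ^ (cz (τ₁ ++ τ₂))) ≤
        Ex q (alt t) (fun τ₂ => l ^ (cz τ₁) * l ^ (cz τ₂)) := by
      apply Ex_mono h0.le h1.le
      intro τ₂
      rw [← zpow_add₀ hl0.ne']
      exact zpow_anti hl0 hl1 (cz_append _ _)
    have t2 : Ex q (alt t) (fun τ₂ => l ^ (cz (τ₁ ++ true :: τ₂))) ≤
        Ex q (alt t) (fun τ₂ => l ^ (cz τ₁) * l ^ (cz τ₂)) := by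
      apply Ex_mono h0.le h1.le
      intro τ₂
      rw [← zpow_add₀ hl0.ne']
      exact zpow_anti hl0 hl1 (cz_append_one _ _)
    rw [Ex_mul] at t1 t2
    have h3 := Ex_alt_cz h0 h1 hl0 hl1 t
    have hc : 0 ≤ l ^ (cz τ₁) := by positivity
    have h4 := mul_le_mul_of_nonneg_left h3 hc
    have h5 := mul_le_mul_of_nonneg_left (t1.trans h4) h0.le
    have h6 := mul_le_mul_of_nonneg_left (t2.trans h4) hp
    calc _ ≤ q * (l ^ (cz τ₁) * (1 - (1 - q) ^ 2 + (1 - q) ^ 2 * l) ^ t)
          + (1 - q) * (l ^ (cz τ₁) * (1 - (1 - q) ^ 2 + (1 - q) ^ 2 * l) ^ t) :=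
          add_le_add h5 h6
      _ = _ := by ring
  have h7 := Ex_mono h0.le h1.le (alt s) key
  refine h7.trans ?_
  rw [Ex_mul]
  have h8 := Ex_alt_cz h0 h1 hl0 hl1 s
  have hc : 0 ≤ (1 - (1 - q) ^ 2 + (1 - q) ^ 2 * l) ^ t := by positivity
  have h9 := mul_le_mul_of_nonneg_left h8 hc
  refine h9.trans (le_of_eq ?_)
  rw [pow_add]
  ring

end

end Vale.Agent.Lib.P321
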