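import Vale.Agent.Lib.P321.Budget5
import Vale.Agent.Lib.P321.Tail

/-!
# P321: summing over the stay classes
-/

namespace Vale.Agent.Lib.P321

/-! ### sums over all lengths -/

/-- Sum over all strings of length at most `n`. -/
noncomputable def SumAll (n : ℕ) (φ : List Bool → ℝ) : ℝ :=
  ∑ N ∈ Finset.range (n + 1), SumL N φ

theorem SumL_congr (n : ℕ) {φ ψ : List Bool → ℝ} (h : ∀ T, T.length = n → φ T = ψ T) :
    SumL n φ = SumL n ψ :=
  le_antisymm (SumL_mono n (fun T hT => (h T hT).le)) (SumL_mono n (fun T hT => (h T hT).ge))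

theorem SumL_const_zero (n : ℕ) : SumL n (fun _ => 0) = 0 := by
  have := SumL_mul n 0 (fun _ => (0:ℝ))
  simpa using this

theorem SumAll_succ (n : ℕ) (φ : List Bool → ℝ) :
    SumAll (n + 1) φ = φ [] + SumAll n (fun T => φ (true :: T)) + SumAll n (fun T => φ (false :: T)) := by
  unfold SumAll
  rw [Finset.sum_range_succ' _ (n + 1)]
  simp only [SumL]
  rw [Finset.sum_add_distrib]
  ring

theorem SumAll_add (n : ℕ) (φ ψ : List Bool → ℝ) :
    SumAll n (fun T => φ T + ψ T) = SumAll n φ + SumAll n ψ := by
  unfold SumAll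
  rw [← Finset.sum_add_distrib]
  exact Finset.sum_congr rfl (fun N _ => SumL_add N φ ψ)

theorem SumAll_mul (n : ℕ) (c : ℝ) (φ : List Bool → ℝ) :
    SumAll n (fun T => c * φ T) = c * SumAll n φ := by
  unfold SumAll
  rw [Finset.mul_sum]
  exact Finset.sum_congr rfl (fun N _ => SumL_mul N c φ)

theorem SumAll_mono (n : ℕ) {φ ψ : List Bool → ℝ} (h : ∀ T, T.length ≤ n → φ T ≤ ψ T) :
    SumAll n φ ≤ SumAll n ψ := by
  unfold SumAll
  apply Finset.sum_le_sum
  intro N hN
  apply SumL_mono
  intro T hT
  apply h
  have := Finset.mem_range.1 hN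
  omega

theorem traceProb_long (q : ℝ) (x T : List Bool) (h : x.length < T.length) :
    traceProb q x T = 0 := by
  induction x generalizing T with
  | nil =>
    cases T with
    | nil => simp at h
    | cons c T => simp [traceProb]
  | cons b x ih =>
    cases T with
    | nil => simp at h
    | cons c T =>
      simp only [List.length_cons] at h
      rw [traceProb_cons_cons, ih _ (by simp; omega), ih T (by omega)]
      simp

theorem traceProb_nonneg {q : ℝ} (h0 : 0 ≤ q) (h1 : q ≤ 1) (x T : List Bool) :
    0 ≤ traceProb q x T := by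
  have hp : 0 ≤ 1 - q := by linarith
  induction x generalizing T with
  | nil =>
    cases T with
    | nil => simp [traceProb]
    | cons c T => simp [traceProb]
  | cons b x ih =>
    cases T with
    | nil =>
      rw [traceProb_cons_nil]
      exact mul_nonneg h0 (ih _)
    | cons c T =>
      rw [traceProb_cons_cons]
      have := mul_nonneg h0 (ih (c :: T))
      split_ifs
      · have := mul_nonneg hp (ih T)
        linarith
      · linarith

/-- The expectation as a sum over traces. -/
theorem Ex_eq_sum (q : ℝ) (x : List Bool) (φ : List Bool → ℝ) :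
    Ex q x φ = SumAll x.length (fun T => traceProb q x T * φ T) := by
  induction x generalizing φ with
  | nil => simp [Ex, SumAll, SumL, traceProb]
  | cons b x ih =>
    simp only [Ex, List.length_cons]
    rw [ih, ih, SumAll_succ]
    -- the string `x` has no trace of length `x.length + 1`
    have e0 : SumAll (x.length + 1) (fun T => traceProb q x T * φ T) =
        SumAll x.length (fun T => traceProb q x T * φ T) := by
      unfold SumAll
      rw [Finset.sum_range_succ _ (x.length + 1)]
      have : SumL (x.length + 1) (fun T => traceProb q x T * φ T) = 0 := by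
        rw [SumL_congr _ (ψ := fun _ => 0) (fun T hT => by
          rw [traceProb_long q x T (by omega)]; simp)]
        exact SumL_const_zero _
      rw [this]; simp
    rw [← e0, SumAll_succ]
    simp only [traceProb_cons_nil, traceProb_cons_cons]
    have e1 : ∀ c : Bool, SumAll x.length (fun T =>
        (q * traceProb q x (c :: T) + if b = c then (1 - q) * traceProb q x T else 0) * φ (c :: T)) =
        q * SumAll x.length (fun T => traceProb q x (c :: T) * φ (c :: T)) +
          (if b = c then (1 - q) * SumAll x.length (fun T => traceProb q x T * φ (c :: T)) else 0) := by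
      intro c
      have : (fun T => (q * traceProb q x (c :: T) + if b = c then (1 - q) * traceProb q x T else 0) * φ (c :: T)) =
          fun T => q * (traceProb q x (c :: T) * φ (c :: T)) +
            (if b = c then (1 - q) else 0) * (traceProb q x T * φ (c :: T)) := by
        funext T
        split_ifs <;> ring
      rw [this, SumAll_add, SumAll_mul, SumAll_mul]
      split_ifs <;> ring
    rw [e1 true, e1 false]
    cases b <;> simp <;> ring

/-- The total mass of the trace law. -/
theorem sum_trace_eq_one (q : ℝ) (x : List Bool) :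
    SumAll x.length (traceProb q x) = 1 := by
  have := Ex_eq_sum q x (fun _ => 1)
  rw [Ex_const] at this
  simpa using this.symm

/-! ### tokens and stays -/

theorem tk_stay (T : List Bool) :
    tk true T + (T.length - stay true T) / 2 = T.length ∧
    tk false T + (T.length - stay false T + 1) / 2 = T.length := by
  induction T with
  | nil => simp [tk, stay]
  | cons c T ih =>
    obtain ⟨h1, h2⟩ := ih
    have s1 := stay_le true T
    have s2 := stay_le false T
    cases c <;> simp only [tk, stay, List.length_cons] <;> simp <;> constructor <;> omega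

theorem tok_eq (T : List Bool) : tok T + (T.length - stay true T) / 2 = T.length := (tk_stay T).1

/-! ### the sum over a class -/

/-- The typicality condition of a class. -/
def Typ (m M D N k : ℕ) : Prop :=
  8 * m ≤ N ∧ N - (N - k) / 2 + 2 * m ≤ M ∧ M ≤ D * ((N - k) / 2)

instance (m M D N k : ℕ) : Decidable (Typ m M D N k) := by
  unfold Typ; infer_instance

theorem chainSum_append (N S : ℕ) (s : St) (π ρ : List Bool) :
    chainSum N S s.1 s.2.1 s.2.2 (π ++ ρ) = chainSum N S s.1 s.2.1 s.2.2 π +
      chainSum N S (endS s π).1 (endS s π).2.1 (endS s π).2.2 ρ := by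
  induction π generalizing s with
  | nil => simp [chainSum, endS]
  | cons d π ih =>
    obtain ⟨a, j, b⟩ := s
    have := ih (nxS (a, j, b) d)
    simp only [List.cons_append, chainSum, endS]
    simp only [nxS] at this ⊢
    rw [this]
    ring

theorem nxt_le (a : ℤ) (b c : Bool) : nxt a b c ≤ a := by
  unfold nxt; split_ifs <;> omega

theorem chainSum_zero (N S : ℕ) {a : ℤ} (ha : a + 1 < 0) (j : ℕ) (b : Bool) (ρ : List Bool) :
    chainSum N S a j b ρ = 0 := by
  induction ρ generalizing a j b with
  | nil => simp [chainSum]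
  | cons c ρ ih =>
    simp only [chainSum]
    rw [ih (by have := nxt_le a b c; omega)]
    have : hk N S b a j = 0 := by
      unfold hk ker
      rw [chZ_neg (by omega), chZ_neg ha]
      simp
    rw [this]
    simp

/-- The chain sum depends only on the prefix of length `2m+4`. -/
theorem chainSum_prefix (N S m : ℕ) (T : List Bool) (hT : 2 * m + 4 ≤ T.length) :
    chainSum N S (m : ℤ) 0 true T = chainSum N S (m : ℤ) 0 true (T.take (2 * m + 4)) := by
  have e := chainSum_append N S ((m : ℤ), 0, true) (T.take (2 * m + 4)) (T.drop (2 * m + 4))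
  rw [List.take_append_drop] at e
  simp only at e
  rw [e]
  have hz : (endS ((m : ℤ), 0, true) (T.take (2 * m + 4))).1 + 1 < 0 := by
    have g := endS_good (Good_start m) (T.take (2 * m + 4))
    have l := endS_level ((m : ℤ), 0, true) (T.take (2 * m + 4))
    have hlen : (T.take (2 * m + 4)).length = 2 * m + 4 := by
      rw [List.length_take]; omega
    rw [hlen] at l
    simp only at l
    obtain ⟨g2, g3⟩ := g
    rw [l] at g3
    have g4 : (((0 + (2 * m + 4) : ℕ) : ℤ)) ≤
        2 * ((m : ℤ) - (endS ((m : ℤ), 0, true) (T.take (2 * m + 4))).1) := by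
      split_ifs at g3 <;> omega
    push_cast at g4
    omega
  rw [chainSum_zero N S hz]
  simp

section

variable {q κ μ cς : ℝ} {m M D N k S : ℕ}

theorem wgt_nonneg (hq0 : 0 < q) (hq1 : q < 1) (M N : ℕ) : 0 ≤ wgt q M N := by
  unfold wgt
  have hp : 0 ≤ 1 - q := by linarith
  have h2 : 0 ≤ q ^ ((2 * M : ℤ) - N) := zpow_nonneg hq0.le _
  positivity

/-- On a stay class the tokens are determined. -/
theorem tok_class {T : List Bool} {N k : ℕ} (hT : T.length = N) (hk : stay true T = k) :
    tok T = N - (N - k) / 2 := by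
  have h1 := tok_eq T
  have h2 := stay_le true T
  rw [hT, hk] at h1
  rw [hT, hk] at h2
  omega

/-- The bound for one class. -/
theorem class_bound (hq0 : 0 < q) (hq1 : q < 1) (hP : Par κ μ m N S) (hk : k ≤ N)
    (hS : S + (N - (N - k) / 2) = M) (hc0 : 0 < cς) (hc1 : cς ≤ 1)
    (hς : (k : ℝ) / N ≤ 1 - cς) :
    SumL N (fun T => if (stay true T : ℤ) = k then
        traceProb q (alt M) T * chainSum N S (m : ℤ) 0 true T ^ 2 else 0) ≤
      (2 * (Kfin κ (κ ^ 2 / cς) / μ ^ 3)) *
        SumL N (fun T => if (stay true T : ℤ) = k then traceProb q (alt M) T else 0) := by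
  have hm4 : 4 ≤ m := by
    have h1 := hP.hm
    have h2 := hP.hκ
    have : (4 : ℝ) ≤ m := by nlinarith
    exact_mod_cast this
  have h8 := hP.h8
  obtain ⟨n, hn⟩ : ∃ n, N = (2 * m + 4) + n := ⟨N - (2 * m + 4), by omega⟩
  have hLn : 2 * m + 4 ≤ n := by omega
  set r : ℝ := wgt q M N * chZ (S : ℤ) N with hr
  have hr0 : 0 ≤ r := mul_nonneg (wgt_nonneg hq0 hq1 _ _) (chZ_nonneg _ _)
  have hR : ∀ T : List Bool, T.length = N → (stay true T : ℤ) = k → traceProb q (alt M) T = r := by
    intro T hT hs
    have hs' : stay true T = k := by exact_mod_cast hs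
    have ht := tok_class hT hs'
    rw [traceProb_alt hq0, hT, hr]
    congr 2
    omega
  set G : List Bool → ℝ := fun T => chainSum N S (m : ℤ) 0 true T ^ 2 with hG
  have e1 : SumL N (fun T => if (stay true T : ℤ) = k then
        traceProb q (alt M) T * chainSum N S (m : ℤ) 0 true T ^ 2 else 0) =
      r * SumL N (fun T => if (stay true T : ℤ) = k then G (T.take (2 * m + 4)) else 0) := by
    rw [← SumL_mul]
    apply SumL_congr
    intro T hT
    split_ifs with hs
    · rw [hR T hT hs, hG]
      simp only
      rw [chainSum_prefix N S m T (by omega)]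
    · simp
  have e2 : SumL N (fun T => if (stay true T : ℤ) = k then traceProb q (alt M) T else 0) =
      r * (N.choose k : ℝ) := by
    have : SumL N (fun T => if (stay true T : ℤ) = k then traceProb q (alt M) T else 0) =
        SumL N (fun T => if (stay true T : ℤ) = k then r else 0) := by
      apply SumL_congr
      intro T hT
      split_ifs with hs
      · exact hR T hT hs
      · rfl
    rw [this, count_stay, chooseZ_natCast]
  have hcl := class_le_iid (L := 2 * m + 4) (n := n) (k := k) (by omega) hLn (by omega) true G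
    (fun T => by rw [hG]; positivity)
  rw [← hn] at hcl
  have hς0 : 0 ≤ (k : ℝ) / ((N : ℕ) : ℝ) := by positivity
  have hch := chain_second (ς := (k : ℝ) / ((N : ℕ) : ℝ)) hP hς0 hc0 hς hc1
  rw [e1, e2]
  have hC : (0 : ℝ) ≤ (N.choose k : ℝ) := by positivity
  calc r * SumL N (fun T => if (stay true T : ℤ) = k then G (T.take (2 * m + 4)) else 0)
      ≤ r * (2 * (N.choose k : ℝ) * Ec ((k : ℝ) / ((N : ℕ) : ℝ)) (2 * m + 4) true G) :=
        mul_le_mul_of_nonneg_left hcl hr0
    _ ≤ r * (2 * (N.choose k : ℝ) * (Kfin κ (κ ^ 2 / cς) / μ ^ 3)) := by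
        apply mul_le_mul_of_nonneg_left _ hr0
        apply mul_le_mul_of_nonneg_left hch (by positivity)
    _ = _ := by ring

theorem Kfin_nonneg {κ Cc : ℝ} (hκ : 0 ≤ κ) (hC : 0 ≤ Cc) : 0 ≤ Kfin κ Cc := by
  unfold Kfin A2
  positivity

/-- A sum over a finite index set can be exchanged with `SumL`. -/
theorem SumL_sum {ι : Type*} (s : Finset ι) (n : ℕ) (f : ι → List Bool → ℝ) :
    SumL n (fun T => ∑ i ∈ s, f i T) = ∑ i ∈ s, SumL n (f i) := by
  classical
  induction s using Finset.induction_on with
  | empty => simpa using SumL_const_zero n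
  | insert a s ha ih =>
    simp only [Finset.sum_insert ha]
    rw [SumL_add, ih]

/-- Sum over the stay classes. -/
theorem SumL_classes (N : ℕ) (φ : List Bool → ℝ) :
    SumL N φ = ∑ k ∈ Finset.range (N + 1),
      SumL N (fun T => if (stay true T : ℤ) = (k : ℕ) then φ T else 0) := by
  rw [← SumL_sum]
  apply SumL_congr
  intro T hT
  have h1 : stay true T ∈ Finset.range (N + 1) := by
    have := stay_le true T
    rw [Finset.mem_range]; omega
  rw [Finset.sum_eq_single (stay true T)]
  · simp
  · intro b _ hb
    have : ¬ ((stay true T : ℕ) : ℤ) = (b : ℕ) := by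
      intro h; apply hb; exact_mod_cast h.symm
    simp [this]
  · intro h; exact absurd h1 h

/-- The free-token count attached to a string, as a natural number. -/
def freeT (M : ℕ) (T : List Bool) : ℕ := M - tok T

/-- The typicality condition of a string. -/
def TypT (m M D : ℕ) (T : List Bool) : Prop := Typ m M D T.length (stay true T)

instance (m M D : ℕ) (T : List Bool) : Decidable (TypT m M D T) := by
  unfold TypT; infer_instance

/-- The total contribution of the typical strings of a given length. -/
theorem typ_length (hq0 : 0 < q) (hq1 : q < 1) (hκ : 8 ≤ κ) (hm : 4 * κ ^ 2 ≤ m)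
    (hμ0 : 0 < μ) (hμ : μ ^ 2 = m) (hM1 : ((2 * M + 1 : ℕ) : ℝ) ≤ κ * m) (hD : 1 ≤ D) (hMpos : 1 ≤ M)
    (hN : N ≤ 2 * M + 1) :
    SumL N (fun T => if TypT m M D T then
        traceProb q (alt M) T * chainSum T.length (freeT M T) (m : ℤ) 0 true T ^ 2 else 0) ≤
      (2 * (Kfin κ (κ ^ 2 / (1 / (2 * (D : ℝ)))) / μ ^ 3)) * SumL N (traceProb q (alt M)) := by
  rw [SumL_classes N, SumL_classes N (traceProb q (alt M)), Finset.mul_sum]
  apply Finset.sum_le_sum
  intro k hk
  have hkN : k ≤ N := by have := Finset.mem_range.1 hk; omega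
  have hD0 : (0 : ℝ) < D := by exact_mod_cast hD
  have hD1 : (1 : ℝ) ≤ D := by exact_mod_cast hD
  have hnn : 0 ≤ SumL N (fun T => if (stay true T : ℤ) = (k : ℕ) then traceProb q (alt M) T else 0) := by
    apply SumL_nonneg
    intro T _
    split_ifs
    · exact traceProb_nonneg hq0.le hq1.le _ _
    · rfl
  by_cases hTyp : Typ m M D N k
  · -- a typical class
    obtain ⟨t1, t2, t3⟩ := hTyp
    set S := M - (N - (N - k) / 2) with hSdef
    have hSeq : S + (N - (N - k) / 2) = M := by omega
    have hP : Par κ μ m N S := by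
      refine ⟨hκ, hm, t1, by omega, ?_, ?_, hμ0, hμ⟩
      · have : (N : ℝ) ≤ ((2 * M + 1 : ℕ) : ℝ) := by exact_mod_cast hN
        linarith
      · have h1 : S ≤ 2 * M + 1 := by omega
        have : (S : ℝ) ≤ ((2 * M + 1 : ℕ) : ℝ) := by exact_mod_cast h1
        linarith
    have hNpos : 0 < N := by
      by_contra h
      have : N = 0 := by omega
      subst this
      have h0 : k = 0 := by omega
      subst h0
      simp at t3
      omega
    have hN0 : (0 : ℝ) < N := by exact_mod_cast hNpos
    have hς : (k : ℝ) / N ≤ 1 - 1 / (2 * (D : ℝ)) := by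
      rw [div_le_iff₀ hN0]
      -- the number of flips is at least `2M/D`
      have f1 : 2 * ((N - k) / 2) ≤ N - k := by omega
      have f2 : (M : ℝ) ≤ D * (((N - k) / 2 : ℕ) : ℝ) := by exact_mod_cast t3
      have f3 : (2 : ℝ) * (((N - k) / 2 : ℕ) : ℝ) ≤ (N : ℝ) - k := by
        have : (2 : ℝ) * (((N - k) / 2 : ℕ) : ℝ) ≤ ((N - k : ℕ) : ℝ) := by exact_mod_cast f1
        rw [Nat.cast_sub hkN] at this
        exact this
      have f4 : (N : ℝ) ≤ 3 * M := by
        have h1 : N ≤ 3 * M := by omega
        exact_mod_cast h1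
      have f5 : (N : ℝ) ≤ 3 * (D * (((N - k) / 2 : ℕ) : ℝ)) := by linarith
      have f6 : (N : ℝ) ≤ (3 / 2) * D * ((N : ℝ) - k) := by nlinarith
      have e : (1 - 1 / (2 * (D : ℝ))) * N = N - N / (2 * (D : ℝ)) := by
        field_simp
      rw [e]
      have f7 : (N : ℝ) / (2 * (D : ℝ)) ≤ (N : ℝ) - k := by
        rw [div_le_iff₀ (by positivity)]
        nlinarith [sub_nonneg.2 (show (k : ℝ) ≤ N by exact_mod_cast hkN)]
      linarith
    have hc0 : (0 : ℝ) < 1 / (2 * (D : ℝ)) := by positivity
    have hc1 : 1 / (2 * (D : ℝ)) ≤ 1 := by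
      rw [div_le_one (by positivity)]
      linarith
    have hb := class_bound hq0 hq1 hP hkN hSeq hc0 hc1 hς
    refine le_trans (le_of_eq ?_) hb
    apply SumL_congr
    intro T hT
    by_cases hs : (stay true T : ℤ) = (k : ℕ)
    · have hs' : stay true T = k := by exact_mod_cast hs
      have ht := tok_class hT hs'
      have hty : TypT m M D T := by
        unfold TypT
        rw [hT, hs']
        exact ⟨t1, t2, t3⟩
      rw [if_pos hs, if_pos hs, if_pos hty]
      unfold freeT
      rw [hT, ht]
    · rw [if_neg hs, if_neg hs]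
  · -- an atypical class contributes nothing
    have : SumL N (fun T => if (stay true T : ℤ) = (k : ℕ) then
        (if TypT m M D T then
        traceProb q (alt M) T * chainSum T.length (freeT M T) (m : ℤ) 0 true T ^ 2 else 0) else 0) =
        SumL N (fun _ => 0) := by
      apply SumL_congr
      intro T hT
      by_cases hs : (stay true T : ℤ) = (k : ℕ)
      · have hs' : stay true T = k := by exact_mod_cast hs
        have hty : ¬ TypT m M D T := by
          unfold TypT
          rw [hT, hs']
          exact hTyp
        rw [if_pos hs, if_neg hty]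
      · rw [if_neg hs]
    rw [this, SumL_const_zero]
    have hκ0 : 0 ≤ κ := by linarith
    have hK : 0 ≤ (2 * (Kfin κ (κ ^ 2 / (1 / (2 * (D : ℝ)))) / μ ^ 3)) := by
      have := Kfin_nonneg (κ := κ) (Cc := κ ^ 2 / (1 / (2 * (D : ℝ)))) hκ0 (by positivity)
      positivity
    exact mul_nonneg hK hnn

end

end Vale.Agent.Lib.P321
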