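import Vale.Agent.Lib.P321.Link

/-!
# P321: the corrector and the increments at the bulk points (real algebra)
-/

namespace Vale.Agent.Lib.P321

/-- The coefficient `γ` of the corrector. -/
noncomputable def gam (ς S N : ℝ) : ℝ := ((1 - ς) + ς * ((S + N) / S)) / (1 + 2 * (S / N) + ς)

/-- The coefficient `c` of the corrector. -/
noncomputable def cor (ς S N : ℝ) : ℝ :=
  (gam ς S N * (1 + S / N) - ς * ((S + N) / S)) / (1 - ς)

section

variable {κ m a j S N ς cς : ℝ}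

theorem gam_idA (h0 : 0 ≤ ς) (h1 : ς < 1) (hS : 0 < S) (hN : 0 < N) :
    (1 - ς) * (1 - gam ς S N * (S / N) - cor ς S N) - ς * (gam ς S N * (1 + S / N)) = 0 := by
  have h2 : 1 - ς ≠ 0 := by linarith
  have h3 : 1 + 2 * (S / N) + ς ≠ 0 := by
    have : 0 < S / N := div_pos hS hN
    positivity
  have e : (1 - ς) * cor ς S N = gam ς S N * (1 + S / N) - ς * ((S + N) / S) := by
    unfold cor; field_simp
  have e2 : gam ς S N * (1 + 2 * (S / N) + ς) = (1 - ς) + ς * ((S + N) / S) := by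
    unfold gam; field_simp
  linear_combination (-1 : ℝ) * e - e2

theorem gam_idB (h1 : ς < 1) :
    ς * ((S + N) / S) - gam ς S N * (1 + S / N) + (1 - ς) * cor ς S N = 0 := by
  have h2 : 1 - ς ≠ 0 := by linarith
  have e : (1 - ς) * cor ς S N = gam ς S N * (1 + S / N) - ς * ((S + N) / S) := by
    unfold cor; field_simp
  linear_combination e

/-- Bounds on the ratio `S/N` and `(S+N)/S`. -/
theorem rw_bounds (hκ : 8 ≤ κ) (hm : 0 < m) (hN8 : 8 * m ≤ N) (hS2 : 2 * m ≤ S)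
    (hN : N ≤ κ * m) (hS : S ≤ κ * m) :
    0 ≤ S / N ∧ S / N ≤ κ / 8 ∧ 1 ≤ (S + N) / S ∧ (S + N) / S ≤ κ := by
  have hN0 : 0 < N := by linarith
  have hS0 : 0 < S := by linarith
  refine ⟨by positivity, ?_, ?_, ?_⟩
  · rw [div_le_div_iff₀ hN0 (by norm_num)]
    nlinarith
  · rw [le_div_iff₀ hS0]; linarith
  · rw [div_le_iff₀ hS0]
    nlinarith

theorem gam_bounds (hκ : 8 ≤ κ) (hm : 0 < m) (hN8 : 8 * m ≤ N) (hS2 : 2 * m ≤ S)
    (hN : N ≤ κ * m) (hS : S ≤ κ * m) (h0 : 0 ≤ ς) (h1 : ς ≤ 1) :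
    0 ≤ gam ς S N ∧ gam ς S N ≤ κ := by
  obtain ⟨r0, r1, w0, w1⟩ := rw_bounds hκ hm hN8 hS2 hN hS
  have h2 : 0 ≤ 1 - ς := by linarith
  unfold gam
  have hden : 1 ≤ 1 + 2 * (S / N) + ς := by linarith
  constructor
  · positivity
  · rw [div_le_iff₀ (by linarith)]
    have h3 : ς * ((S + N) / S) ≤ ς * κ := mul_le_mul_of_nonneg_left w1 h0
    have h4 : κ * 1 ≤ κ * (1 + 2 * (S / N) + ς) :=
      mul_le_mul_of_nonneg_left hden (by linarith)
    nlinarith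

theorem cor_bound (hκ : 8 ≤ κ) (hm : 0 < m) (hN8 : 8 * m ≤ N) (hS2 : 2 * m ≤ S)
    (hN : N ≤ κ * m) (hS : S ≤ κ * m) (h0 : 0 ≤ ς) (hc0 : 0 < cς) (h1 : ς ≤ 1 - cς) (hc1 : cς ≤ 1) :
    |cor ς S N| ≤ κ ^ 2 / cς := by
  obtain ⟨r0, r1, w0, w1⟩ := rw_bounds hκ hm hN8 hS2 hN hS
  obtain ⟨g0, g1⟩ := gam_bounds (ς := ς) hκ hm hN8 hS2 hN hS h0 (by linarith)
  unfold cor
  have h2 : 0 < 1 - ς := by linarith
  rw [abs_div, abs_of_pos h2]
  apply div_le_div₀ (by positivity) _ hc0 (by linarith)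
  have h3 : gam ς S N * (1 + S / N) ≤ κ * (1 + κ / 8) :=
    mul_le_mul g1 (by linarith) (by linarith) (by linarith)
  have h4 : 0 ≤ gam ς S N * (1 + S / N) := by positivity
  have h5 : ς * ((S + N) / S) ≤ 1 * κ :=
    mul_le_mul (by linarith) w1 (by linarith) (by norm_num)
  have h6 : 0 ≤ ς * ((S + N) / S) := by positivity
  rw [abs_le]
  constructor <;> nlinarith

end

section

variable {κ m a j S N : ℝ}

namespace Bulk

variable (h : Bulk κ m a j S N)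
include h

theorem E_small (hE : EE m a j S N ≤ 2) :
    EE m a j S N ^ 2 + 1 / m ≤ 3 * EE m a j S N := by
  have h0 := h.E0
  have h1 : 1 / m ≤ EE m a j S N := by
    unfold EE
    have := h.m0
    rw [div_le_div_iff₀ this (by positivity)]
    nlinarith [abs_nonneg (XX a j S N)]
  nlinarith

/-- Bound for a product term by `E`. -/
theorem Y4_le (hE : EE m a j S N ≤ 2) :
    |(1 + e2 a j S N) * e4 a j S N| ≤ 62 * κ ^ 4 * EE m a j S N := by
  have h1 := h.eps4_le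
  have h2 := h.eA_le
  have h3 := h.E_small hE
  have h4 := abs_sub_abs_le_abs_sub ((1 + e2 a j S N) * e4 a j S N) (eA a j S N)
  obtain ⟨p1, p2, p3⟩ := h.κ_pows
  have hκ4 : 0 ≤ κ ^ 4 := by have := h.κ0; positivity
  have h5 : 20 * κ ^ 4 * (EE m a j S N ^ 2 + 1 / m) ≤ 20 * κ ^ 4 * (3 * EE m a j S N) :=
    mul_le_mul_of_nonneg_left h3 (by positivity)
  have h6 : κ ^ 2 * EE m a j S N ≤ κ ^ 4 * EE m a j S N :=
    mul_le_mul_of_nonneg_right p2 h.E0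
  nlinarith

theorem Y5_le (hE : EE m a j S N ≤ 2) :
    |(1 + e3 a j S N) * e5 a j S N| ≤ 62 * κ ^ 4 * EE m a j S N := by
  have h1 := h.eps5_le
  have h2 := h.eA_le
  have h3 := h.E_small hE
  have h4 := abs_sub_abs_le_abs_sub ((1 + e3 a j S N) * e5 a j S N) (eA a j S N)
  obtain ⟨p1, p2, p3⟩ := h.κ_pows
  have hκ4 : 0 ≤ κ ^ 4 := by have := h.κ0; positivity
  have h5 : 20 * κ ^ 4 * (EE m a j S N ^ 2 + 1 / m) ≤ 20 * κ ^ 4 * (3 * EE m a j S N) :=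
    mul_le_mul_of_nonneg_left h3 (by positivity)
  have h6 : κ ^ 2 * EE m a j S N ≤ κ ^ 4 * EE m a j S N :=
    mul_le_mul_of_nonneg_right p2 h.E0
  nlinarith

theorem Y5'_le (hE : EE m a j S N ≤ 2) :
    |(1 + e3 a j S N) * e5 a j S N - eA a j S N| ≤ 60 * κ ^ 4 * EE m a j S N := by
  have h1 := h.eps5_le
  have h3 := h.E_small hE
  have hκ4 : 0 ≤ κ ^ 4 := by have := h.κ0; positivity
  have h5 : 20 * κ ^ 4 * (EE m a j S N ^ 2 + 1 / m) ≤ 20 * κ ^ 4 * (3 * EE m a j S N) :=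
    mul_le_mul_of_nonneg_left h3 (by positivity)
  linarith

theorem Y6_le (hE : EE m a j S N ≤ 2) :
    |W0 a j S N - (1 - eA a j S N) * W1 a j S N| ≤ 62 * κ ^ 4 * EE m a j S N := by
  have h1 := h.eps6_le
  have h2 := h.eA_le
  have h3 := h.E_small hE
  obtain ⟨p1, p2, p3⟩ := h.κ_pows
  have hκ4 : 0 ≤ κ ^ 4 := by have := h.κ0; positivity
  have h5 : 20 * κ ^ 4 * (EE m a j S N ^ 2 + 1 / m) ≤ 20 * κ ^ 4 * (3 * EE m a j S N) :=
    mul_le_mul_of_nonneg_left h3 (by positivity)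
  obtain ⟨r0, r1, w0, w1⟩ := rw_bounds h.hκ h.m0 h.hN8 h.hS2 h.hN h.hS
  have h7 : |(S + N) / S * eA a j S N| ≤ κ * (2 * κ ^ 2 * EE m a j S N) := by
    rw [abs_mul, abs_of_nonneg (by linarith)]
    exact mul_le_mul w1 h2 (abs_nonneg _) h.κ0.le
  have h8 : κ * (2 * κ ^ 2 * EE m a j S N) = 2 * (κ ^ 3 * EE m a j S N) := by ring
  have h9 : κ ^ 3 * EE m a j S N ≤ κ ^ 4 * EE m a j S N :=
    mul_le_mul_of_nonneg_right p3 h.E0
  have h10 : W0 a j S N - (1 - eA a j S N) * W1 a j S N =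
      (W0 a j S N - (1 - eA a j S N) * W1 a j S N - (S + N) / S * eA a j S N)
        + (S + N) / S * eA a j S N := by ring
  rw [h10]
  have h11 := abs_add_le (W0 a j S N - (1 - eA a j S N) * W1 a j S N - (S + N) / S * eA a j S N)
    ((S + N) / S * eA a j S N)
  linarith

end Bulk

/-- The increments relative to the kernel value at a bulk point. -/
noncomputable def i01 (γ c a j S N : ℝ) : ℝ :=
  eA a j S N - γ * e2 a j S N - c * ((1 + e2 a j S N) * e4 a j S N)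

noncomputable def i00 (γ a j S N : ℝ) : ℝ := - γ * e3 a j S N

noncomputable def i11 (γ c a j S N : ℝ) : ℝ :=
  (W0 a j S N - (1 - eA a j S N) * W1 a j S N) - γ * e3 a j S N
    - c * ((1 + e3 a j S N) * e5 a j S N - eA a j S N)

noncomputable def i10 (γ c a j S N : ℝ) : ℝ := - γ * e3 a j S N + c * eA a j S N

namespace Bulk

variable {γ c ς Cc : ℝ}
variable (h : Bulk κ m a j S N)
include h

theorem i01_le (hγ0 : 0 ≤ γ) (hγ : γ ≤ κ) (hc : |c| ≤ Cc) (hCc : 1 ≤ Cc)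
    (hE : EE m a j S N ≤ 2) : |i01 γ c a j S N| ≤ 130 * Cc * κ ^ 4 * EE m a j S N := by
  unfold i01
  have h1 := h.eA_le
  have h2 := h.e2_le
  have h3 := h.Y4_le hE
  obtain ⟨p1, p2, p3⟩ := h.κ_pows
  have hE0 := h.E0
  have hκ4 : 0 ≤ κ ^ 4 * EE m a j S N := by have := h.κ0; positivity
  have t1 : |γ * e2 a j S N| ≤ κ * (4 * κ ^ 2 * EE m a j S N) := by
    rw [abs_mul, abs_of_nonneg hγ0]
    exact mul_le_mul hγ h2 (abs_nonneg _) h.κ0.le
  have t2 : |c * ((1 + e2 a j S N) * e4 a j S N)| ≤ Cc * (62 * κ ^ 4 * EE m a j S N) := by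
    rw [abs_mul]
    exact mul_le_mul hc h3 (abs_nonneg _) (by linarith)
  have e1 : κ * (4 * κ ^ 2 * EE m a j S N) = 4 * (κ ^ 3 * EE m a j S N) := by ring
  have t3 : κ ^ 3 * EE m a j S N ≤ κ ^ 4 * EE m a j S N := mul_le_mul_of_nonneg_right p3 hE0
  have t4 : κ ^ 2 * EE m a j S N ≤ κ ^ 4 * EE m a j S N := mul_le_mul_of_nonneg_right p2 hE0
  have t5 := abs_sub (eA a j S N - γ * e2 a j S N) (c * ((1 + e2 a j S N) * e4 a j S N))
  have t6 := abs_sub (eA a j S N) (γ * e2 a j S N)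
  have t7 : κ ^ 4 * EE m a j S N ≤ Cc * (κ ^ 4 * EE m a j S N) := by nlinarith
  have e2' : 130 * Cc * κ ^ 4 * EE m a j S N = 130 * (Cc * (κ ^ 4 * EE m a j S N)) := by ring
  have e3' : Cc * (62 * κ ^ 4 * EE m a j S N) = 62 * (Cc * (κ ^ 4 * EE m a j S N)) := by ring
  have e4' : 2 * κ ^ 2 * EE m a j S N = 2 * (κ ^ 2 * EE m a j S N) := by ring
  rw [e2']; rw [e3'] at t2; rw [e4'] at h1; rw [e1] at t1
  linarith

theorem i00_le (hγ0 : 0 ≤ γ) (hγ : γ ≤ κ) (hCc : 1 ≤ Cc) :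
    |i00 γ a j S N| ≤ 130 * Cc * κ ^ 4 * EE m a j S N := by
  unfold i00
  have h2 := h.e3_le
  obtain ⟨p1, p2, p3⟩ := h.κ_pows
  have hE0 := h.E0
  have hκ4 : 0 ≤ κ ^ 4 * EE m a j S N := by have := h.κ0; positivity
  have t1 : |-γ * e3 a j S N| ≤ κ * (4 * κ ^ 2 * EE m a j S N) := by
    rw [abs_mul, abs_neg, abs_of_nonneg hγ0]
    exact mul_le_mul hγ h2 (abs_nonneg _) h.κ0.le
  have e1 : κ * (4 * κ ^ 2 * EE m a j S N) = 4 * (κ ^ 3 * EE m a j S N) := by ring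
  have t3 : κ ^ 3 * EE m a j S N ≤ κ ^ 4 * EE m a j S N := mul_le_mul_of_nonneg_right p3 hE0
  have t7 : κ ^ 4 * EE m a j S N ≤ Cc * (κ ^ 4 * EE m a j S N) := by nlinarith
  have e2' : 130 * Cc * κ ^ 4 * EE m a j S N = 130 * (Cc * (κ ^ 4 * EE m a j S N)) := by ring
  rw [e2']; rw [e1] at t1
  linarith

theorem i11_le (hγ0 : 0 ≤ γ) (hγ : γ ≤ κ) (hc : |c| ≤ Cc) (hCc : 1 ≤ Cc)
    (hE : EE m a j S N ≤ 2) : |i11 γ c a j S N| ≤ 130 * Cc * κ ^ 4 * EE m a j S N := by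
  unfold i11
  have h2 := h.e3_le
  have h3 := h.Y6_le hE
  have h4 := h.Y5'_le hE
  obtain ⟨p1, p2, p3⟩ := h.κ_pows
  have hE0 := h.E0
  have hκ4 : 0 ≤ κ ^ 4 * EE m a j S N := by have := h.κ0; positivity
  have t1 : |γ * e3 a j S N| ≤ κ * (4 * κ ^ 2 * EE m a j S N) := by
    rw [abs_mul, abs_of_nonneg hγ0]
    exact mul_le_mul hγ h2 (abs_nonneg _) h.κ0.le
  have t2 : |c * ((1 + e3 a j S N) * e5 a j S N - eA a j S N)| ≤ Cc * (60 * κ ^ 4 * EE m a j S N) := by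
    rw [abs_mul]
    exact mul_le_mul hc h4 (abs_nonneg _) (by linarith)
  have e1 : κ * (4 * κ ^ 2 * EE m a j S N) = 4 * (κ ^ 3 * EE m a j S N) := by ring
  have t3 : κ ^ 3 * EE m a j S N ≤ κ ^ 4 * EE m a j S N := mul_le_mul_of_nonneg_right p3 hE0
  have t5 := abs_sub ((W0 a j S N - (1 - eA a j S N) * W1 a j S N) - γ * e3 a j S N)
    (c * ((1 + e3 a j S N) * e5 a j S N - eA a j S N))
  have t6 := abs_sub (W0 a j S N - (1 - eA a j S N) * W1 a j S N) (γ * e3 a j S N)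
  have t7 : κ ^ 4 * EE m a j S N ≤ Cc * (κ ^ 4 * EE m a j S N) := by nlinarith
  have e2' : 130 * Cc * κ ^ 4 * EE m a j S N = 130 * (Cc * (κ ^ 4 * EE m a j S N)) := by ring
  have e3' : Cc * (60 * κ ^ 4 * EE m a j S N) = 60 * (Cc * (κ ^ 4 * EE m a j S N)) := by ring
  have e4' : 62 * κ ^ 4 * EE m a j S N = 62 * (κ ^ 4 * EE m a j S N) := by ring
  rw [e2']; rw [e3'] at t2; rw [e4'] at h3; rw [e1] at t1
  linarith

theorem i10_le (hγ0 : 0 ≤ γ) (hγ : γ ≤ κ) (hc : |c| ≤ Cc) (hCc : 1 ≤ Cc) :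
    |i10 γ c a j S N| ≤ 130 * Cc * κ ^ 4 * EE m a j S N := by
  unfold i10
  have h1 := h.eA_le
  have h2 := h.e3_le
  obtain ⟨p1, p2, p3⟩ := h.κ_pows
  have hE0 := h.E0
  have hκ4 : 0 ≤ κ ^ 4 * EE m a j S N := by have := h.κ0; positivity
  have t1 : |-γ * e3 a j S N| ≤ κ * (4 * κ ^ 2 * EE m a j S N) := by
    rw [abs_mul, abs_neg, abs_of_nonneg hγ0]
    exact mul_le_mul hγ h2 (abs_nonneg _) h.κ0.le
  have t2 : |c * eA a j S N| ≤ Cc * (2 * κ ^ 2 * EE m a j S N) := by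
    rw [abs_mul]
    exact mul_le_mul hc h1 (abs_nonneg _) (by linarith)
  have e1 : κ * (4 * κ ^ 2 * EE m a j S N) = 4 * (κ ^ 3 * EE m a j S N) := by ring
  have t3 : κ ^ 3 * EE m a j S N ≤ κ ^ 4 * EE m a j S N := mul_le_mul_of_nonneg_right p3 hE0
  have t4 : κ ^ 2 * EE m a j S N ≤ κ ^ 4 * EE m a j S N := mul_le_mul_of_nonneg_right p2 hE0
  have t5 := abs_add_le (-γ * e3 a j S N) (c * eA a j S N)
  have t7 : κ ^ 4 * EE m a j S N ≤ Cc * (κ ^ 4 * EE m a j S N) := by nlinarith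
  have t8 : Cc * (κ ^ 2 * EE m a j S N) ≤ Cc * (κ ^ 4 * EE m a j S N) :=
    mul_le_mul_of_nonneg_left t4 (by linarith)
  have e2' : 130 * Cc * κ ^ 4 * EE m a j S N = 130 * (Cc * (κ ^ 4 * EE m a j S N)) := by ring
  have e3' : Cc * (2 * κ ^ 2 * EE m a j S N) = 2 * (Cc * (κ ^ 2 * EE m a j S N)) := by ring
  rw [e2']; rw [e3'] at t2; rw [e1] at t1
  linarith

/-- The mean of the increments at a state `0`. -/
theorem mean0_le (hς0 : 0 ≤ ς) (hς1 : ς < 1) (hκc : κ ≤ Cc) (hc : |cor ς S N| ≤ Cc) :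
    |ς * i00 (gam ς S N) a j S N + (1 - ς) * i01 (gam ς S N) (cor ς S N) a j S N| ≤
      60 * Cc * κ ^ 4 * (EE m a j S N ^ 2 + 1 / m) := by
  obtain ⟨g0, g1⟩ := gam_bounds (ς := ς) h.hκ h.m0 h.hN8 h.hS2 h.hN h.hS hς0 hς1.le
  set γ := gam ς S N with hγ
  set c := cor ς S N with hc'
  have idA := gam_idA (S := S) (N := N) hς0 hς1 h.S0 h.N0
  rw [← hγ, ← hc'] at idA
  have e : ς * i00 γ a j S N + (1 - ς) * i01 γ c a j S N =
      - ((1 - ς) * γ) * (e2 a j S N - S / N * eA a j S N)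
      - ((1 - ς) * c) * ((1 + e2 a j S N) * e4 a j S N - eA a j S N)
      - (ς * γ) * (e3 a j S N - (1 + S / N) * eA a j S N) := by
    unfold i00 i01
    linear_combination (eA a j S N) * idA
  rw [e]
  have t2 := h.eps2_le
  have t3 := h.eps3_le
  have t4 := h.eps4_le
  set Q := 20 * κ ^ 4 * (EE m a j S N ^ 2 + 1 / m) with hQ
  have hQ0 : 0 ≤ Q := by
    have := h.inv_m0; have := h.κ0; rw [hQ]; positivity
  have hς2 : 0 ≤ 1 - ς := by linarith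
  have hς3 : 1 - ς ≤ 1 := by linarith
  have b1 : |(1 - ς) * γ| ≤ κ := by
    rw [abs_of_nonneg (by positivity)]
    nlinarith
  have b2 : |(1 - ς) * c| ≤ Cc := by
    rw [abs_mul, abs_of_nonneg hς2]
    have : 0 ≤ |c| := abs_nonneg _
    nlinarith
  have b3 : |ς * γ| ≤ κ := by
    rw [abs_of_nonneg (by positivity)]
    nlinarith
  have m1 : |(1 - ς) * γ * (e2 a j S N - S / N * eA a j S N)| ≤ κ * Q := by
    rw [abs_mul]; exact mul_le_mul b1 t2 (abs_nonneg _) h.κ0.le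
  have m2 : |(1 - ς) * c * ((1 + e2 a j S N) * e4 a j S N - eA a j S N)| ≤ Cc * Q := by
    rw [abs_mul]; exact mul_le_mul b2 t4 (abs_nonneg _) (by linarith [h.κ0])
  have m3 : |ς * γ * (e3 a j S N - (1 + S / N) * eA a j S N)| ≤ κ * Q := by
    rw [abs_mul]; exact mul_le_mul b3 t3 (abs_nonneg _) h.κ0.le
  have e5' : 60 * Cc * κ ^ 4 * (EE m a j S N ^ 2 + 1 / m) = 3 * Cc * Q := by rw [hQ]; ring
  rw [e5']
  have k1 : κ * Q ≤ Cc * Q := mul_le_mul_of_nonneg_right hκc hQ0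
  have a1 := abs_sub (- ((1 - ς) * γ) * (e2 a j S N - S / N * eA a j S N)
      - ((1 - ς) * c) * ((1 + e2 a j S N) * e4 a j S N - eA a j S N))
      ((ς * γ) * (e3 a j S N - (1 + S / N) * eA a j S N))
  have a2 := abs_sub (- ((1 - ς) * γ) * (e2 a j S N - S / N * eA a j S N))
      (((1 - ς) * c) * ((1 + e2 a j S N) * e4 a j S N - eA a j S N))
  have a3 : |- ((1 - ς) * γ) * (e2 a j S N - S / N * eA a j S N)| =
      |(1 - ς) * γ * (e2 a j S N - S / N * eA a j S N)| := by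
    rw [neg_mul, abs_neg]
  rw [a3] at a2
  linarith

/-- The mean of the increments at a state `1`. -/
theorem mean1_le (hς0 : 0 ≤ ς) (hς1 : ς < 1) (hκc : κ ≤ Cc) (hCc : 1 ≤ Cc)
    (hc : |cor ς S N| ≤ Cc) :
    |ς * i11 (gam ς S N) (cor ς S N) a j S N + (1 - ς) * i10 (gam ς S N) (cor ς S N) a j S N| ≤
      60 * Cc * κ ^ 4 * (EE m a j S N ^ 2 + 1 / m) := by
  obtain ⟨g0, g1⟩ := gam_bounds (ς := ς) h.hκ h.m0 h.hN8 h.hS2 h.hN h.hS hς0 hς1.le
  set γ := gam ς S N with hγ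
  set c := cor ς S N with hc'
  have idB := gam_idB (ς := ς) (S := S) (N := N) hς1
  rw [← hγ, ← hc'] at idB
  have e : ς * i11 γ c a j S N + (1 - ς) * i10 γ c a j S N =
      ς * (W0 a j S N - (1 - eA a j S N) * W1 a j S N - (S + N) / S * eA a j S N)
      - γ * (e3 a j S N - (1 + S / N) * eA a j S N)
      - (ς * c) * ((1 + e3 a j S N) * e5 a j S N - eA a j S N) := by
    unfold i11 i10
    linear_combination (eA a j S N) * idB
  rw [e]
  have t3 := h.eps3_le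
  have t5 := h.eps5_le
  have t6 := h.eps6_le
  set Q := 20 * κ ^ 4 * (EE m a j S N ^ 2 + 1 / m) with hQ
  have hQ0 : 0 ≤ Q := by
    have := h.inv_m0; have := h.κ0; rw [hQ]; positivity
  have b1 : |ς| ≤ 1 := by rw [abs_of_nonneg hς0]; linarith
  have b2 : |ς * c| ≤ Cc := by
    rw [abs_mul, abs_of_nonneg hς0]
    have : 0 ≤ |c| := abs_nonneg _
    nlinarith
  have b3 : |γ| ≤ κ := by rw [abs_of_nonneg g0]; exact g1
  have m1 : |ς * (W0 a j S N - (1 - eA a j S N) * W1 a j S N - (S + N) / S * eA a j S N)| ≤ 1 * Q := by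
    rw [abs_mul]; exact mul_le_mul b1 t6 (abs_nonneg _) (by norm_num)
  have m2 : |ς * c * ((1 + e3 a j S N) * e5 a j S N - eA a j S N)| ≤ Cc * Q := by
    rw [abs_mul]; exact mul_le_mul b2 t5 (abs_nonneg _) (by linarith)
  have m3 : |γ * (e3 a j S N - (1 + S / N) * eA a j S N)| ≤ κ * Q := by
    rw [abs_mul]; exact mul_le_mul b3 t3 (abs_nonneg _) h.κ0.le
  have e5' : 60 * Cc * κ ^ 4 * (EE m a j S N ^ 2 + 1 / m) = 3 * Cc * Q := by rw [hQ]; ring
  rw [e5']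
  have k1 : κ * Q ≤ Cc * Q := mul_le_mul_of_nonneg_right hκc hQ0
  have k2 : 1 * Q ≤ Cc * Q := mul_le_mul_of_nonneg_right hCc hQ0
  have a1 := abs_sub (ς * (W0 a j S N - (1 - eA a j S N) * W1 a j S N - (S + N) / S * eA a j S N)
      - γ * (e3 a j S N - (1 + S / N) * eA a j S N))
      ((ς * c) * ((1 + e3 a j S N) * e5 a j S N - eA a j S N))
  have a2 := abs_sub (ς * (W0 a j S N - (1 - eA a j S N) * W1 a j S N - (S + N) / S * eA a j S N))
      (γ * (e3 a j S N - (1 + S / N) * eA a j S N))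
  linarith

end Bulk

end

end Vale.Agent.Lib.P321
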