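import Vale.Agent.Lib.P321.Budget1

/-!
# P321: the near-martingale increments, far and bulk bounds
-/

namespace Vale.Agent.Lib.P321

/-- Standing parameters. -/
structure Par (κ μ : ℝ) (m N S : ℕ) : Prop where
  hκ : 8 ≤ κ
  hm : 4 * κ ^ 2 ≤ m
  h8 : 8 * m ≤ N
  h2 : 2 * m ≤ S
  hN : (N : ℝ) ≤ κ * m
  hS : (S : ℝ) ≤ κ * m
  hμ0 : 0 < μ
  hμ : μ ^ 2 = m

/-- The state of the chain. -/
abbrev St := ℤ × ℕ × Bool

/-- One step of the chain. -/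
def nxS (s : St) (d : Bool) : St := (nxt s.1 s.2.2 d, s.2.1 + 1, d)

/-- The last symbol of the state. -/
def bitS (s : St) : Bool := s.2.2

theorem bitS_nxS (s : St) (d : Bool) : bitS (nxS s d) = d := rfl

/-- The corrector. -/
noncomputable def Phi (N S : ℕ) (γ c : ℝ) (s : St) : ℝ :=
  γ * Hz N S s.1 s.2.1 +
    if s.2.2 = true then c * (Hz N S s.1 s.2.1 - Hz N S (s.1 + 1) s.2.1) else 0

/-- The increment of the near-martingale. -/
noncomputable def Inc (N S : ℕ) (γ c : ℝ) (s : St) (d : Bool) : ℝ :=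
  (if d = true then hk N S s.2.2 s.1 s.2.1 else 0) - Phi N S γ c (nxS s d) + Phi N S γ c s

section formulas

variable (N S : ℕ) (γ c : ℝ) (a : ℤ) (j : ℕ)

theorem Inc_ff : Inc N S γ c (a, j, false) false =
    - γ * (Hz N S (a - 1) (j + 1) - Hz N S a j) := by
  simp [Inc, Phi, nxS, nxt]; ring

theorem Inc_ft : Inc N S γ c (a, j, false) true =
    (Hz N S a j - Hz N S (a + 1) j) - γ * (Hz N S a (j + 1) - Hz N S a j)
      - c * (Hz N S a (j + 1) - Hz N S (a + 1) (j + 1)) := by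
  simp [Inc, Phi, nxS, nxt, hk_false]; ring

theorem Inc_tt : Inc N S γ c (a, j, true) true =
    (Gz N S a j - Gz N S (a + 1) j) - γ * (Hz N S (a - 1) (j + 1) - Hz N S a j)
      - c * ((Hz N S (a - 1) (j + 1) - Hz N S a (j + 1)) - (Hz N S a j - Hz N S (a + 1) j)) := by
  simp [Inc, Phi, nxS, nxt, hk_true]; ring

theorem Inc_tf : Inc N S γ c (a, j, true) false =
    - γ * (Hz N S (a - 1) (j + 1) - Hz N S a j) + c * (Hz N S a j - Hz N S (a + 1) j) := by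
  simp [Inc, Phi, nxS, nxt]; ring

end formulas

/-! ### the far region -/

/-- The constant of the far bound. -/
noncomputable def Cf (κ : ℝ) : ℝ := 8 * (1536 * κ ^ 3) ^ 3

namespace Par

variable {κ μ : ℝ} {m N S : ℕ} (h : Par κ μ m N S)
include h

theorem κ0 : 0 < κ := by linarith [h.hκ]

theorem m256 : (256 : ℝ) ≤ m := by nlinarith [h.hκ, h.hm]

theorem m256n : 256 ≤ m := by exact_mod_cast h.m256

theorem m0 : (0 : ℝ) < m := by linarith [h.m256]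

theorem N0 : (8 : ℝ) * m ≤ N := by exact_mod_cast h.h8

theorem S0 : (2 : ℝ) * m ≤ S := by exact_mod_cast h.h2

theorem m8κ : 8 * κ ≤ (m : ℝ) := by nlinarith [h.hκ, h.hm]

theorem Hz_far {a : ℤ} {j : ℕ} (ha : a ≤ m + 1) (hj : j ≤ 3 * m)
    (hX : (m : ℝ) ^ 2 / 4 ≤ |(a : ℝ) * N - j * S|) : Hz N S a j ≤ Cf κ / m ^ 3 := by
  have hκ0 := h.κ0
  have hm0 := h.m0
  have hC : 0 ≤ Cf κ / (m : ℝ) ^ 3 := by unfold Cf; positivity
  by_cases ha0 : a < 0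
  · rw [Hz_neg ha0]; exact hC
  · have ha1 : 0 ≤ a := by omega
    lift a to ℕ using ha1
    have hmn := h.m256n
    have haS : a ≤ S := by
      have := h.h2
      omega
    have ha2 : a ≤ m + 1 := by
      have : (a : ℤ) ≤ ((m + 1 : ℕ) : ℤ) := by push_cast; exact ha
      exact_mod_cast this
    have hjN : j < N := by
      have := h.h8
      omega
    rw [Hz_nat haS]
    have ht := Hn_tail h.hκ (by omega) h.h8 h.h2 h.hN h.hS ha2 hj
      (Ω := 1) (fun a' ha' => Hn_le_one ha' hjN)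
    push_cast at hX
    set X : ℝ := (a : ℝ) * N - j * S with hXdef
    have hX2 : (m : ℝ) ^ 4 / 16 ≤ X ^ 2 := by
      have h1 : ((m : ℝ) ^ 2 / 4) ^ 2 ≤ |X| ^ 2 := pow_le_pow_left₀ (by positivity) hX 2
      rw [sq_abs] at h1
      calc (m : ℝ) ^ 4 / 16 = ((m : ℝ) ^ 2 / 4) ^ 2 := by ring
        _ ≤ X ^ 2 := h1
    have hY : (m : ℝ) / (1536 * κ ^ 3) ≤ 1 + X ^ 2 / (96 * κ ^ 3 * m ^ 3) := by
      have h1 : (m : ℝ) / (1536 * κ ^ 3) = ((m : ℝ) ^ 4 / 16) / (96 * κ ^ 3 * m ^ 3) := by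
        field_simp
        ring
      rw [h1]
      have h2 : ((m : ℝ) ^ 4 / 16) / (96 * κ ^ 3 * m ^ 3) ≤ X ^ 2 / (96 * κ ^ 3 * m ^ 3) :=
        div_le_div_of_nonneg_right hX2 (by positivity)
      linarith
    have hY3 : ((m : ℝ) / (1536 * κ ^ 3)) ^ 3 ≤ (1 + X ^ 2 / (96 * κ ^ 3 * m ^ 3)) ^ 3 :=
      pow_le_pow_left₀ (by positivity) hY 3
    have h0 := Hn_nonneg N S a j
    have h1 : Hn N S a j * ((m : ℝ) / (1536 * κ ^ 3)) ^ 3 ≤ 8 * 1 :=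
      (mul_le_mul_of_nonneg_left hY3 h0).trans ht
    unfold Cf
    rw [le_div_iff₀ (by positivity)]
    have e : ((m : ℝ) / (1536 * κ ^ 3)) ^ 3 = (m : ℝ) ^ 3 / (1536 * κ ^ 3) ^ 3 := by
      rw [div_pow]
    rw [e] at h1
    have h2 : Hn N S a j * (m : ℝ) ^ 3 = (Hn N S a j * ((m : ℝ) ^ 3 / (1536 * κ ^ 3) ^ 3)) *
        (1536 * κ ^ 3) ^ 3 := by
      field_simp
    rw [h2]
    have h3 : (0:ℝ) ≤ (1536 * κ ^ 3) ^ 3 := by positivity
    nlinarith [mul_le_mul_of_nonneg_right h1 h3]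

theorem W0_le {n j : ℕ} (hn : n ≤ m + 1) :
    W0 (n : ℝ) j S N ≤ 2 * κ ∧ 0 ≤ (S : ℝ) - n + 1 := by
  have hm0 := h.m0
  have hn0 : (n : ℝ) ≤ m + 1 := by exact_mod_cast hn
  have hS := h.S0
  have hQ : (m : ℝ) ≤ (S : ℝ) - n + 1 := by linarith
  refine ⟨?_, by linarith⟩
  unfold W0
  rw [div_le_iff₀ (by linarith)]
  have hj0 : (0:ℝ) ≤ (j : ℝ) := by positivity
  have hn1 : (0:ℝ) ≤ (n : ℝ) := by positivity
  have h1 : 2 * κ * (m : ℝ) ≤ 2 * κ * ((S : ℝ) - n + 1) :=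
    mul_le_mul_of_nonneg_left hQ (by have := h.κ0; positivity)
  have h2 := h.hN
  have h3 := h.hS
  linarith

theorem Gz_far {a : ℤ} {j : ℕ} (ha : a ≤ m + 1) (hj : j ≤ 3 * m)
    (hX : (m : ℝ) ^ 2 / 4 ≤ |(a : ℝ) * N - j * S|) : Gz N S a j ≤ 2 * κ * (Cf κ / m ^ 3) := by
  have hκ0 := h.κ0
  have hm0 := h.m0
  have hC : 0 ≤ Cf κ / (m : ℝ) ^ 3 := by unfold Cf; positivity
  by_cases ha0 : a < 0
  · rw [Gz_neg ha0]; positivity
  · have ha1 : 0 ≤ a := by omega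
    have hF := h.Hz_far ha hj hX
    lift a to ℕ using ha1
    have hmn := h.m256n
    have haS : a ≤ S := by
      have := h.h2
      omega
    have ha2 : a ≤ m + 1 := by
      have : (a : ℤ) ≤ ((m + 1 : ℕ) : ℤ) := by push_cast; exact ha
      exact_mod_cast this
    have hjN : j < N := by
      have := h.h8
      omega
    rw [Hz_nat haS] at hF
    rw [ratioG0 haS hjN]
    obtain ⟨hW, _⟩ := h.W0_le (n := a) (j := j) ha2
    have h0 := Hn_nonneg N S a j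
    calc Hn N S a j * W0 (a : ℝ) j S N ≤ Hn N S a j * (2 * κ) :=
          mul_le_mul_of_nonneg_left hW h0
      _ = 2 * κ * Hn N S a j := by ring
      _ ≤ 2 * κ * (Cf κ / m ^ 3) := mul_le_mul_of_nonneg_left hF (by positivity)

end Par

/-- A real helper: the distance between two numbers in `[0, h]` is at most `h`. -/
theorem abs_sub_le_of_mem {x y h : ℝ} (hx0 : 0 ≤ x) (hx : x ≤ h) (hy0 : 0 ≤ y) (hy : y ≤ h) :
    |x - y| ≤ h := by
  rw [abs_le]; constructor <;> linarith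

/-- The increments in the far region. -/
theorem Inc_far {N S : ℕ} {γ c κ h₀ Cc : ℝ} (hκ : 0 < κ) (hγ0 : 0 ≤ γ) (hγ : γ ≤ κ) (hc : |c| ≤ Cc)
    (hκc : κ ≤ Cc) (hCc : 1 ≤ Cc) (h₀0 : 0 ≤ h₀) {a : ℤ} {j : ℕ}
    (h1 : Hz N S a j ≤ h₀) (h2 : Hz N S (a + 1) j ≤ h₀) (h3 : Hz N S a (j + 1) ≤ h₀)
    (h4 : Hz N S (a - 1) (j + 1) ≤ h₀) (h5 : Hz N S (a + 1) (j + 1) ≤ h₀)
    (h6 : Gz N S a j ≤ 2 * κ * h₀) (h7 : Gz N S (a + 1) j ≤ 2 * κ * h₀) (b d : Bool) :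
    |Inc N S γ c (a, j, b) d| ≤ 6 * Cc * h₀ := by
  have p1 := Hz_nonneg N S a j
  have p2 := Hz_nonneg N S (a + 1) j
  have p3 := Hz_nonneg N S a (j + 1)
  have p4 := Hz_nonneg N S (a - 1) (j + 1)
  have p5 := Hz_nonneg N S (a + 1) (j + 1)
  have p6 := Gz_nonneg N S a j
  have p7 := Gz_nonneg N S (a + 1) j
  have d1 := abs_sub_le_of_mem p1 h1 p2 h2
  have d2 := abs_sub_le_of_mem p3 h3 p1 h1
  have d3 := abs_sub_le_of_mem p3 h3 p5 h5
  have d4 := abs_sub_le_of_mem p4 h4 p1 h1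
  have d5 := abs_sub_le_of_mem p4 h4 p3 h3
  have d6 := abs_sub_le_of_mem p6 h6 p7 h7
  have c0 := abs_nonneg c
  have e1 : γ * h₀ ≤ κ * h₀ := mul_le_mul_of_nonneg_right hγ h₀0
  have e2 : κ * h₀ ≤ Cc * h₀ := mul_le_mul_of_nonneg_right hκc h₀0
  have e3 : |c| * h₀ ≤ Cc * h₀ := mul_le_mul_of_nonneg_right hc h₀0
  have e4 : 1 * h₀ ≤ Cc * h₀ := mul_le_mul_of_nonneg_right hCc h₀0
  have m1 : |γ * (Hz N S (a - 1) (j + 1) - Hz N S a j)| ≤ γ * h₀ := by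
    rw [abs_mul, abs_of_nonneg hγ0]; exact mul_le_mul_of_nonneg_left d4 hγ0
  have m2 : |γ * (Hz N S a (j + 1) - Hz N S a j)| ≤ γ * h₀ := by
    rw [abs_mul, abs_of_nonneg hγ0]; exact mul_le_mul_of_nonneg_left d2 hγ0
  have m3 : |c * (Hz N S a (j + 1) - Hz N S (a + 1) (j + 1))| ≤ |c| * h₀ := by
    rw [abs_mul]; exact mul_le_mul_of_nonneg_left d3 c0
  have m4 : |c * (Hz N S a j - Hz N S (a + 1) j)| ≤ |c| * h₀ := by
    rw [abs_mul]; exact mul_le_mul_of_nonneg_left d1 c0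
  have m5 : |c * ((Hz N S (a - 1) (j + 1) - Hz N S a (j + 1)) - (Hz N S a j - Hz N S (a + 1) j))| ≤
      |c| * (h₀ + h₀) := by
    rw [abs_mul]
    exact mul_le_mul_of_nonneg_left ((abs_sub _ _).trans (add_le_add d5 d1)) c0
  have e5 : |c| * (h₀ + h₀) = 2 * (|c| * h₀) := by ring
  rw [e5] at m5
  have e6 : 6 * Cc * h₀ = 6 * (Cc * h₀) := by ring
  rw [e6]
  cases b <;> cases d
  · rw [Inc_ff, neg_mul, abs_neg]; linarith
  · rw [Inc_ft]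
    have a1 := abs_sub ((Hz N S a j - Hz N S (a + 1) j) - γ * (Hz N S a (j + 1) - Hz N S a j))
      (c * (Hz N S a (j + 1) - Hz N S (a + 1) (j + 1)))
    have a2 := abs_sub (Hz N S a j - Hz N S (a + 1) j) (γ * (Hz N S a (j + 1) - Hz N S a j))
    linarith
  · rw [Inc_tf, neg_mul]
    have a1 := abs_add_le (- (γ * (Hz N S (a - 1) (j + 1) - Hz N S a j)))
      (c * (Hz N S a j - Hz N S (a + 1) j))
    rw [abs_neg] at a1
    linarith
  · rw [Inc_tt]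
    have a1 := abs_sub ((Gz N S a j - Gz N S (a + 1) j) - γ * (Hz N S (a - 1) (j + 1) - Hz N S a j))
      (c * ((Hz N S (a - 1) (j + 1) - Hz N S a (j + 1)) - (Hz N S a j - Hz N S (a + 1) j)))
    have a2 := abs_sub (Gz N S a j - Gz N S (a + 1) j) (γ * (Hz N S (a - 1) (j + 1) - Hz N S a j))
    have e7 : 2 * κ * h₀ = 2 * (κ * h₀) := by ring
    rw [e7] at d6
    linarith

/-! ### the potential -/

/-- The bounded increasing function used as a potential. -/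
noncomputable def psi (x : ℝ) : ℝ := x / (1 + |x|)

theorem psi_abs_le (x : ℝ) : |psi x| ≤ 1 := by
  unfold psi
  rw [abs_div, abs_of_pos (by positivity : 0 < 1 + |x|), div_le_one (by positivity)]
  linarith

theorem psi_gap {x y : ℝ} (h : y ≤ x) : (x - y) / ((1 + |x|) * (1 + |y|)) ≤ psi x - psi y := by
  have hx : 0 < 1 + |x| := by positivity
  have hy : 0 < 1 + |y| := by positivity
  have e : psi x - psi y = (x * (1 + |y|) - y * (1 + |x|)) / ((1 + |x|) * (1 + |y|)) := by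
    unfold psi; field_simp
  rw [e]
  apply div_le_div_of_nonneg_right _ (by positivity)
  have key : 0 ≤ x * |y| - y * |x| := by
    rcases le_total 0 x with h1 | h1 <;> rcases le_total 0 y with h2 | h2
    · rw [abs_of_nonneg h1, abs_of_nonneg h2]; nlinarith
    · rw [abs_of_nonneg h1, abs_of_nonpos h2]; nlinarith [mul_nonneg h1 (neg_nonneg.2 h2)]
    · nlinarith
    · rw [abs_of_nonpos h1, abs_of_nonpos h2]; nlinarith
  nlinarith

theorem psi_mono {x y : ℝ} (h : y ≤ x) : 0 ≤ psi x - psi y := by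
  refine le_trans ?_ (psi_gap h)
  have hx : 0 < 1 + |x| := by positivity
  have hy : 0 < 1 + |y| := by positivity
  apply div_nonneg (by linarith) (by positivity)

/-! ### abstract combination at the bulk points -/

/-- The square budget at a bulk point, in abstract form. -/
theorem bulk_sq {I τ i C E Ξ m μ κ A gap : ℝ} (hκ : 0 < κ) (hμ0 : 0 < μ) (hμ : μ ^ 2 = m)
    (hI : I = τ * i) (hi : |i| ≤ C * E) (hC : 0 ≤ C) (hE0 : 0 ≤ E) (hτ0 : 0 ≤ τ)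
    (hτ : τ * Ξ ^ 3 ≤ 16 * κ ^ 2 / μ) (hΞ : 1 ≤ Ξ) (hE : E ^ 2 ≤ 192 * κ ^ 3 * Ξ / m)
    (hgap : 1 / (192 * κ ^ 3 * μ * Ξ) ≤ gap)
    (hA : 192 * κ ^ 3 * (256 * κ ^ 4 * C ^ 2 * (192 * κ ^ 3)) ≤ A) :
    I ^ 2 ≤ A / μ ^ 3 * gap := by
  have hm0 : 0 < m := by rw [← hμ]; positivity
  have hΞ0 : 0 < Ξ := by linarith
  have h1 : i ^ 2 ≤ C ^ 2 * E ^ 2 := by
    rw [← sq_abs, ← mul_pow]
    exact pow_le_pow_left₀ (abs_nonneg _) hi 2
  have h2 : (τ * Ξ ^ 3) ^ 2 ≤ (16 * κ ^ 2 / μ) ^ 2 :=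
    pow_le_pow_left₀ (by positivity) hτ 2
  have h3 : (16 * κ ^ 2 / μ) ^ 2 = 256 * κ ^ 4 / m := by
    rw [div_pow, hμ]; ring
  rw [h3] at h2
  -- the product bound
  have h4 : I ^ 2 * Ξ ^ 6 ≤ (256 * κ ^ 4 / m) * (C ^ 2 * (192 * κ ^ 3 * Ξ / m)) := by
    rw [hI]
    have e : (τ * i) ^ 2 * Ξ ^ 6 = (τ * Ξ ^ 3) ^ 2 * i ^ 2 := by ring
    rw [e]
    apply mul_le_mul h2 _ (sq_nonneg _) (by positivity)
    exact h1.trans (mul_le_mul_of_nonneg_left hE (by positivity))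
  set B : ℝ := 256 * κ ^ 4 * C ^ 2 * (192 * κ ^ 3) with hB
  have h5 : (256 * κ ^ 4 / m) * (C ^ 2 * (192 * κ ^ 3 * Ξ / m)) = B * Ξ / m ^ 2 := by
    rw [hB]; field_simp
  rw [h5] at h4
  have hB0 : 0 ≤ B := by rw [hB]; positivity
  -- dividing
  have h6 : I ^ 2 * Ξ ≤ B / m ^ 2 := by
    have h7 : I ^ 2 * Ξ * Ξ ^ 5 ≤ (B / m ^ 2) * Ξ ^ 5 := by
      have e1 : I ^ 2 * Ξ * Ξ ^ 5 = I ^ 2 * Ξ ^ 6 := by ring
      have e2 : (B / m ^ 2) * Ξ ^ 5 * Ξ = B * Ξ / m ^ 2 * Ξ ^ 5 := by ring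
      rw [e1]
      refine h4.trans ?_
      have h8 : (1:ℝ) ≤ Ξ ^ 5 := one_le_pow₀ hΞ
      have h9 : B * Ξ / m ^ 2 ≥ 0 := by positivity
      have h10 : (B / m ^ 2) * Ξ ^ 5 = (B / m ^ 2) * Ξ ^ 4 * Ξ := by ring
      have h11 : B * Ξ / m ^ 2 = (B / m ^ 2) * Ξ := by ring
      rw [h10, h11]
      apply mul_le_mul_of_nonneg_right _ hΞ0.le
      have h12 : (1:ℝ) ≤ Ξ ^ 4 := one_le_pow₀ hΞ
      have h13 : 0 ≤ B / m ^ 2 := by positivity
      nlinarith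
    exact le_of_mul_le_mul_right h7 (by positivity)
  have h14 : A / μ ^ 3 * gap ≥ A / μ ^ 3 * (1 / (192 * κ ^ 3 * μ * Ξ)) := by
    apply mul_le_mul_of_nonneg_left hgap
    have : 0 ≤ A := le_trans (by positivity) hA
    positivity
  refine le_trans ?_ h14
  have h15 : A / μ ^ 3 * (1 / (192 * κ ^ 3 * μ * Ξ)) = (A / (192 * κ ^ 3)) / m ^ 2 / Ξ := by
    rw [← hμ]; field_simp
  rw [h15, le_div_iff₀ hΞ0]
  refine h6.trans ?_
  apply div_le_div_of_nonneg_right _ (by positivity)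
  rw [le_div_iff₀ (by positivity)]
  calc B * (192 * κ ^ 3) = 192 * κ ^ 3 * B := by ring
    _ ≤ A := hA

/-- The drift budget at a bulk point, in abstract form. -/
theorem bulk_drift {M τ i D F Ξ m μ κ A gap : ℝ} (hκ : 0 < κ) (hμ0 : 0 < μ) (hμ : μ ^ 2 = m)
    (hM : M = τ * i) (hi : |i| ≤ D * F) (hD : 0 ≤ D) (hτ0 : 0 ≤ τ)
    (hτ : τ * Ξ ^ 3 ≤ 16 * κ ^ 2 / μ) (hΞ : 1 ≤ Ξ) (hF : F ≤ 200 * κ ^ 3 * Ξ / m)
    (hgap : 1 / (192 * κ ^ 3 * μ * Ξ) ≤ gap)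
    (hA : 192 * κ ^ 3 * (3200 * κ ^ 5 * D) ≤ A) :
    |M| ≤ A / m * gap := by
  have hm0 : 0 < m := by rw [← hμ]; positivity
  have hΞ0 : 0 < Ξ := by linarith
  have hF0 : 0 ≤ F ∨ F < 0 := le_or_gt 0 F
  have h1 : |i| ≤ D * (200 * κ ^ 3 * Ξ / m) := hi.trans (mul_le_mul_of_nonneg_left hF hD)
  rw [hM, abs_mul, abs_of_nonneg hτ0]
  have hA0 : 0 ≤ A := le_trans (by positivity) hA
  have h14 : A / m * gap ≥ A / m * (1 / (192 * κ ^ 3 * μ * Ξ)) :=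
    mul_le_mul_of_nonneg_left hgap (by positivity)
  refine le_trans ?_ h14
  have h2 : τ * |i| * Ξ ^ 3 ≤ (16 * κ ^ 2 / μ) * (D * (200 * κ ^ 3 * Ξ / m)) := by
    have e : τ * |i| * Ξ ^ 3 = (τ * Ξ ^ 3) * |i| := by ring
    rw [e]
    exact mul_le_mul hτ h1 (abs_nonneg _) (by positivity)
  have h3 : (16 * κ ^ 2 / μ) * (D * (200 * κ ^ 3 * Ξ / m)) = (3200 * κ ^ 5 * D) / (μ * m) * Ξ := by
    field_simp
    ring
  rw [h3] at h2
  set B := (3200 * κ ^ 5 * D) / (μ * m) with hB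
  have hB0 : 0 ≤ B := by rw [hB]; positivity
  have h4 : τ * |i| * Ξ ≤ B := by
    have h5 : τ * |i| * Ξ * Ξ ^ 2 ≤ B * Ξ := by
      have e : τ * |i| * Ξ * Ξ ^ 2 = τ * |i| * Ξ ^ 3 := by ring
      rw [e]; exact h2
    have h6 : τ * |i| * Ξ * Ξ ≤ τ * |i| * Ξ * Ξ ^ 2 := by
      have h7 : 0 ≤ τ * |i| * Ξ := by positivity
      have h8 : Ξ ≤ Ξ ^ 2 := by nlinarith
      exact mul_le_mul_of_nonneg_left h8 h7
    exact le_of_mul_le_mul_right (h6.trans h5) hΞ0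
  have h15 : A / m * (1 / (192 * κ ^ 3 * μ * Ξ)) = (A / (192 * κ ^ 3)) / (μ * m) / Ξ := by
    field_simp
  rw [h15, le_div_iff₀ hΞ0]
  refine h4.trans ?_
  rw [hB]
  apply div_le_div_of_nonneg_right _ (by positivity)
  rw [le_div_iff₀ (by positivity)]
  calc 3200 * κ ^ 5 * D * (192 * κ ^ 3) = 192 * κ ^ 3 * (3200 * κ ^ 5 * D) := by ring
    _ ≤ A := hA

end Vale.Agent.Lib.P321
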