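import Vale.Agent.Lib.P321.Budget2

/-!
# P321: the budgets of the near-martingale along the chain
-/

namespace Vale.Agent.Lib.P321

/-- The scaled ridge coordinate of a state. -/
noncomputable def xS (μ : ℝ) (N S : ℕ) (s : St) : ℝ :=
  ((s.1 : ℝ) * N - (s.2.1 : ℝ) * S) / μ ^ 3

/-- The invariant of the chain started at `(m, 0, 1)`. -/
def Good (m : ℕ) (s : St) : Prop :=
  (m : ℤ) - s.2.1 ≤ s.1 ∧ (s.2.1 : ℤ) + (if s.2.2 = true then 0 else 1) ≤ 2 * ((m : ℤ) - s.1)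

theorem Good_nxS {m : ℕ} {s : St} (hs : Good m s) (d : Bool) : Good m (nxS s d) := by
  obtain ⟨a, j, b⟩ := s
  obtain ⟨h1, h2⟩ := hs
  simp only at h1 h2
  unfold Good nxS nxt
  simp only
  cases b <;> cases d <;> simp at h2 ⊢ <;> (try constructor) <;> (try push_cast) <;> omega

theorem Good_start (m : ℕ) : Good m ((m : ℤ), 0, true) := by
  unfold Good
  simp

/-- The step of the ridge coordinate. -/
theorem X_step {N S : ℕ} (s : St) (d : Bool) :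
    ((nxS s d).1 : ℝ) * N - ((nxS s d).2.1 : ℝ) * S ≤ (s.1 : ℝ) * N - (s.2.1 : ℝ) * S - S ∧
    (s.1 : ℝ) * N - (s.2.1 : ℝ) * S - S - N ≤ ((nxS s d).1 : ℝ) * N - ((nxS s d).2.1 : ℝ) * S := by
  obtain ⟨a, j, b⟩ := s
  have hN : (0:ℝ) ≤ (N : ℝ) := by positivity
  unfold nxS nxt
  simp only
  split_ifs
  · push_cast; constructor <;> nlinarith
  · push_cast; constructor <;> nlinarith

namespace Par

variable {κ μ : ℝ} {m N S : ℕ} (h : Par κ μ m N S)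
include h

theorem m1 : (1:ℝ) ≤ m := by linarith [h.m256]

theorem μ1 : 1 ≤ μ := by
  have h1 := h.hμ0
  by_contra hc
  push Not at hc
  have : μ ^ 2 < 1 := by nlinarith
  rw [h.hμ] at this
  linarith [h.m1]

theorem μ2κ : 2 * κ ≤ μ := by
  have h1 := h.hμ0
  by_contra hc
  push Not at hc
  have h2 : μ ^ 2 < (2 * κ) ^ 2 := by nlinarith
  rw [h.hμ] at h2
  nlinarith [h.hm]

theorem μ3 : μ ^ 3 = m * μ := by
  rw [← h.hμ]; ring

/-- The step in the scaled coordinate. -/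
theorem x_step (s : St) (d : Bool) :
    2 / μ ≤ xS μ N S s - xS μ N S (nxS s d) ∧ xS μ N S s - xS μ N S (nxS s d) ≤ 1 := by
  obtain ⟨h1, h2⟩ := X_step (N := N) (S := S) s d
  have hμ0 := h.hμ0
  have hm0 := h.m0
  have e : xS μ N S s - xS μ N S (nxS s d) =
      (((s.1 : ℝ) * N - (s.2.1 : ℝ) * S) -
        (((nxS s d).1 : ℝ) * N - ((nxS s d).2.1 : ℝ) * S)) / μ ^ 3 := by
    unfold xS; ring
  rw [e]
  have hμ3 : 0 < μ ^ 3 := by positivity
  constructor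
  · rw [le_div_iff₀ hμ3]
    have e2 : 2 / μ * μ ^ 3 = 2 * (m : ℝ) := by
      rw [← h.hμ]; field_simp
    rw [e2]
    linarith [h.S0]
  · rw [div_le_one hμ3]
    have h3 : (S : ℝ) + N ≤ 2 * κ * m := by linarith [h.hS, h.hN]
    have h4 : 2 * κ * (m : ℝ) ≤ μ * m := mul_le_mul_of_nonneg_right h.μ2κ hm0.le
    rw [h.μ3]
    linarith [mul_comm μ (m : ℝ)]

/-- The gap of the potential, general form. -/
theorem gap_ge (s : St) (d : Bool) :
    (2 / μ) / ((1 + |xS μ N S s|) * (2 + |xS μ N S s|)) ≤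
      psi (xS μ N S s) - psi (xS μ N S (nxS s d)) := by
  obtain ⟨h1, h2⟩ := h.x_step s d
  have hμ0 := h.hμ0
  have h3 : xS μ N S (nxS s d) ≤ xS μ N S s := by
    have : 0 < 2 / μ := by positivity
    linarith
  refine le_trans ?_ (psi_gap h3)
  have hx : 0 < 1 + |xS μ N S s| := by positivity
  have hy : 0 < 1 + |xS μ N S (nxS s d)| := by positivity
  have h4 : |xS μ N S (nxS s d)| ≤ |xS μ N S s| + 1 := by
    have := abs_sub_abs_le_abs_sub (xS μ N S (nxS s d)) (xS μ N S s)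
    have h5 : |xS μ N S (nxS s d) - xS μ N S s| ≤ 1 := by
      rw [abs_sub_comm, abs_of_nonneg (by linarith)]; exact h2
    linarith
  apply div_le_div₀ (by linarith) h1 (by positivity)
  apply mul_le_mul_of_nonneg_left _ hx.le
  linarith

/-- The potential decreases along any step. -/
theorem gap_nonneg (s : St) (d : Bool) :
    0 ≤ psi (xS μ N S s) - psi (xS μ N S (nxS s d)) := by
  refine le_trans ?_ (h.gap_ge s d)
  have := h.hμ0
  positivity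

/-- The gap in the far region. -/
theorem gap_far {a : ℤ} {j : ℕ} {b d : Bool} (ha : -1 ≤ a) (ha2 : a ≤ m) (hj : j ≤ 2 * m + 2) :
    1 / (15 * κ ^ 2 * μ ^ 3) ≤ psi (xS μ N S (a, j, b)) - psi (xS μ N S (nxS (a, j, b) d)) := by
  refine le_trans ?_ (h.gap_ge (a, j, b) d)
  have hμ0 := h.hμ0
  have hκ0 := h.κ0
  have hm0 := h.m0
  have hμ1 := h.μ1
  have hκμ : 1 ≤ κ * μ := by nlinarith [h.hκ]
  -- the bound on `x`
  have hX : |((a : ℝ) * N - (j : ℝ) * S)| ≤ 4 * κ * (m : ℝ) ^ 2 := by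
    have h1 : |(a : ℝ)| ≤ m := by
      rw [abs_le]
      constructor
      · have : (-1 : ℝ) ≤ (a : ℝ) := by exact_mod_cast ha
        linarith [h.m1]
      · exact_mod_cast ha2
    have h2 : (j : ℝ) ≤ 3 * m := by
      have : (j : ℝ) ≤ 2 * m + 2 := by exact_mod_cast hj
      linarith [h.m256]
    have h3 : |(a : ℝ) * N| ≤ m * (κ * m) := by
      rw [abs_mul, abs_of_nonneg (by positivity : (0:ℝ) ≤ (N : ℝ))]
      exact mul_le_mul h1 h.hN (by positivity) (by positivity)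
    have h4 : |(j : ℝ) * S| ≤ (3 * m) * (κ * m) := by
      rw [abs_of_nonneg (by positivity)]
      exact mul_le_mul h2 h.hS (by positivity) (by positivity)
    have h5 := abs_sub ((a : ℝ) * N) ((j : ℝ) * S)
    nlinarith
  have hx : |xS μ N S (a, j, b)| ≤ 4 * κ * μ := by
    unfold xS
    simp only
    rw [abs_div, abs_of_pos (by positivity : 0 < μ ^ 3), div_le_iff₀ (by positivity)]
    have e : 4 * κ * μ * μ ^ 3 = 4 * κ * (m : ℝ) ^ 2 := by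
      rw [← h.hμ]; ring
    rw [e]; exact hX
  have h0 : 0 ≤ |xS μ N S (a, j, b)| := abs_nonneg _
  have e1 : 1 / (15 * κ ^ 2 * μ ^ 3) = (2 / μ) / ((5 * κ * μ) * (6 * κ * μ)) := by
    field_simp
    ring
  rw [e1]
  apply div_le_div_of_nonneg_left (by positivity) (by positivity)
  apply mul_le_mul (by linarith) (by linarith) (by positivity) (by positivity)

/-- The value of `Ξ`. -/
noncomputable def Xi (κ m : ℝ) (X : ℝ) : ℝ := 1 + X ^ 2 / (96 * κ ^ 3 * m ^ 3)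

/-- The gap in the bulk. -/
theorem gap_bulk {a : ℤ} {j : ℕ} {b d : Bool} :
    1 / (192 * κ ^ 3 * μ * Xi κ m ((a : ℝ) * N - (j : ℝ) * S)) ≤
      psi (xS μ N S (a, j, b)) - psi (xS μ N S (nxS (a, j, b) d)) := by
  refine le_trans ?_ (h.gap_ge (a, j, b) d)
  have hμ0 := h.hμ0
  have hκ0 := h.κ0
  have hm0 := h.m0
  set X : ℝ := (a : ℝ) * N - (j : ℝ) * S with hX
  set x := xS μ N S (a, j, b) with hx
  have hx2 : x ^ 2 = X ^ 2 / (m : ℝ) ^ 3 := by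
    rw [hx]; unfold xS; simp only
    rw [← hX, div_pow, ← h.hμ]
    ring
  have hΞ : 1 + x ^ 2 ≤ 96 * κ ^ 3 * Xi κ m X := by
    unfold Xi
    have h96 : 1 ≤ 96 * κ ^ 3 := by
      have : (1:ℝ) ≤ κ ^ 3 := one_le_pow₀ (by linarith [h.hκ])
      linarith
    have e : 96 * κ ^ 3 * (1 + X ^ 2 / (96 * κ ^ 3 * (m : ℝ) ^ 3)) = 96 * κ ^ 3 + x ^ 2 := by
      rw [hx2]; field_simp
    rw [e]; linarith
  have hb : (1 + |x|) * (2 + |x|) ≤ 4 * (1 + x ^ 2) := by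
    have h1 : |x| ^ 2 = x ^ 2 := sq_abs x
    nlinarith [sq_nonneg (|x| - 1), abs_nonneg x]
  have hΞ1 : 0 < Xi κ m X := by unfold Xi; positivity
  have e1 : 1 / (192 * κ ^ 3 * μ * Xi κ m X) = (2 / μ) / (4 * (96 * κ ^ 3 * Xi κ m X)) := by
    field_simp
    ring
  rw [e1]
  apply div_le_div_of_nonneg_left (by positivity) (by positivity)
  refine hb.trans ?_
  linarith

end Par

/-- The constant of the square budget. -/
noncomputable def A2 (κ Cc : ℝ) : ℝ :=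
  15 * κ ^ 2 * (6 * Cc) ^ 2 * (Cf κ) ^ 2 + 192 * κ ^ 3 * (256 * κ ^ 4 * (130 * Cc * κ ^ 4) ^ 2 * (192 * κ ^ 3))

/-- The constant of the drift budget. -/
noncomputable def A1 (κ Cc : ℝ) : ℝ :=
  15 * κ ^ 2 * (6 * Cc) * (Cf κ) + 192 * κ ^ 3 * (3200 * κ ^ 5 * (60 * Cc * κ ^ 4))

namespace Par

variable {κ μ ς cς : ℝ} {m N S : ℕ} (h : Par κ μ m N S)
include h

theorem Cf0 : 0 ≤ Cf κ := by
  have := h.κ0
  unfold Cf; positivity

/-- The kernel values in the far region. -/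
theorem far_vals {a : ℤ} {j : ℕ} (ha2 : a ≤ m) (hj : j ≤ 2 * m + 2)
    (hX : (m : ℝ) ^ 2 / 2 ≤ |(a : ℝ) * N - (j : ℝ) * S|) :
    Hz N S a j ≤ Cf κ / m ^ 3 ∧ Hz N S (a + 1) j ≤ Cf κ / m ^ 3 ∧
    Hz N S a (j + 1) ≤ Cf κ / m ^ 3 ∧ Hz N S (a - 1) (j + 1) ≤ Cf κ / m ^ 3 ∧
    Hz N S (a + 1) (j + 1) ≤ Cf κ / m ^ 3 ∧
    Gz N S a j ≤ 2 * κ * (Cf κ / m ^ 3) ∧ Gz N S (a + 1) j ≤ 2 * κ * (Cf κ / m ^ 3) := by
  have hmn := h.m256n
  have hj3 : j ≤ 3 * m := by omega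
  have hj4 : j + 1 ≤ 3 * m := by omega
  have hm8 := h.m8κ
  have hm0 := h.m0
  have hκ0 := h.κ0
  have hbig : 2 * κ * (m : ℝ) ≤ (m : ℝ) ^ 2 / 4 := by nlinarith
  have hNS : (N : ℝ) + S ≤ 2 * κ * m := by linarith [h.hN, h.hS]
  have hN0 : (0:ℝ) ≤ (N : ℝ) := by positivity
  have hS0 : (0:ℝ) ≤ (S : ℝ) := by positivity
  -- a helper for the neighbours
  have nb : ∀ y : ℝ, |y| ≤ (N : ℝ) + S →
      (m : ℝ) ^ 2 / 4 ≤ |((a : ℝ) * N - (j : ℝ) * S) + y| := by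
    intro y hy
    have h1 := abs_sub_abs_le_abs_sub ((a : ℝ) * N - (j : ℝ) * S) (-y)
    rw [sub_neg_eq_add, abs_neg] at h1
    linarith
  have p1 : (m : ℝ) ^ 2 / 4 ≤ |(a : ℝ) * N - (j : ℝ) * S| := by
    have : 0 ≤ (m : ℝ) ^ 2 / 4 := by positivity
    linarith
  have p2 : (m : ℝ) ^ 2 / 4 ≤ |((a + 1 : ℤ) : ℝ) * N - (j : ℝ) * S| := by
    have := nb N (by rw [abs_of_nonneg hN0]; linarith)
    convert this using 2
    push_cast; ring
  have p3 : (m : ℝ) ^ 2 / 4 ≤ |(a : ℝ) * N - ((j + 1 : ℕ) : ℝ) * S| := by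
    have := nb (-S) (by rw [abs_neg, abs_of_nonneg hS0]; linarith)
    convert this using 2
    push_cast; ring
  have p4 : (m : ℝ) ^ 2 / 4 ≤ |((a - 1 : ℤ) : ℝ) * N - ((j + 1 : ℕ) : ℝ) * S| := by
    have := nb (-N - S) (by
      rw [abs_le]; constructor <;> linarith)
    convert this using 2
    push_cast; ring
  have p5 : (m : ℝ) ^ 2 / 4 ≤ |((a + 1 : ℤ) : ℝ) * N - ((j + 1 : ℕ) : ℝ) * S| := by
    have := nb (N - S) (by
      rw [abs_le]; constructor <;> linarith)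
    convert this using 2
    push_cast; ring
  have ha3 : a ≤ (m : ℤ) + 1 := by omega
  have ha4 : a + 1 ≤ (m : ℤ) + 1 := by omega
  have ha5 : a - 1 ≤ (m : ℤ) + 1 := by omega
  exact ⟨h.Hz_far ha3 hj3 p1, h.Hz_far ha4 hj3 p2, h.Hz_far ha3 hj4 p3, h.Hz_far ha5 hj4 p4,
    h.Hz_far ha4 hj4 p5, h.Gz_far ha3 hj3 p1, h.Gz_far ha4 hj3 p2⟩

/-- The two budgets in the far region. -/
theorem budget_far {γ c Cc : ℝ} (hγ0 : 0 ≤ γ) (hγ : γ ≤ κ) (hc : |c| ≤ Cc) (hκc : κ ≤ Cc)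
    (hCc : 1 ≤ Cc) (hς0 : 0 ≤ ς) (hς1 : ς ≤ 1) {a : ℤ} {j : ℕ} {b d : Bool}
    (ha : -1 ≤ a) (ha2 : a ≤ m) (hj : j ≤ 2 * m + 2)
    (hX : (m : ℝ) ^ 2 / 2 ≤ |(a : ℝ) * N - (j : ℝ) * S|) :
    Inc N S γ c (a, j, b) d ^ 2 ≤ A2 κ Cc / μ ^ 3 *
        (psi (xS μ N S (a, j, b)) - psi (xS μ N S (nxS (a, j, b) d))) ∧
    |mn bitS (Inc N S γ c) ς (a, j, b)| ≤ A1 κ Cc / m *
        (psi (xS μ N S (a, j, b)) - psi (xS μ N S (nxS (a, j, b) d))) := by
  obtain ⟨v1, v2, v3, v4, v5, v6, v7⟩ := h.far_vals ha2 hj hX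
  have hκ0 := h.κ0
  have hm0 := h.m0
  have hμ0 := h.hμ0
  have hCf := h.Cf0
  have hm1 := h.m1
  have hCc0 : 0 < Cc := by linarith
  set h₀ := Cf κ / (m : ℝ) ^ 3 with hh₀
  have hh0 : 0 ≤ h₀ := by rw [hh₀]; positivity
  have hI := fun (b d : Bool) => Inc_far (N := N) (S := S) (a := a) (j := j) hκ0 hγ0 hγ hc hκc hCc
    hh0 v1 v2 v3 v4 v5 v6 v7 b d
  have hgap := h.gap_far (a := a) (j := j) (b := b) (d := d) ha ha2 hj
  set gap := psi (xS μ N S (a, j, b)) - psi (xS μ N S (nxS (a, j, b) d)) with hgapdef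
  have hμ3 : 0 < μ ^ 3 := by positivity
  have hμm : μ ^ 3 ≤ (m : ℝ) ^ 2 := by
    have h1 : μ ≤ m := by
      rw [← h.hμ, pow_two]
      exact le_mul_of_one_le_right hμ0.le h.μ1
    rw [h.μ3, pow_two]
    exact mul_le_mul_of_nonneg_left h1 hm0.le
  constructor
  · -- the square
    have hA : 15 * κ ^ 2 * (6 * Cc) ^ 2 * (Cf κ) ^ 2 ≤ A2 κ Cc := by
      unfold A2
      have : 0 ≤ 192 * κ ^ 3 * (256 * κ ^ 4 * (130 * Cc * κ ^ 4) ^ 2 * (192 * κ ^ 3)) := by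
        positivity
      linarith
    have h1 : Inc N S γ c (a, j, b) d ^ 2 ≤ (6 * Cc * h₀) ^ 2 := by
      rw [← sq_abs]
      exact pow_le_pow_left₀ (abs_nonneg _) (hI b d) 2
    refine h1.trans ?_
    have hA0 : 0 ≤ A2 κ Cc := le_trans (by positivity) hA
    have h2 : A2 κ Cc / μ ^ 3 * (1 / (15 * κ ^ 2 * μ ^ 3)) ≤ A2 κ Cc / μ ^ 3 * gap :=
      mul_le_mul_of_nonneg_left hgap (by positivity)
    refine le_trans ?_ h2
    have e : A2 κ Cc / μ ^ 3 * (1 / (15 * κ ^ 2 * μ ^ 3)) =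
        (A2 κ Cc / (15 * κ ^ 2)) / (m : ℝ) ^ 3 := by
      have e1 : μ ^ 3 * μ ^ 3 = (m : ℝ) ^ 3 := by rw [← h.hμ]; ring
      rw [← e1]; field_simp
    rw [e]
    have e2 : (6 * Cc * h₀) ^ 2 = ((6 * Cc) ^ 2 * (Cf κ) ^ 2 / (m : ℝ) ^ 3) / (m : ℝ) ^ 3 := by
      rw [hh₀]; field_simp
    rw [e2]
    have h3 : (1:ℝ) ≤ (m : ℝ) ^ 3 := one_le_pow₀ hm1
    have h4 : ((6 * Cc) ^ 2 * (Cf κ) ^ 2 / (m : ℝ) ^ 3) / (m : ℝ) ^ 3 ≤
        ((6 * Cc) ^ 2 * (Cf κ) ^ 2) / (m : ℝ) ^ 3 := by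
      apply div_le_div_of_nonneg_right _ (by positivity)
      exact div_le_self (by positivity) h3
    refine h4.trans ?_
    apply div_le_div_of_nonneg_right _ (by positivity)
    rw [le_div_iff₀ (by positivity)]
    linarith
  · -- the drift
    have hA : 15 * κ ^ 2 * (6 * Cc) * (Cf κ) ≤ A1 κ Cc := by
      unfold A1
      have : 0 ≤ 192 * κ ^ 3 * (3200 * κ ^ 5 * (60 * Cc * κ ^ 4)) := by positivity
      linarith
    have h1 : |mn bitS (Inc N S γ c) ς (a, j, b)| ≤ 6 * Cc * h₀ := by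
      unfold mn
      have t1 := hI b (bitS (a, j, b))
      have t2 := hI b (!bitS (a, j, b))
      have h5 := abs_add_le (ς * Inc N S γ c (a, j, b) (bitS (a, j, b)))
        ((1 - ς) * Inc N S γ c (a, j, b) (!bitS (a, j, b)))
      rw [abs_mul, abs_mul, abs_of_nonneg hς0, abs_of_nonneg (by linarith : 0 ≤ 1 - ς)] at h5
      have t3 := mul_le_mul_of_nonneg_left t1 hς0
      have t4 := mul_le_mul_of_nonneg_left t2 (by linarith : 0 ≤ 1 - ς)
      nlinarith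
    refine h1.trans ?_
    have hA0 : 0 ≤ A1 κ Cc := le_trans (by positivity) hA
    have h2 : A1 κ Cc / m * (1 / (15 * κ ^ 2 * μ ^ 3)) ≤ A1 κ Cc / m * gap :=
      mul_le_mul_of_nonneg_left hgap (by positivity)
    refine le_trans ?_ h2
    have e : A1 κ Cc / m * (1 / (15 * κ ^ 2 * μ ^ 3)) =
        (A1 κ Cc / (15 * κ ^ 2)) / ((m : ℝ) * μ ^ 3) := by
      field_simp
    rw [e]
    have e2 : 6 * Cc * h₀ = (6 * Cc * Cf κ) / (m : ℝ) ^ 3 := by
      rw [hh₀]; ring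
    rw [e2]
    have h6 : (m : ℝ) * μ ^ 3 ≤ (m : ℝ) ^ 3 := by
      have : (m : ℝ) ^ 3 = (m : ℝ) * (m : ℝ) ^ 2 := by ring
      rw [this]
      exact mul_le_mul_of_nonneg_left hμm hm0.le
    apply div_le_div₀ (le_trans (by positivity) (show 6 * Cc * Cf κ ≤ _ from ?_)) ?_ (by positivity) h6
    all_goals
      rw [le_div_iff₀ (by positivity)]
      linarith

end Par

end Vale.Agent.Lib.P321
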