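import Vale.Agent.Lib.P321.Budget3

/-!
# P321: the budgets at the bulk points
-/

namespace Vale.Agent.Lib.P321

namespace Par

variable {κ μ ς : ℝ} {m N S : ℕ} (h : Par κ μ m N S)
include h

/-- Near the ridge the point is in the bulk. -/
theorem bulk_of_good {a : ℤ} {j : ℕ} {b : Bool} (hs : Good m (a, j, b))
    (hX : |(a : ℝ) * N - (j : ℝ) * S| < (m : ℝ) ^ 2 / 2) :
    ∃ n : ℕ, a = ((n + 1 : ℕ) : ℤ) ∧ n + 1 ≤ m ∧ j ≤ 2 * m ∧
      Bulk κ m ((n + 1 : ℕ) : ℝ) j S N := by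
  obtain ⟨g1, g2⟩ := hs
  simp only at g1 g2
  have hκ := h.hκ
  have hκ0 := h.κ0
  have hm0 := h.m0
  have hm1 := h.m1
  have hN8 := h.N0
  have hS2 := h.S0
  have hN := h.hN
  have hS := h.hS
  have g1r : (m : ℝ) - j ≤ (a : ℝ) := by exact_mod_cast g1
  have g3 : (j : ℤ) ≤ 2 * ((m : ℤ) - a) := by split_ifs at g2 <;> omega
  have g3r : (j : ℝ) ≤ 2 * ((m : ℝ) - a) := by exact_mod_cast g3
  have hj0 : (0:ℝ) ≤ (j : ℝ) := by positivity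
  obtain ⟨hX1, hX2⟩ := abs_lt.1 hX
  have hNn : (0:ℝ) ≤ (N : ℝ) := by positivity
  have hSn : (0:ℝ) ≤ (S : ℝ) := by positivity
  -- the level is large
  have hj : (m : ℝ) ≤ κ * ((j : ℝ) + 1) := by
    by_contra hc
    push Not at hc
    have h1 : 8 * ((j : ℝ) + 1) ≤ κ * ((j : ℝ) + 1) :=
      mul_le_mul_of_nonneg_right hκ (by positivity)
    have h2 : (7 * (m : ℝ) / 8) ≤ (a : ℝ) := by linarith
    have h3 : (7 * (m : ℝ) / 8) * (8 * m) ≤ (a : ℝ) * N :=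
      mul_le_mul h2 hN8 (by positivity) (by linarith [mul_nonneg hm0.le hm0.le])
    have h4 : (j : ℝ) * S ≤ ((j : ℝ) + 1) * (κ * m) :=
      mul_le_mul (by linarith) hS hSn (by positivity)
    have h5 : ((j : ℝ) + 1) * (κ * m) ≤ m * m := by
      have := mul_le_mul_of_nonneg_right hc.le hm0.le
      nlinarith
    nlinarith
  -- the coordinate is large
  have ha : (m : ℝ) ≤ κ * (a : ℝ) := by
    by_contra hc
    push Not at hc
    have h1 : (a : ℝ) * N ≤ m * m := by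
      rcases le_total (a : ℝ) 0 with h2 | h2
      · have : (a : ℝ) * N ≤ 0 := mul_nonpos_of_nonpos_of_nonneg h2 hNn
        nlinarith
      · have h3 : (a : ℝ) * N ≤ (a : ℝ) * (κ * m) := mul_le_mul_of_nonneg_left hN h2
        have h4 : κ * (a : ℝ) * m ≤ m * m := mul_le_mul_of_nonneg_right hc.le hm0.le
        nlinarith
    have h2 : (a : ℝ) ≤ (m : ℝ) / 8 := by
      rcases le_total (a : ℝ) 0 with h3 | h3
      · have : 0 ≤ (m : ℝ) / 8 := by positivity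
        linarith
      · have h4 : 8 * (a : ℝ) ≤ κ * (a : ℝ) := mul_le_mul_of_nonneg_right hκ h3
        linarith
    have h3 : 7 * (m : ℝ) / 8 ≤ (j : ℝ) := by linarith
    have h4 : (7 * (m : ℝ) / 8) * (2 * m) ≤ (j : ℝ) * S :=
      mul_le_mul h3 hS2 (by positivity) hj0
    nlinarith
  have ha0 : (0:ℝ) < (a : ℝ) := by
    by_contra hc
    push Not at hc
    have : κ * (a : ℝ) ≤ 0 := mul_nonpos_of_nonneg_of_nonpos hκ0.le hc
    linarith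
  have ha1 : 0 < a := by exact_mod_cast ha0
  obtain ⟨n, rfl⟩ : ∃ n : ℕ, a = ((n + 1 : ℕ) : ℤ) := ⟨(a - 1).toNat, by push_cast; omega⟩
  have hn1 : ((n + 1 : ℕ) : ℤ) ≤ (m : ℤ) := by omega
  have hn2 : n + 1 ≤ m := by exact_mod_cast hn1
  have hj2 : j ≤ 2 * m := by omega
  have hnr : ((n + 1 : ℕ) : ℝ) ≤ m := by exact_mod_cast hn2
  have hj2r : (j : ℝ) ≤ 2 * m := by exact_mod_cast hj2
  refine ⟨n, rfl, hn2, hj2, ?_⟩
  refine ⟨hκ, hm1, ?_, hj, hj0, by linarith, by linarith, hN, hS, hN8, hS2, by linarith, by linarith⟩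
  simpa using ha

/-- The kernel values at a bulk point. -/
theorem bulk_vals {n j : ℕ} (hn : n + 1 ≤ m) (hj : j ≤ 2 * m) :
    let τ := Hn N S (n + 1) j
    let A : ℝ := ((n + 1 : ℕ) : ℝ)
    Hz N S ((n + 1 : ℕ) : ℤ) j = τ ∧
    Hz N S (((n + 1 : ℕ) : ℤ) + 1) j = τ * (1 - eA A j S N) ∧
    Hz N S ((n + 1 : ℕ) : ℤ) (j + 1) = τ * (1 + e2 A j S N) ∧
    Hz N S ((n + 1 : ℕ) : ℤ) (j + 1) = τ * (1 + e3 A j S N) * (1 - e5 A j S N) ∧
    Hz N S (((n + 1 : ℕ) : ℤ) - 1) (j + 1) = τ * (1 + e3 A j S N) ∧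
    Hz N S (((n + 1 : ℕ) : ℤ) + 1) (j + 1) = τ * (1 + e2 A j S N) * (1 - e4 A j S N) ∧
    Gz N S ((n + 1 : ℕ) : ℤ) j = τ * W0 A j S N ∧
    Gz N S (((n + 1 : ℕ) : ℤ) + 1) j = τ * (1 - eA A j S N) * W1 A j S N := by
  intro τ A
  have hmn := h.m256n
  have h2 := h.h2
  have h8 := h.h8
  have hnS : n + 1 < S := by omega
  have hjN : j + 1 < N := by omega
  have r1 := ratio1 (N := N) (S := S) (n := n + 1) (j := j) hnS (by omega)
  have r2 := ratio2 (N := N) (S := S) (n := n + 1) (j := j) hnS.le hjN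
  have r3 := ratio3 (N := N) (S := S) (b := n) (j := j) hnS.le hjN
  have r4 := ratio4 (N := N) (S := S) (n := n + 1) (j := j) hnS hjN
  have r5 := ratio5 (N := N) (S := S) (b := n) (j := j) (by omega) hjN
  have g0 := ratioG0 (N := N) (S := S) (n := n + 1) (j := j) hnS.le (by omega)
  have g1 := ratioG1 (N := N) (S := S) (n := n + 1) (j := j) hnS (by omega)
  have z1 : ((n + 1 : ℕ) : ℤ) + 1 = ((n + 1 + 1 : ℕ) : ℤ) := by push_cast; ring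
  have z2 : ((n + 1 : ℕ) : ℤ) - 1 = ((n : ℕ) : ℤ) := by push_cast; ring
  rw [z1, z2]
  rw [Hz_nat hnS.le, Hz_nat (show n + 1 + 1 ≤ S by omega), Hz_nat hnS.le,
    Hz_nat (show n ≤ S by omega), Hz_nat (show n + 1 + 1 ≤ S by omega)]
  refine ⟨rfl, r1, r2, ?_, r3, ?_, g0, ?_⟩
  · rw [r5, r3]
  · rw [r4, r2]
  · rw [z1] at g1
    rw [g1, r1]

end Par

section

variable {κ μ ς : ℝ} {m N S : ℕ}

/-- The increments at a bulk point are the kernel value times the relative increments. -/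
theorem Inc_bulk (h : Par κ μ m N S) {n j : ℕ} (hn : n + 1 ≤ m) (hj : j ≤ 2 * m) (γ c : ℝ) :
    let τ := Hn N S (n + 1) j
    let A : ℝ := ((n + 1 : ℕ) : ℝ)
    Inc N S γ c (((n + 1 : ℕ) : ℤ), j, false) false = τ * i00 γ A j S N ∧
    Inc N S γ c (((n + 1 : ℕ) : ℤ), j, false) true = τ * i01 γ c A j S N ∧
    Inc N S γ c (((n + 1 : ℕ) : ℤ), j, true) true = τ * i11 γ c A j S N ∧
    Inc N S γ c (((n + 1 : ℕ) : ℤ), j, true) false = τ * i10 γ c A j S N := by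
  intro τ A
  obtain ⟨v1, v2, v3, v3', v4, v5, v6, v7⟩ := h.bulk_vals (n := n) (j := j) hn hj
  refine ⟨?_, ?_, ?_, ?_⟩
  · rw [Inc_ff, v1, v4]; unfold i00; ring
  · rw [Inc_ft, v1, v2, v3, v5]; unfold i01; ring
  · rw [Inc_tt, v1, v2, v3', v4, v6, v7]; unfold i11; ring
  · rw [Inc_tf, v1, v2, v4]; unfold i10; ring

/-- The kernel decays from the ridge at the bulk levels. -/
theorem tau_bound (h : Par κ μ m N S) {n j : ℕ} (hn : n + 1 ≤ m) (hj : j ≤ 2 * m)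
    (hj2 : (m : ℝ) ≤ κ * ((j : ℝ) + 1)) :
    Hn N S (n + 1) j * Par.Xi κ m (((n + 1 : ℕ) : ℝ) * N - (j : ℝ) * S) ^ 3 ≤ 16 * κ ^ 2 / μ := by
  have hmn := h.m256n
  have ht := Hn_tail (κ := κ) (m := m) (N := N) (S := S) (a := n + 1) (j := j) h.hκ (by omega) h.h8
    h.h2 h.hN h.hS (by omega) (by omega) (Ω := 2 * κ ^ 2 / μ)
    (fun a' ha' => Hn_sup h.hκ h.hm h.h8 h.h2 h.hN (by omega) hj2 h.hμ0 h.hμ a' ha')
  have e : 8 * (2 * κ ^ 2 / μ) = 16 * κ ^ 2 / μ := by ring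
  rw [e] at ht
  exact ht

/-- Bounds of the scale `E` in terms of `Ξ`. -/
theorem E_Xi {κ' m' : ℝ} {X : ℝ} (hκ : 8 ≤ κ') (hm : 1 ≤ m') :
    ((|X| + m') / m' ^ 2) ^ 2 ≤ 192 * κ' ^ 3 * Par.Xi κ' m' X / m' ∧
    ((|X| + m') / m' ^ 2) ^ 2 + 1 / m' ≤ 200 * κ' ^ 3 * Par.Xi κ' m' X / m' := by
  have hm0 : 0 < m' := by linarith
  have hκ0 : 0 < κ' := by linarith
  have hκ3 : 1 ≤ κ' ^ 3 := one_le_pow₀ (by linarith)
  have hX0 : 0 ≤ X ^ 2 / (96 * κ' ^ 3 * m' ^ 3) := by positivity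
  have e0 : 192 * κ' ^ 3 * Par.Xi κ' m' X / m' = 192 * κ' ^ 3 / m' + 2 * X ^ 2 / m' ^ 4 := by
    unfold Par.Xi
    field_simp
    ring
  have h1 : ((|X| + m') / m' ^ 2) ^ 2 ≤ 2 * X ^ 2 / m' ^ 4 + 2 / m' ^ 2 := by
    have e : 2 * X ^ 2 / m' ^ 4 + 2 / m' ^ 2 = (2 * X ^ 2 + 2 * m' ^ 2) / (m' ^ 2) ^ 2 := by
      field_simp
    rw [div_pow, e]
    apply div_le_div_of_nonneg_right _ (by positivity)
    have : |X| ^ 2 = X ^ 2 := sq_abs X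
    nlinarith [sq_nonneg (|X| - m')]
  have h2 : 2 / m' ^ 2 ≤ 192 * κ' ^ 3 / m' := by
    rw [div_le_div_iff₀ (by positivity) hm0]
    have h3 : 1 ≤ m' ^ 2 := one_le_pow₀ hm
    have h4 : 192 * κ' ^ 3 * m' ^ 2 ≥ 192 * 1 * m' ^ 2 :=
      mul_le_mul_of_nonneg_right (by linarith) (by positivity)
    nlinarith
  have h5 : ((|X| + m') / m' ^ 2) ^ 2 ≤ 192 * κ' ^ 3 * Par.Xi κ' m' X / m' := by
    rw [e0]; linarith
  refine ⟨h5, ?_⟩
  have h6 : 1 / m' ≤ 8 * κ' ^ 3 * Par.Xi κ' m' X / m' := by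
    apply div_le_div_of_nonneg_right _ hm0.le
    unfold Par.Xi
    have : 8 * κ' ^ 3 * (1 + X ^ 2 / (96 * κ' ^ 3 * m' ^ 3)) ≥ 8 * 1 * 1 := by
      apply mul_le_mul (by linarith) (by linarith) (by norm_num) (by positivity)
    linarith
  have e1 : 200 * κ' ^ 3 * Par.Xi κ' m' X / m' =
      192 * κ' ^ 3 * Par.Xi κ' m' X / m' + 8 * κ' ^ 3 * Par.Xi κ' m' X / m' := by ring
  rw [e1]
  linarith

theorem Xi_one_le {κ' m' X : ℝ} (hκ : 8 ≤ κ') (hm : 1 ≤ m') : 1 ≤ Par.Xi κ' m' X := by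
  unfold Par.Xi
  have hm0 : 0 < m' := by linarith
  have hκ0 : 0 < κ' := by linarith
  have : 0 ≤ X ^ 2 / (96 * κ' ^ 3 * m' ^ 3) := by positivity
  linarith

/-- The two budgets at the bulk points. -/
theorem budget_bulk (h : Par κ μ m N S) {Cc : ℝ} (hκc : κ ≤ Cc) (hCc : 1 ≤ Cc)
    (hς0 : 0 ≤ ς) (hς1 : ς < 1) (hc : |cor ς S N| ≤ Cc) {a : ℤ} {j : ℕ} {b d : Bool}
    (hs : Good m (a, j, b)) (hX : |(a : ℝ) * N - (j : ℝ) * S| < (m : ℝ) ^ 2 / 2) :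
    Inc N S (gam ς S N) (cor ς S N) (a, j, b) d ^ 2 ≤ A2 κ Cc / μ ^ 3 *
        (psi (xS μ N S (a, j, b)) - psi (xS μ N S (nxS (a, j, b) d))) ∧
    |mn bitS (Inc N S (gam ς S N) (cor ς S N)) ς (a, j, b)| ≤ A1 κ Cc / m *
        (psi (xS μ N S (a, j, b)) - psi (xS μ N S (nxS (a, j, b) d))) := by
  obtain ⟨n, rfl, hn, hj, hB⟩ := h.bulk_of_good hs hX
  have hκ0 := h.κ0
  have hm1 := h.m1
  have hμ0 := h.hμ0
  obtain ⟨g0, g1⟩ := gam_bounds (ς := ς) h.hκ h.m0 h.N0 h.S0 h.hN h.hS hς0 hς1.le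
  obtain ⟨i1, i2, i3, i4⟩ := Inc_bulk h (n := n) (j := j) hn hj (gam ς S N) (cor ς S N)
  set A : ℝ := ((n + 1 : ℕ) : ℝ) with hA
  set τ := Hn N S (n + 1) j with hτ
  have hτ0 : 0 ≤ τ := Hn_nonneg _ _ _ _
  have hcast : (((n + 1 : ℕ) : ℤ) : ℝ) = A := by rw [hA]; push_cast; ring
  rw [hcast] at hX
  have hgap := h.gap_bulk (a := ((n + 1 : ℕ) : ℤ)) (j := j) (b := b) (d := d)
  rw [hcast] at hgap
  set gap := psi (xS μ N S (((n + 1 : ℕ) : ℤ), j, b)) -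
    psi (xS μ N S (nxS (((n + 1 : ℕ) : ℤ), j, b) d)) with hgapdef
  have hτb := tau_bound h (n := n) (j := j) hn hj hB.hj
  set X : ℝ := A * N - (j : ℝ) * S with hXdef
  set Ξ := Par.Xi κ m X with hΞdef
  have hΞ1 : 1 ≤ Ξ := Xi_one_le h.hκ hm1
  have hEE : EE m A j S N = (|X| + m) / (m : ℝ) ^ 2 := rfl
  obtain ⟨hE1, hE2⟩ := E_Xi (X := X) h.hκ hm1
  rw [← hEE, ← hΞdef] at hE1 hE2
  have hEle : EE m A j S N ≤ 2 := by
    rw [hEE, div_le_iff₀ (by positivity)]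
    nlinarith
  have hC0 : 0 ≤ 130 * Cc * κ ^ 4 := by positivity
  have hE0 := hB.E0
  constructor
  · have hA2 : 192 * κ ^ 3 * (256 * κ ^ 4 * (130 * Cc * κ ^ 4) ^ 2 * (192 * κ ^ 3)) ≤ A2 κ Cc := by
      unfold A2
      have : 0 ≤ 15 * κ ^ 2 * (6 * Cc) ^ 2 * (Cf κ) ^ 2 := by positivity
      linarith
    cases b <;> cases d
    · exact bulk_sq hκ0 hμ0 h.hμ i1 (hB.i00_le g0 g1 hCc) hC0 hE0 hτ0 hτb hΞ1 hE1 hgap hA2
    · exact bulk_sq hκ0 hμ0 h.hμ i2 (hB.i01_le g0 g1 hc hCc hEle) hC0 hE0 hτ0 hτb hΞ1 hE1 hgap hA2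
    · exact bulk_sq hκ0 hμ0 h.hμ i4 (hB.i10_le g0 g1 hc hCc) hC0 hE0 hτ0 hτb hΞ1 hE1 hgap hA2
    · exact bulk_sq hκ0 hμ0 h.hμ i3 (hB.i11_le g0 g1 hc hCc hEle) hC0 hE0 hτ0 hτb hΞ1 hE1 hgap hA2
  · have hA1 : 192 * κ ^ 3 * (3200 * κ ^ 5 * (60 * Cc * κ ^ 4)) ≤ A1 κ Cc := by
      unfold A1
      have hCf : 0 ≤ Cf κ := h.Cf0
      have : 0 ≤ 15 * κ ^ 2 * (6 * Cc) * (Cf κ) := by positivity
      linarith
    have hD0 : 0 ≤ 60 * Cc * κ ^ 4 := by positivity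
    cases b
    · have e : mn bitS (Inc N S (gam ς S N) (cor ς S N)) ς (((n + 1 : ℕ) : ℤ), j, false) =
          τ * (ς * i00 (gam ς S N) A j S N + (1 - ς) * i01 (gam ς S N) (cor ς S N) A j S N) := by
        unfold mn bitS
        simp only [Bool.not_false]
        rw [i1, i2]; ring
      exact bulk_drift hκ0 hμ0 h.hμ e (hB.mean0_le hς0 hς1 (by linarith) hc) hD0 hτ0 hτb hΞ1 hE2
        hgap hA1
    · have e : mn bitS (Inc N S (gam ς S N) (cor ς S N)) ς (((n + 1 : ℕ) : ℤ), j, true) =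
          τ * (ς * i11 (gam ς S N) (cor ς S N) A j S N + (1 - ς) * i10 (gam ς S N) (cor ς S N) A j S N) := by
        unfold mn bitS
        simp only [Bool.not_true]
        rw [i3, i4]; ring
      exact bulk_drift hκ0 hμ0 h.hμ e (hB.mean1_le hς0 hς1 (by linarith) hCc hc) hD0 hτ0 hτb hΞ1 hE2
        hgap hA1

end

end Vale.Agent.Lib.P321
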