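import Vale.Agent.Lib.P321.Budget4

/-!
# P321: the second moment of the chain sum under i.i.d. stays
-/

namespace Vale.Agent.Lib.P321

/-- The final state of the chain. -/
def endS : St → List Bool → St
  | s, [] => s
  | s, d :: T => endS (nxS s d) T

theorem Ysum_chain (N S : ℕ) (γ c : ℝ) (s : St) (T : List Bool) :
    Ysum nxS (Inc N S γ c) s T =
      chainSum N S s.1 s.2.1 s.2.2 T + Phi N S γ c s - Phi N S γ c (endS s T) := by
  induction T generalizing s with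
  | nil => simp [Ysum, chainSum, endS]
  | cons d T ih =>
    obtain ⟨a, j, b⟩ := s
    simp only [Ysum, chainSum, endS, ih]
    unfold Inc nxS
    simp only
    ring

theorem endS_good {m : ℕ} {s : St} (hs : Good m s) (T : List Bool) : Good m (endS s T) := by
  induction T generalizing s with
  | nil => exact hs
  | cons d T ih => exact ih (Good_nxS hs d)

theorem endS_level (s : St) (T : List Bool) : (endS s T).2.1 = s.2.1 + T.length := by
  induction T generalizing s with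
  | nil => simp [endS]
  | cons d T ih =>
    simp only [endS, ih, List.length_cons]
    simp only [nxS]
    ring

/-- The corrector vanishes far below the ridge. -/
theorem Phi_zero {N S : ℕ} {γ c : ℝ} {s : St} (h : s.1 + 1 < 0) : Phi N S γ c s = 0 := by
  unfold Phi
  rw [Hz_neg (by omega), Hz_neg h]
  simp

section

variable {κ μ ς cς : ℝ} {m N S : ℕ}

/-- The two budgets at every state. -/
theorem budget (h : Par κ μ m N S) (hς0 : 0 ≤ ς) (hc0 : 0 < cς) (hς1 : ς ≤ 1 - cς) (hc1 : cς ≤ 1)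
    {s : St} (hs : Good m s) (d : Bool) :
    Inc N S (gam ς S N) (cor ς S N) s d ^ 2 ≤ A2 κ (κ ^ 2 / cς) / μ ^ 3 *
        (psi (xS μ N S s) - psi (xS μ N S (nxS s d))) ∧
    |mn bitS (Inc N S (gam ς S N) (cor ς S N)) ς s| ≤ A1 κ (κ ^ 2 / cς) / m *
        (psi (xS μ N S s) - psi (xS μ N S (nxS s d))) := by
  obtain ⟨a, j, b⟩ := s
  have hκ := h.hκ
  have hκ0 := h.κ0
  have hm0 := h.m0
  have hμ0 := h.hμ0
  have hκ2 : κ ≤ κ ^ 2 := by nlinarith
  set Cc := κ ^ 2 / cς with hCcdef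
  have hκCc : κ ^ 2 ≤ Cc := by
    rw [hCcdef, le_div_iff₀ hc0]
    have : 0 ≤ κ ^ 2 := by positivity
    nlinarith
  have hκc : κ ≤ Cc := by linarith
  have hCc : 1 ≤ Cc := by linarith
  have hς2 : ς < 1 := by linarith
  have hc := cor_bound (ς := ς) hκ hm0 h.N0 h.S0 h.hN h.hS hς0 hc0 hς1 hc1
  obtain ⟨g0, g1⟩ := gam_bounds (ς := ς) hκ hm0 h.N0 h.S0 h.hN h.hS hς0 hς2.le
  have hgap := h.gap_nonneg (a, j, b) d
  by_cases ha : a + 1 < 0
  · -- everything vanishes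
    have z1 := Hz_neg (N := N) (S := S) (a := a) (by omega)
    have z2 := Hz_neg (N := N) (S := S) (a := a + 1) ha
    have z3 := Hz_neg (N := N) (S := S) (a := a - 1) (by omega)
    have z4 := Gz_neg (N := N) (S := S) (a := a) (by omega)
    have z5 := Gz_neg (N := N) (S := S) (a := a + 1) ha
    have hzero : ∀ b' d', Inc N S (gam ς S N) (cor ς S N) (a, j, b') d' = 0 := by
      intro b' d'
      cases b' <;> cases d'
      · rw [Inc_ff, z1, z3]; simp
      · rw [Inc_ft, z1, z2, z1, z2]; simp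
      · rw [Inc_tf, z1, z2, z3]; simp
      · rw [Inc_tt, z1, z2, z3, z4, z5, z1]; simp
    have hA20 : 0 ≤ A2 κ Cc := by
      unfold A2; positivity
    have hA10 : 0 ≤ A1 κ Cc := by
      have := h.Cf0
      unfold A1; positivity
    constructor
    · rw [hzero]
      simp only [ne_eq, OfNat.ofNat_ne_zero, not_false_eq_true, zero_pow]
      positivity
    · unfold mn
      rw [hzero, hzero]
      simp only [mul_zero, add_zero, abs_zero]
      positivity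
  · obtain ⟨g2, g3⟩ := hs
    simp only at g2 g3
    have ha1 : -1 ≤ a := by omega
    have g4 : (j : ℤ) ≤ 2 * ((m : ℤ) - a) := by split_ifs at g3 <;> omega
    have ha2 : a ≤ m := by omega
    have hj : j ≤ 2 * m + 2 := by omega
    by_cases hX : (m : ℝ) ^ 2 / 2 ≤ |(a : ℝ) * N - (j : ℝ) * S|
    · exact h.budget_far g0 g1 hc hκc hCc hς0 (by linarith) ha1 ha2 hj hX
    · push Not at hX
      exact budget_bulk h hκc hCc hς0 hς2 hc ⟨g2, g3⟩ hX

/-- The final constant. -/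
noncomputable def Kfin (κ Cc : ℝ) : ℝ :=
  8 * A2 κ Cc + 16 * A1 κ Cc ^ 2 + 8 * Cc ^ 2 * Cf κ ^ 2

/-- The second moment bound for the chain sum under i.i.d. stays. -/
theorem chain_second (h : Par κ μ m N S) (hς0 : 0 ≤ ς) (hc0 : 0 < cς) (hς1 : ς ≤ 1 - cς)
    (hc1 : cς ≤ 1) :
    Ec ς (2 * m + 4) true (fun T => chainSum N S (m : ℤ) 0 true T ^ 2) ≤
      Kfin κ (κ ^ 2 / cς) / μ ^ 3 := by
  have hκ := h.hκ
  have hκ0 := h.κ0
  have hm0 := h.m0
  have hμ0 := h.hμ0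
  have hμ1 := h.μ1
  have hm1 := h.m1
  set Cc := κ ^ 2 / cς with hCcdef
  have hκCc : κ ^ 2 ≤ Cc := by
    rw [hCcdef, le_div_iff₀ hc0]
    have : 0 ≤ κ ^ 2 := by positivity
    nlinarith
  have hκ2 : κ ≤ κ ^ 2 := by nlinarith
  have hκc : κ ≤ Cc := by linarith
  have hCc : 1 ≤ Cc := by linarith
  have hς2 : ς < 1 := by linarith
  have hc := cor_bound (ς := ς) hκ hm0 h.N0 h.S0 h.hN h.hS hς0 hc0 hς1 hc1
  obtain ⟨g0, g1⟩ := gam_bounds (ς := ς) hκ hm0 h.N0 h.S0 h.hN h.hS hς0 hς2.le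
  set γ := gam ς S N with hγ
  set c := cor ς S N with hcdef
  have hA20 : 0 ≤ A2 κ Cc := by
    unfold A2; positivity
  have hCf := h.Cf0
  have hA10 : 0 ≤ A1 κ Cc := by
    unfold A1; positivity
  set P : St → ℝ := fun s => A2 κ Cc / μ ^ 3 * (1 + psi (xS μ N S s)) with hP
  set Q : St → ℝ := fun s => A1 κ Cc / m * (1 + psi (xS μ N S s)) with hQ
  have hpsi : ∀ s, 0 ≤ 1 + psi (xS μ N S s) := by
    intro s
    have := abs_le.1 (psi_abs_le (xS μ N S s))
    linarith [this.1]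
  have hpsi2 : ∀ s, 1 + psi (xS μ N S s) ≤ 2 := by
    intro s
    have := abs_le.1 (psi_abs_le (xS μ N S s))
    linarith [this.2]
  have hP0 : ∀ s, Good m s → 0 ≤ P s := fun s _ => mul_nonneg (by positivity) (hpsi s)
  have hQ0 : ∀ s, Good m s → 0 ≤ Q s := fun s _ => mul_nonneg (by positivity) (hpsi s)
  have hPs : ∀ s d, Good m s → Inc N S γ c s d ^ 2 ≤ P s - P (nxS s d) := by
    intro s d hs
    have := (budget h hς0 hc0 hς1 hc1 hs d).1
    simp only [hP]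
    calc _ ≤ _ := this
      _ = _ := by ring
  have hQs : ∀ s d, Good m s → |mn bitS (Inc N S γ c) ς s| ≤ Q s - Q (nxS s d) := by
    intro s d hs
    have := (budget h hς0 hc0 hς1 hc1 hs d).2
    simp only [hQ]
    calc _ ≤ _ := this
      _ = _ := by ring
  set s₀ : St := ((m : ℤ), 0, true) with hs₀
  have hY := Ysum_second (I := Inc N S γ c) (bit := bitS) (nx := nxS) hς0 (by linarith) (Good m) P Q
    bitS_nxS (fun s d hs => Good_nxS hs d) hPs hP0 hQs hQ0 (2 * m + 4) s₀ (Good_start m)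
  have hbit : bitS s₀ = true := rfl
  rw [hbit] at hY
  -- the corrector at the start
  have hPhi : |Phi N S γ c s₀| ≤ 2 * Cc * (Cf κ / (m : ℝ) ^ 3) := by
    have hX : (m : ℝ) ^ 2 / 2 ≤ |(((m : ℕ) : ℤ) : ℝ) * N - ((0 : ℕ) : ℝ) * S| := by
      have e : (((m : ℕ) : ℤ) : ℝ) * N - ((0 : ℕ) : ℝ) * S = (m : ℝ) * N := by push_cast; ring
      rw [e, abs_of_nonneg (by positivity)]
      have := mul_le_mul_of_nonneg_left h.N0 hm0.le
      nlinarith
    obtain ⟨v1, v2, _⟩ := h.far_vals (a := (m : ℤ)) (j := 0) le_rfl (by omega) hX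
    set h₀ := Cf κ / (m : ℝ) ^ 3 with hh₀
    have hh0 : 0 ≤ h₀ := by positivity
    have p1 := Hz_nonneg N S (m : ℤ) 0
    have p2 := Hz_nonneg N S ((m : ℤ) + 1) 0
    have d1 := abs_sub_le_of_mem p1 v1 p2 v2
    unfold Phi
    simp only [hs₀, if_true]
    have a1 := abs_add_le (γ * Hz N S (m : ℤ) 0) (c * (Hz N S (m : ℤ) 0 - Hz N S ((m : ℤ) + 1) 0))
    rw [abs_mul, abs_mul, abs_of_nonneg g0, abs_of_nonneg p1] at a1
    have a2 : γ * Hz N S (m : ℤ) 0 ≤ Cc * h₀ :=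
      mul_le_mul (by linarith) v1 p1 (by linarith)
    have a3 : |c| * |Hz N S (m : ℤ) 0 - Hz N S ((m : ℤ) + 1) 0| ≤ Cc * h₀ :=
      mul_le_mul hc d1 (abs_nonneg _) (by linarith)
    linarith
  -- the comparison
  have hT : ∀ T : List Bool, T.length = 2 * m + 4 →
      chainSum N S (m : ℤ) 0 true T ^ 2 ≤
        2 * Ysum nxS (Inc N S γ c) s₀ T ^ 2 + 2 * Phi N S γ c s₀ ^ 2 := by
    intro T hT
    have e := Ysum_chain N S γ c s₀ T
    have hend : Phi N S γ c (endS s₀ T) = 0 := by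
      apply Phi_zero
      have g := endS_good (Good_start m) T
      have l := endS_level s₀ T
      rw [hT] at l
      simp only [hs₀] at l
      obtain ⟨g2, g3⟩ := g
      rw [l] at g3
      have g4 : (((0 + (2 * m + 4) : ℕ) : ℤ)) ≤ 2 * ((m : ℤ) - (endS ((m : ℤ), 0, true) T).1) := by
        split_ifs at g3 <;> omega
      push_cast at g4
      have : (endS ((m : ℤ), 0, true) T).1 + 1 < 0 := by omega
      simpa [hs₀] using this
    rw [hend] at e
    simp only [hs₀] at e ⊢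
    have e2 : chainSum N S (m : ℤ) 0 true T = Ysum nxS (Inc N S γ c) ((m : ℤ), 0, true) T -
        Phi N S γ c ((m : ℤ), 0, true) := by
      rw [e]; ring
    rw [e2]
    nlinarith [sq_nonneg (Ysum nxS (Inc N S γ c) ((m : ℤ), 0, true) T +
      Phi N S γ c ((m : ℤ), 0, true))]
  -- convert to a statement on all strings of the right length
  have hmono : Ec ς (2 * m + 4) true (fun T => chainSum N S (m : ℤ) 0 true T ^ 2) ≤
      Ec ς (2 * m + 4) true (fun T => 2 * Ysum nxS (Inc N S γ c) s₀ T ^ 2 + 2 * Phi N S γ c s₀ ^ 2) := by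
    rw [Ec_eq_sum, Ec_eq_sum]
    apply SumL_mono
    intro T hT'
    have hw : 0 ≤ wt ς true T := by
      rw [wt_eq]
      have : 0 ≤ 1 - ς := by linarith
      positivity
    exact mul_le_mul_of_nonneg_left (hT T hT') hw
  refine hmono.trans ?_
  rw [Ec_add, Ec_mul, Ec_const]
  -- numerics
  have hP₀ : P s₀ ≤ 2 * A2 κ Cc / μ ^ 3 := by
    simp only [hP]
    have := mul_le_mul_of_nonneg_left (hpsi2 s₀) (by positivity : 0 ≤ A2 κ Cc / μ ^ 3)
    calc _ ≤ _ := this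
      _ = _ := by ring
  have hQ₀ : Q s₀ ≤ 2 * A1 κ Cc / m := by
    simp only [hQ]
    have := mul_le_mul_of_nonneg_left (hpsi2 s₀) (by positivity : 0 ≤ A1 κ Cc / (m : ℝ))
    calc _ ≤ _ := this
      _ = _ := by ring
  have hQ₀' : Q s₀ ^ 2 ≤ (2 * A1 κ Cc / m) ^ 2 :=
    pow_le_pow_left₀ (hQ0 s₀ (Good_start m)) hQ₀ 2
  have hμ3 : 0 < μ ^ 3 := by positivity
  have hm2 : μ ^ 3 ≤ (m : ℝ) ^ 2 := by
    rw [← h.hμ]
    have : μ ^ 3 * 1 ≤ μ ^ 3 * μ := mul_le_mul_of_nonneg_left hμ1 hμ3.le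
    nlinarith
  have t1 : (2 * A1 κ Cc / m) ^ 2 ≤ 4 * A1 κ Cc ^ 2 / μ ^ 3 := by
    have e : (2 * A1 κ Cc / m) ^ 2 = 4 * A1 κ Cc ^ 2 / (m : ℝ) ^ 2 := by ring
    rw [e]
    exact div_le_div_of_nonneg_left (by positivity) hμ3 hm2
  have hPhi2 : Phi N S γ c s₀ ^ 2 ≤ 4 * Cc ^ 2 * Cf κ ^ 2 / μ ^ 3 := by
    have t2 : Phi N S γ c s₀ ^ 2 ≤ (2 * Cc * (Cf κ / (m : ℝ) ^ 3)) ^ 2 := by
      rw [← sq_abs]; exact pow_le_pow_left₀ (abs_nonneg _) hPhi 2
    refine t2.trans ?_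
    have e : (2 * Cc * (Cf κ / (m : ℝ) ^ 3)) ^ 2 = 4 * Cc ^ 2 * Cf κ ^ 2 / (m : ℝ) ^ 6 := by
      field_simp
      ring
    rw [e]
    apply div_le_div_of_nonneg_left (by positivity) hμ3
    have h6 : (m : ℝ) ^ 2 ≤ (m : ℝ) ^ 6 := pow_le_pow_right₀ hm1 (by norm_num)
    linarith
  have e : Kfin κ Cc / μ ^ 3 = 8 * (A2 κ Cc / μ ^ 3) + 16 * (A1 κ Cc ^ 2 / μ ^ 3) +
      8 * (Cc ^ 2 * Cf κ ^ 2 / μ ^ 3) := by
    unfold Kfin; ring
  rw [e]
  have e1 : 2 * A2 κ Cc / μ ^ 3 = 2 * (A2 κ Cc / μ ^ 3) := by ring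
  have e2 : 4 * A1 κ Cc ^ 2 / μ ^ 3 = 4 * (A1 κ Cc ^ 2 / μ ^ 3) := by ring
  have e3 : 4 * Cc ^ 2 * Cf κ ^ 2 / μ ^ 3 = 4 * (Cc ^ 2 * Cf κ ^ 2 / μ ^ 3) := by ring
  rw [e1] at hP₀
  rw [e2] at t1
  rw [e3] at hPhi2
  have hfin := hY
  linarith

end

end Vale.Agent.Lib.P321
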