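import Mathlib

/-!
# P321: rational expansions of the kernel ratios at the bulk points (pure real algebra)
-/

namespace Vale.Agent.Lib.P321

/-- Standing assumptions at a bulk point. -/
structure Bulk (κ m a j S N : ℝ) : Prop where
  hκ : 8 ≤ κ
  hm : 1 ≤ m
  ha : m ≤ κ * a
  hj : m ≤ κ * (j + 1)
  hj0 : 0 ≤ j
  hSa : m ≤ S - a
  hP : 4 * m ≤ N - 1 - j
  hN : N ≤ κ * m
  hS : S ≤ κ * m
  hN8 : 8 * m ≤ N
  hS2 : 2 * m ≤ S
  haup : a ≤ m + 1
  hjup : j ≤ 3 * m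

/-- `S - a + N - 1 - j`. -/
noncomputable def vv (a j S N : ℝ) : ℝ := S - a + N - 1 - j

/-- `a N - j S`. -/
noncomputable def XX (a j S N : ℝ) : ℝ := a * N - j * S

/-- `a (N-1) - j S + (N-1-j)`. -/
noncomputable def Xr (a j S N : ℝ) : ℝ := a * (N - 1) - j * S + (N - 1 - j)

noncomputable def eA (a j S N : ℝ) : ℝ := Xr a j S N / ((a + 1) * vv a j S N)

noncomputable def e2 (a j S N : ℝ) : ℝ := (Xr a j S N - vv a j S N) / ((j + 1) * vv a j S N)

noncomputable def e3 (a j S N : ℝ) : ℝ := (a * N - (j + 1) * (S + 1)) / ((j + 1) * (S - a + 1))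

noncomputable def e4 (a j S N : ℝ) : ℝ := (Xr a j S N - S - 1) / ((a + 1) * (vv a j S N - 1))

noncomputable def e5 (a j S N : ℝ) : ℝ := (Xr a j S N - N - S) / (a * vv a j S N)

noncomputable def W0 (a j S N : ℝ) : ℝ := (S - a + N - j) / (S - a + 1)

noncomputable def W1 (a j S N : ℝ) : ℝ := (S - a + N - j - 1) / (S - a)

/-- The scale `(|X| + m) / m^2`. -/
noncomputable def EE (m a j S N : ℝ) : ℝ := (|XX a j S N| + m) / m ^ 2

section

variable {κ m a j S N : ℝ}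

theorem abs_frac_le {x d A D : ℝ} (hx : |x| ≤ A) (hD : 0 < D) (hd : D ≤ d) : |x / d| ≤ A / D := by
  have hd0 : 0 < d := lt_of_lt_of_le hD hd
  rw [abs_div, abs_of_pos hd0]
  exact div_le_div₀ ((abs_nonneg x).trans hx) hx hD hd

theorem abs_frac2_le {x y d A B D : ℝ} (hx : |x| ≤ A) (hy : |y| ≤ B) (hD : 0 < D) (hd : D ≤ d) :
    |x * y / d| ≤ A * B / D := by
  apply abs_frac_le _ hD hd
  rw [abs_mul]
  exact mul_le_mul hx hy (abs_nonneg y) ((abs_nonneg x).trans hx)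

namespace Bulk

variable (h : Bulk κ m a j S N)
include h

theorem κ0 : 0 < κ := by linarith [h.hκ]
theorem m0 : 0 < m := by linarith [h.hm]
theorem a0 : 0 < a := by
  by_contra hc
  push Not at hc
  have : κ * a ≤ 0 := mul_nonpos_of_nonneg_of_nonpos h.κ0.le hc
  linarith [h.ha, h.hm]
theorem a1 : m / κ ≤ a := by
  rw [div_le_iff₀ h.κ0]; linarith [h.ha]
theorem j1 : m / κ ≤ j + 1 := by
  rw [div_le_iff₀ h.κ0]; linarith [h.hj]
theorem j0' : 0 < j + 1 := by linarith [h.hj0]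
theorem v1 : 5 * m ≤ vv a j S N - 1 + 1 + m - m := by
  unfold vv; linarith [h.hSa, h.hP]
theorem v2 : m ≤ vv a j S N - 1 := by
  unfold vv; linarith [h.hSa, h.hP, h.hm]
theorem v3 : m ≤ vv a j S N := by
  linarith [h.v2]
theorem Q1 : m ≤ S - a + 1 := by linarith [h.hSa]
theorem mκ : 0 < m / κ := div_pos h.m0 h.κ0
theorem E0 : 0 ≤ EE m a j S N := by
  unfold EE
  have := h.m0
  positivity

/-- `B = |X| + m`. -/
theorem B0 : m ≤ |XX a j S N| + m := by linarith [abs_nonneg (XX a j S N)]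

theorem den1 : m ^ 2 / κ ≤ (a + 1) * vv a j S N := by
  have e : m ^ 2 / κ = m / κ * m := by ring
  rw [e]
  apply mul_le_mul (by linarith [h.a1]) h.v3 h.m0.le (by linarith [h.a0])

theorem den2 : m ^ 2 / κ ≤ (j + 1) * vv a j S N := by
  have e : m ^ 2 / κ = m / κ * m := by ring
  rw [e]
  apply mul_le_mul h.j1 h.v3 h.m0.le h.j0'.le

theorem den3 : m ^ 2 / κ ≤ (j + 1) * (S - a + 1) := by
  have e : m ^ 2 / κ = m / κ * m := by ring
  rw [e]
  apply mul_le_mul h.j1 h.Q1 h.m0.le h.j0'.le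

theorem den4 : m ^ 2 / κ ≤ (a + 1) * (vv a j S N - 1) := by
  have e : m ^ 2 / κ = m / κ * m := by ring
  rw [e]
  apply mul_le_mul (by linarith [h.a1]) h.v2 h.m0.le (by linarith [h.a0])

theorem den5 : m ^ 2 / κ ≤ a * vv a j S N := by
  have e : m ^ 2 / κ = m / κ * m := by ring
  rw [e]
  apply mul_le_mul h.a1 h.v3 h.m0.le h.a0.le

theorem den0 : 0 < m ^ 2 / κ := by
  have := h.m0; have := h.κ0; positivity

/-- The bound on `|X0 - X|` and hence on `|X0|`. -/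
theorem Xr_le : |Xr a j S N| ≤ 2 * κ * (|XX a j S N| + m) := by
  have e : Xr a j S N = XX a j S N + (N - 1 - j - a) := by unfold Xr XX; ring
  have h1 : |N - 1 - j - a| ≤ κ * m := by
    rw [abs_le]
    constructor <;> nlinarith [h.hN, h.hP, h.haup, h.hjup, h.hm, h.hκ, h.a0, h.hj0]
  have h2 : |Xr a j S N| ≤ |XX a j S N| + κ * m := by
    rw [e]; exact (abs_add_le _ _).trans (by linarith)
  have h3 := abs_nonneg (XX a j S N)
  have h4 := h.m0
  nlinarith [h.hκ, mul_nonneg h3 h.κ0.le, mul_pos h4 h.κ0]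

theorem B_mul {c : ℝ} (hc : 0 ≤ c) : c * κ * m ≤ c * κ * (|XX a j S N| + m) := by
  have h3 := abs_nonneg (XX a j S N)
  have := h.κ0
  exact mul_le_mul_of_nonneg_left (by linarith) (by positivity)

/-- A general reduction: `A B / (m^2/κ)` in terms of `EE`. -/
theorem frac_E {c : ℝ} : c * κ * (|XX a j S N| + m) / (m ^ 2 / κ) = c * κ ^ 2 * EE m a j S N := by
  unfold EE
  have := h.m0.ne'; have := h.κ0.ne'
  field_simp

theorem eA_le : |eA a j S N| ≤ 2 * κ ^ 2 * EE m a j S N := by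
  unfold eA
  have := abs_frac_le h.Xr_le h.den0 h.den1
  rwa [h.frac_E] at this

theorem Xv_le : |Xr a j S N - vv a j S N| ≤ 4 * κ * (|XX a j S N| + m) := by
  have h1 : vv a j S N ≤ 2 * κ * m := by
    unfold vv; nlinarith [h.hN, h.hS, h.a0, h.hj0, h.hm]
  have h2 := h.v3
  have h3 : |vv a j S N| ≤ 2 * κ * m := by
    rw [abs_of_nonneg (by linarith [h.m0])]; exact h1
  have h4 := h.B_mul (c := 2) (by norm_num)
  have h5 := abs_sub (Xr a j S N) (vv a j S N)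
  have h6 := h.Xr_le
  nlinarith

theorem e2_le : |e2 a j S N| ≤ 4 * κ ^ 2 * EE m a j S N := by
  unfold e2
  have := abs_frac_le h.Xv_le h.den0 h.den2
  rwa [h.frac_E] at this

theorem X3_le : |a * N - (j + 1) * (S + 1)| ≤ 4 * κ * (|XX a j S N| + m) := by
  have e : a * N - (j + 1) * (S + 1) = XX a j S N - (j + S + 1) := by unfold XX; ring
  have h1 : |j + S + 1| ≤ 3 * κ * m := by
    rw [abs_of_nonneg (by linarith [h.hj0, h.hS2, h.m0])]
    nlinarith [h.hjup, h.hS, h.hm, h.hκ, h.m0]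
  have h4 := h.B_mul (c := 3) (by norm_num)
  have h5 := abs_sub (XX a j S N) (j + S + 1)
  rw [e]
  have h6 := abs_nonneg (XX a j S N)
  have h7 : |XX a j S N| ≤ κ * |XX a j S N| := by nlinarith [h.hκ]
  have h8 := h.m0
  have h9 : 0 ≤ κ * m := mul_nonneg h.κ0.le h8.le
  have e2 : 4 * κ * (|XX a j S N| + m) = 4 * (κ * |XX a j S N|) + 4 * (κ * m) := by ring
  have e3 : 3 * κ * (|XX a j S N| + m) = 3 * (κ * |XX a j S N|) + 3 * (κ * m) := by ring
  rw [e2]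
  rw [e3] at h4
  have h10 : 0 ≤ κ * |XX a j S N| := mul_nonneg h.κ0.le h6
  have h11 : 3 * κ * m = 3 * (κ * m) := by ring
  rw [h11] at h1 h4
  linarith

theorem e3_le : |e3 a j S N| ≤ 4 * κ ^ 2 * EE m a j S N := by
  unfold e3
  have := abs_frac_le h.X3_le h.den0 h.den3
  rwa [h.frac_E] at this

theorem X4_le : |Xr a j S N - S - 1| ≤ 4 * κ * (|XX a j S N| + m) := by
  have h1 : |S + 1| ≤ 2 * κ * m := by
    rw [abs_of_nonneg (by linarith [h.hS2, h.m0])]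
    nlinarith [h.hS, h.hm, h.hκ, h.m0]
  have h4 := h.B_mul (c := 2) (by norm_num)
  have h5 := abs_sub (Xr a j S N) (S + 1)
  have h6 := h.Xr_le
  have e : Xr a j S N - S - 1 = Xr a j S N - (S + 1) := by ring
  rw [e]
  nlinarith

theorem e4_le : |e4 a j S N| ≤ 4 * κ ^ 2 * EE m a j S N := by
  unfold e4
  have := abs_frac_le h.X4_le h.den0 h.den4
  rwa [h.frac_E] at this

theorem X5_le : |Xr a j S N - N - S| ≤ 4 * κ * (|XX a j S N| + m) := by
  have h1 : |N + S| ≤ 2 * κ * m := by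
    rw [abs_of_nonneg (by linarith [h.hS2, h.hN8, h.m0])]
    nlinarith [h.hS, h.hN]
  have h4 := h.B_mul (c := 2) (by norm_num)
  have h5 := abs_sub (Xr a j S N) (N + S)
  have h6 := h.Xr_le
  have e : Xr a j S N - N - S = Xr a j S N - (N + S) := by ring
  rw [e]
  nlinarith

theorem e5_le : |e5 a j S N| ≤ 4 * κ ^ 2 * EE m a j S N := by
  unfold e5
  have := abs_frac_le h.X5_le h.den0 h.den5
  rwa [h.frac_E] at this

theorem κ_pows : κ ≤ κ ^ 4 ∧ κ ^ 2 ≤ κ ^ 4 ∧ κ ^ 3 ≤ κ ^ 4 := by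
  have h1 : (1:ℝ) ≤ κ := by linarith [h.hκ]
  refine ⟨?_, ?_, ?_⟩
  · calc κ = κ ^ 1 := (pow_one κ).symm
      _ ≤ κ ^ 4 := pow_le_pow_right₀ h1 (by norm_num)
  · exact pow_le_pow_right₀ h1 (by norm_num)
  · exact pow_le_pow_right₀ h1 (by norm_num)

theorem inv_m0 : 0 < 1 / m := by have := h.m0; positivity

/-- `E/m` is controlled. -/
theorem E_div_m : EE m a j S N / m ≤ EE m a j S N ^ 2 + 1 / m := by
  have h1 := h.m0
  have h2 : 1 / m ^ 2 ≤ 1 / m := by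
    apply div_le_div_of_nonneg_left (by norm_num) h1
    nlinarith [h.hm]
  have h3 : EE m a j S N / m = EE m a j S N * (1 / m) := by ring
  have h4 : (1 / m) ^ 2 = 1 / m ^ 2 := by field_simp
  rw [h3]
  nlinarith [sq_nonneg (EE m a j S N - 1 / m), sq_nonneg (EE m a j S N)]

theorem inv_j_le : |1 / (j + 1)| ≤ κ / m := by
  rw [abs_of_pos (div_pos one_pos h.j0'), div_le_div_iff₀ h.j0' h.m0]
  linarith [h.hj]

theorem Y_le : |N * (a + 1) - S * (j + 1)| ≤ 2 * κ * (|XX a j S N| + m) := by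
  have e : N * (a + 1) - S * (j + 1) = XX a j S N + (N - S) := by unfold XX; ring
  have h1 : |N - S| ≤ κ * m := by
    rw [abs_le]
    constructor <;> linarith [h.hN, h.hS, h.hN8, h.hS2, h.m0]
  have h5 := abs_add_le (XX a j S N) (N - S)
  rw [e]
  have h6 := abs_nonneg (XX a j S N)
  have h7 : |XX a j S N| ≤ κ * |XX a j S N| := by nlinarith [h.hκ]
  have h8 := h.m0
  have h9 : 0 ≤ κ * m := mul_nonneg h.κ0.le h8.le
  have e2 : 2 * κ * (|XX a j S N| + m) = 2 * (κ * |XX a j S N|) + 2 * (κ * m) := by ring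
  rw [e2]
  have h10 : 0 ≤ κ * |XX a j S N| := mul_nonneg h.κ0.le h6
  linarith

theorem N0 : 0 < N := by linarith [h.hN8, h.m0]
theorem S0 : 0 < S := by linarith [h.hS2, h.m0]
theorem v0 : 0 < vv a j S N := by linarith [h.v3, h.m0]

/-- The first-order relation between `e2` and `eA`. -/
theorem eps2_eq : e2 a j S N - S / N * eA a j S N =
    Xr a j S N * (N * (a + 1) - S * (j + 1)) / (vv a j S N * N * (j + 1) * (a + 1))
      - 1 / (j + 1) := by
  have h1 := h.v0.ne'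
  have h2 := h.N0.ne'
  have h3 := h.j0'.ne'
  have h4 : a + 1 ≠ 0 := by linarith [h.a0]
  unfold e2 eA
  field_simp
  ring

theorem E_sq_eq {c : ℝ} (h0 : c ≠ 0) : (2 * κ * (|XX a j S N| + m)) * (2 * κ * (|XX a j S N| + m)) /
    (c * m ^ 4 / κ ^ 2) = (4 / c) * κ ^ 4 * EE m a j S N ^ 2 := by
  unfold EE
  have := h.m0.ne'; have := h.κ0.ne'
  field_simp
  ring

theorem eps2_le : |e2 a j S N - S / N * eA a j S N| ≤
    20 * κ ^ 4 * (EE m a j S N ^ 2 + 1 / m) := by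
  rw [h.eps2_eq]
  have hd : 8 * m ^ 4 / κ ^ 2 ≤ vv a j S N * N * (j + 1) * (a + 1) := by
    have e : 8 * m ^ 4 / κ ^ 2 = m * (8 * m) * (m / κ) * (m / κ) := by
      have := h.κ0.ne'
      field_simp
    rw [e]
    have h1 : m * (8 * m) ≤ vv a j S N * N :=
      mul_le_mul h.v3 h.hN8 (by linarith [h.m0]) h.v0.le
    have h2 : m * (8 * m) * (m / κ) ≤ vv a j S N * N * (j + 1) :=
      mul_le_mul h1 h.j1 h.mκ.le (mul_pos h.v0 h.N0).le
    exact mul_le_mul h2 (by linarith [h.a1]) h.mκ.le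
      (mul_pos (mul_pos h.v0 h.N0) h.j0').le
  have hd0 : 0 < 8 * m ^ 4 / κ ^ 2 := by
    have := h.m0; have := h.κ0; positivity
  have h1 := abs_frac2_le h.Xr_le h.Y_le hd0 hd
  rw [h.E_sq_eq (by norm_num)] at h1
  have h2 := abs_sub (Xr a j S N * (N * (a + 1) - S * (j + 1)) /
    (vv a j S N * N * (j + 1) * (a + 1))) (1 / (j + 1))
  have h3 := h.inv_j_le
  obtain ⟨p1, p2, p3⟩ := h.κ_pows
  have h4 : κ / m = κ * (1 / m) := by ring
  have h5 : κ * (1 / m) ≤ κ ^ 4 * (1 / m) := mul_le_mul_of_nonneg_right p1 h.inv_m0.le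
  have h6 : 0 ≤ κ ^ 4 * EE m a j S N ^ 2 := by have := h.κ0; positivity
  have h7 : 0 ≤ κ ^ 4 * (1 / m) := by have := h.κ0; have := h.inv_m0; positivity
  have e : 20 * κ ^ 4 * (EE m a j S N ^ 2 + 1 / m) =
      20 * (κ ^ 4 * EE m a j S N ^ 2) + 20 * (κ ^ 4 * (1 / m)) := by ring
  have e' : 4 / 8 * κ ^ 4 * EE m a j S N ^ 2 = (1 / 2) * (κ ^ 4 * EE m a j S N ^ 2) := by ring
  rw [e]
  rw [e'] at h1
  linarith

theorem XS_le : |XX a j S N - S| ≤ 2 * κ * (|XX a j S N| + m) := by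
  have h1 : |S| ≤ κ * m := by
    rw [abs_of_pos h.S0]; exact h.hS
  have h5 := abs_sub (XX a j S N) S
  have h6 := abs_nonneg (XX a j S N)
  have h7 : |XX a j S N| ≤ κ * |XX a j S N| := by nlinarith [h.hκ]
  have h8 := h.m0
  have h9 : 0 ≤ κ * m := mul_nonneg h.κ0.le h8.le
  have e2 : 2 * κ * (|XX a j S N| + m) = 2 * (κ * |XX a j S N|) + 2 * (κ * m) := by ring
  rw [e2]
  have h10 : 0 ≤ κ * |XX a j S N| := mul_nonneg h.κ0.le h6
  linarith

theorem X2SN_le : |XX a j S N - 2 * S - N| ≤ 4 * κ * (|XX a j S N| + m) := by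
  have h1 : |2 * S + N| ≤ 3 * (κ * m) := by
    rw [abs_of_pos (by linarith [h.S0, h.N0])]; linarith [h.hS, h.hN]
  have h5 := abs_sub (XX a j S N) (2 * S + N)
  have h6 := abs_nonneg (XX a j S N)
  have h7 : |XX a j S N| ≤ κ * |XX a j S N| := by nlinarith [h.hκ]
  have h8 := h.m0
  have h9 : 0 ≤ κ * m := mul_nonneg h.κ0.le h8.le
  have e2 : 4 * κ * (|XX a j S N| + m) = 4 * (κ * |XX a j S N|) + 4 * (κ * m) := by ring
  rw [e2]
  have h10 : 0 ≤ κ * |XX a j S N| := mul_nonneg h.κ0.le h6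
  have e : XX a j S N - 2 * S - N = XX a j S N - (2 * S + N) := by ring
  rw [e]
  linarith

theorem Q0 : 0 < S - a + 1 := by linarith [h.Q1, h.m0]
theorem Sa0 : 0 < S - a := by linarith [h.hSa, h.m0]

theorem eps3_eq : e3 a j S N - (1 + S / N) * eA a j S N =
    (a - S - N) / ((j + 1) * (S - a + 1))
      + Xr a j S N * (N * (a + 1) - S * (j + 1)) / (N * (j + 1) * (S - a + 1) * (a + 1))
      + Xr a j S N * (XX a j S N - 2 * S - N) / (N * (S - a + 1) * (a + 1) * vv a j S N) := by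
  have h1 := h.v0.ne'
  have h2 := h.N0.ne'
  have h3 := h.j0'.ne'
  have h4 : a + 1 ≠ 0 := by linarith [h.a0]
  have h5 := h.Q0.ne'
  unfold e3 eA XX Xr vv at *
  field_simp
  ring

theorem den8 : 8 * m ^ 4 / κ ^ 2 ≤ N * (j + 1) * (S - a + 1) * (a + 1) := by
  have e : 8 * m ^ 4 / κ ^ 2 = (8 * m) * (m / κ) * m * (m / κ) := by
    have := h.κ0.ne'
    field_simp
  rw [e]
  have h1 : (8 * m) * (m / κ) ≤ N * (j + 1) :=
    mul_le_mul h.hN8 h.j1 h.mκ.le h.N0.le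
  have h2 : (8 * m) * (m / κ) * m ≤ N * (j + 1) * (S - a + 1) :=
    mul_le_mul h1 h.Q1 h.m0.le (mul_pos h.N0 h.j0').le
  exact mul_le_mul h2 (by linarith [h.a1]) h.mκ.le
    (mul_pos (mul_pos h.N0 h.j0') h.Q0).le

theorem den8' : 8 * m ^ 4 / κ ^ 2 ≤ N * (S - a + 1) * (a + 1) * vv a j S N := by
  have e : 8 * m ^ 4 / κ ^ 2 = (8 * m) * m * (m / κ) * (m / κ) := by
    have := h.κ0.ne'
    field_simp
  rw [e]
  have h1 : (8 * m) * m ≤ N * (S - a + 1) :=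
    mul_le_mul h.hN8 h.Q1 h.m0.le h.N0.le
  have h2 : (8 * m) * m * (m / κ) ≤ N * (S - a + 1) * (a + 1) :=
    mul_le_mul h1 (by linarith [h.a1]) h.mκ.le (mul_pos h.N0 h.Q0).le
  have h3 : m / κ ≤ vv a j S N := by
    have : m / κ ≤ m := div_le_self h.m0.le (by linarith [h.hκ])
    linarith [h.v3]
  exact mul_le_mul h2 h3 h.mκ.le
    (mul_pos (mul_pos h.N0 h.Q0) (by linarith [h.a0])).le

theorem eps3_le : |e3 a j S N - (1 + S / N) * eA a j S N| ≤
    20 * κ ^ 4 * (EE m a j S N ^ 2 + 1 / m) := by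
  rw [h.eps3_eq]
  have hd0 : 0 < 8 * m ^ 4 / κ ^ 2 := by
    have := h.m0; have := h.κ0; positivity
  have t1 : |(a - S - N) / ((j + 1) * (S - a + 1))| ≤ (2 * κ * m) / (m ^ 2 / κ) := by
    apply abs_frac_le _ h.den0 h.den3
    rw [abs_le]
    constructor <;> nlinarith [h.hS, h.hN, h.a0, h.haup, h.S0, h.N0, h.hm, h.hκ, h.m0, h.hN8, h.hS2]
  have e1 : (2 * κ * m) / (m ^ 2 / κ) = 2 * κ ^ 2 * (1 / m) := by
    have := h.m0.ne'; have := h.κ0.ne'
    field_simp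
  rw [e1] at t1
  have t2 := abs_frac2_le h.Xr_le h.Y_le hd0 h.den8
  rw [h.E_sq_eq (by norm_num)] at t2
  have t3 := abs_frac2_le h.Xr_le h.X2SN_le hd0 h.den8'
  have e2 : (2 * κ * (|XX a j S N| + m)) * (4 * κ * (|XX a j S N| + m)) / (8 * m ^ 4 / κ ^ 2) =
      2 * ((2 * κ * (|XX a j S N| + m)) * (2 * κ * (|XX a j S N| + m)) / (8 * m ^ 4 / κ ^ 2)) := by
    ring
  rw [e2, h.E_sq_eq (by norm_num)] at t3
  have a1 := abs_add_le ((a - S - N) / ((j + 1) * (S - a + 1))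
      + Xr a j S N * (N * (a + 1) - S * (j + 1)) / (N * (j + 1) * (S - a + 1) * (a + 1)))
      (Xr a j S N * (XX a j S N - 2 * S - N) / (N * (S - a + 1) * (a + 1) * vv a j S N))
  have a2 := abs_add_le ((a - S - N) / ((j + 1) * (S - a + 1)))
      (Xr a j S N * (N * (a + 1) - S * (j + 1)) / (N * (j + 1) * (S - a + 1) * (a + 1)))
  obtain ⟨p1, p2, p3⟩ := h.κ_pows
  have h5 : κ ^ 2 * (1 / m) ≤ κ ^ 4 * (1 / m) := mul_le_mul_of_nonneg_right p2 h.inv_m0.le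
  have h6 : 0 ≤ κ ^ 4 * EE m a j S N ^ 2 := by have := h.κ0; positivity
  have h7 : 0 ≤ κ ^ 4 * (1 / m) := by have := h.κ0; have := h.inv_m0; positivity
  have e : 20 * κ ^ 4 * (EE m a j S N ^ 2 + 1 / m) =
      20 * (κ ^ 4 * EE m a j S N ^ 2) + 20 * (κ ^ 4 * (1 / m)) := by ring
  rw [e]
  have e3 : 4 / 8 * κ ^ 4 * EE m a j S N ^ 2 = (1 / 2) * (κ ^ 4 * EE m a j S N ^ 2) := by ring
  rw [e3] at t2 t3
  have e4 : 2 * κ ^ 2 * (1 / m) = 2 * (κ ^ 2 * (1 / m)) := by ring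
  rw [e4] at t1
  linarith

theorem eps4_eq : (1 + e2 a j S N) * e4 a j S N - eA a j S N =
    eA a j S N / (vv a j S N - 1) - (S + 1) / ((a + 1) * (vv a j S N - 1))
      + e2 a j S N * e4 a j S N := by
  have h1 := h.v0.ne'
  have h2 : vv a j S N - 1 ≠ 0 := by linarith [h.v2, h.m0]
  have h4 : a + 1 ≠ 0 := by linarith [h.a0]
  unfold e4 eA
  field_simp
  ring

theorem eps4_le : |(1 + e2 a j S N) * e4 a j S N - eA a j S N| ≤
    20 * κ ^ 4 * (EE m a j S N ^ 2 + 1 / m) := by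
  rw [h.eps4_eq]
  have t1 : |eA a j S N / (vv a j S N - 1)| ≤ (2 * κ ^ 2 * EE m a j S N) / m :=
    abs_frac_le h.eA_le h.m0 h.v2
  have t2 : |(S + 1) / ((a + 1) * (vv a j S N - 1))| ≤ (2 * κ * m) / (m ^ 2 / κ) := by
    apply abs_frac_le _ h.den0 h.den4
    rw [abs_of_pos (by linarith [h.S0])]
    nlinarith [h.hS, h.hm, h.hκ, h.m0]
  have e1 : (2 * κ * m) / (m ^ 2 / κ) = 2 * κ ^ 2 * (1 / m) := by
    have := h.m0.ne'; have := h.κ0.ne'
    field_simp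
  rw [e1] at t2
  have t3 : |e2 a j S N * e4 a j S N| ≤ (4 * κ ^ 2 * EE m a j S N) * (4 * κ ^ 2 * EE m a j S N) := by
    rw [abs_mul]
    exact mul_le_mul h.e2_le h.e4_le (abs_nonneg _) (by have := h.E0; positivity)
  have a1 := abs_add_le (eA a j S N / (vv a j S N - 1) - (S + 1) / ((a + 1) * (vv a j S N - 1)))
    (e2 a j S N * e4 a j S N)
  have a2 := abs_sub (eA a j S N / (vv a j S N - 1)) ((S + 1) / ((a + 1) * (vv a j S N - 1)))
  obtain ⟨p1, p2, p3⟩ := h.κ_pows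
  have hE := h.E_div_m
  have hκ2 : 0 ≤ κ ^ 2 := by positivity
  have h3 : κ ^ 2 * (EE m a j S N / m) ≤ κ ^ 2 * (EE m a j S N ^ 2 + 1 / m) :=
    mul_le_mul_of_nonneg_left hE hκ2
  have h5 : κ ^ 2 * (1 / m) ≤ κ ^ 4 * (1 / m) := mul_le_mul_of_nonneg_right p2 h.inv_m0.le
  have h5' : κ ^ 2 * EE m a j S N ^ 2 ≤ κ ^ 4 * EE m a j S N ^ 2 :=
    mul_le_mul_of_nonneg_right p2 (sq_nonneg _)
  have h6 : 0 ≤ κ ^ 4 * EE m a j S N ^ 2 := by have := h.κ0; positivity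
  have h7 : 0 ≤ κ ^ 4 * (1 / m) := by have := h.κ0; have := h.inv_m0; positivity
  have e : 20 * κ ^ 4 * (EE m a j S N ^ 2 + 1 / m) =
      20 * (κ ^ 4 * EE m a j S N ^ 2) + 20 * (κ ^ 4 * (1 / m)) := by ring
  rw [e]
  have e3 : (4 * κ ^ 2 * EE m a j S N) * (4 * κ ^ 2 * EE m a j S N) =
      16 * (κ ^ 4 * EE m a j S N ^ 2) := by ring
  rw [e3] at t3
  have e4 : 2 * κ ^ 2 * (1 / m) = 2 * (κ ^ 2 * (1 / m)) := by ring
  rw [e4] at t2
  have e5 : (2 * κ ^ 2 * EE m a j S N) / m = 2 * (κ ^ 2 * (EE m a j S N / m)) := by ring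
  rw [e5] at t1
  have e6 : κ ^ 2 * (EE m a j S N ^ 2 + 1 / m) = κ ^ 2 * EE m a j S N ^ 2 + κ ^ 2 * (1 / m) := by
    ring
  rw [e6] at h3
  linarith

theorem eps5_eq : (1 + e3 a j S N) * e5 a j S N - eA a j S N =
    eA a j S N / a - (N + S) / (a * vv a j S N) + e3 a j S N * e5 a j S N := by
  have h1 := h.v0.ne'
  have h2 := h.a0.ne'
  have h4 : a + 1 ≠ 0 := by linarith [h.a0]
  unfold e5 eA
  field_simp
  ring

theorem eps5_le : |(1 + e3 a j S N) * e5 a j S N - eA a j S N| ≤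
    20 * κ ^ 4 * (EE m a j S N ^ 2 + 1 / m) := by
  rw [h.eps5_eq]
  have t1 : |eA a j S N / a| ≤ (2 * κ ^ 2 * EE m a j S N) / (m / κ) :=
    abs_frac_le h.eA_le h.mκ h.a1
  have e0 : (2 * κ ^ 2 * EE m a j S N) / (m / κ) = 2 * (κ ^ 3 * (EE m a j S N / m)) := by
    have := h.m0.ne'; have := h.κ0.ne'
    field_simp
  rw [e0] at t1
  have t2 : |(N + S) / (a * vv a j S N)| ≤ (2 * κ * m) / (m ^ 2 / κ) := by
    apply abs_frac_le _ h.den0 h.den5
    rw [abs_of_pos (by linarith [h.S0, h.N0])]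
    linarith [h.hS, h.hN]
  have e1 : (2 * κ * m) / (m ^ 2 / κ) = 2 * (κ ^ 2 * (1 / m)) := by
    have := h.m0.ne'; have := h.κ0.ne'
    field_simp
  rw [e1] at t2
  have t3 : |e3 a j S N * e5 a j S N| ≤ (4 * κ ^ 2 * EE m a j S N) * (4 * κ ^ 2 * EE m a j S N) := by
    rw [abs_mul]
    exact mul_le_mul h.e3_le h.e5_le (abs_nonneg _) (by have := h.E0; positivity)
  have a1 := abs_add_le (eA a j S N / a - (N + S) / (a * vv a j S N))
    (e3 a j S N * e5 a j S N)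
  have a2 := abs_sub (eA a j S N / a) ((N + S) / (a * vv a j S N))
  obtain ⟨p1, p2, p3⟩ := h.κ_pows
  have hE := h.E_div_m
  have hκ3 : 0 ≤ κ ^ 3 := by have := h.κ0; positivity
  have h3 : κ ^ 3 * (EE m a j S N / m) ≤ κ ^ 3 * (EE m a j S N ^ 2 + 1 / m) :=
    mul_le_mul_of_nonneg_left hE hκ3
  have h5 : κ ^ 2 * (1 / m) ≤ κ ^ 4 * (1 / m) := mul_le_mul_of_nonneg_right p2 h.inv_m0.le
  have h5' : κ ^ 3 * EE m a j S N ^ 2 ≤ κ ^ 4 * EE m a j S N ^ 2 :=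
    mul_le_mul_of_nonneg_right p3 (sq_nonneg _)
  have h5'' : κ ^ 3 * (1 / m) ≤ κ ^ 4 * (1 / m) := mul_le_mul_of_nonneg_right p3 h.inv_m0.le
  have h6 : 0 ≤ κ ^ 4 * EE m a j S N ^ 2 := by have := h.κ0; positivity
  have h7 : 0 ≤ κ ^ 4 * (1 / m) := by have := h.κ0; have := h.inv_m0; positivity
  have e : 20 * κ ^ 4 * (EE m a j S N ^ 2 + 1 / m) =
      20 * (κ ^ 4 * EE m a j S N ^ 2) + 20 * (κ ^ 4 * (1 / m)) := by ring
  rw [e]
  have e3 : (4 * κ ^ 2 * EE m a j S N) * (4 * κ ^ 2 * EE m a j S N) =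
      16 * (κ ^ 4 * EE m a j S N ^ 2) := by ring
  rw [e3] at t3
  have e6 : κ ^ 3 * (EE m a j S N ^ 2 + 1 / m) = κ ^ 3 * EE m a j S N ^ 2 + κ ^ 3 * (1 / m) := by
    ring
  rw [e6] at h3
  linarith

theorem eps6_eq : W0 a j S N - (1 - eA a j S N) * W1 a j S N - (S + N) / S * eA a j S N =
    - (N - 1 - j) / ((S - a + 1) * (S - a))
      + eA a j S N * ((XX a j S N - S) / ((S - a) * S)) := by
  have h1 := h.Sa0.ne'
  have h2 := h.S0.ne'
  have h3 := h.Q0.ne'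
  unfold W0 W1 XX
  field_simp
  ring

theorem eps6_le : |W0 a j S N - (1 - eA a j S N) * W1 a j S N - (S + N) / S * eA a j S N| ≤
    20 * κ ^ 4 * (EE m a j S N ^ 2 + 1 / m) := by
  rw [h.eps6_eq]
  have t1 : |- (N - 1 - j) / ((S - a + 1) * (S - a))| ≤ (κ * m) / (m * m) := by
    apply abs_frac_le _ (mul_pos h.m0 h.m0)
      (mul_le_mul h.Q1 h.hSa h.m0.le h.Q0.le)
    rw [abs_neg, abs_of_nonneg (by linarith [h.hP, h.m0])]
    linarith [h.hN, h.hj0]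
  have e1 : (κ * m) / (m * m) = κ * (1 / m) := by
    have := h.m0.ne'
    field_simp
  rw [e1] at t1
  have t2 : |(XX a j S N - S) / ((S - a) * S)| ≤
      (2 * κ * (|XX a j S N| + m)) / (m * (2 * m)) :=
    abs_frac_le h.XS_le (mul_pos h.m0 (by linarith [h.m0]))
      (mul_le_mul h.hSa h.hS2 (by linarith [h.m0]) h.Sa0.le)
  have e2 : (2 * κ * (|XX a j S N| + m)) / (m * (2 * m)) = κ * EE m a j S N := by
    unfold EE
    have := h.m0.ne'
    field_simp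
  rw [e2] at t2
  have t3 : |eA a j S N * ((XX a j S N - S) / ((S - a) * S))| ≤
      (2 * κ ^ 2 * EE m a j S N) * (κ * EE m a j S N) := by
    rw [abs_mul]
    exact mul_le_mul h.eA_le t2 (abs_nonneg _) (by have := h.E0; positivity)
  have a1 := abs_add_le (- (N - 1 - j) / ((S - a + 1) * (S - a)))
    (eA a j S N * ((XX a j S N - S) / ((S - a) * S)))
  obtain ⟨p1, p2, p3⟩ := h.κ_pows
  have h5 : κ * (1 / m) ≤ κ ^ 4 * (1 / m) := mul_le_mul_of_nonneg_right p1 h.inv_m0.le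
  have h5' : κ ^ 3 * EE m a j S N ^ 2 ≤ κ ^ 4 * EE m a j S N ^ 2 :=
    mul_le_mul_of_nonneg_right p3 (sq_nonneg _)
  have h6 : 0 ≤ κ ^ 4 * EE m a j S N ^ 2 := by have := h.κ0; positivity
  have h7 : 0 ≤ κ ^ 4 * (1 / m) := by have := h.κ0; have := h.inv_m0; positivity
  have e : 20 * κ ^ 4 * (EE m a j S N ^ 2 + 1 / m) =
      20 * (κ ^ 4 * EE m a j S N ^ 2) + 20 * (κ ^ 4 * (1 / m)) := by ring
  rw [e]
  have e3 : (2 * κ ^ 2 * EE m a j S N) * (κ * EE m a j S N) =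
      2 * (κ ^ 3 * EE m a j S N ^ 2) := by ring
  rw [e3] at t3
  linarith

end Bulk

end

end Vale.Agent.Lib.P321
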