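import Mathlib

/-!
# P321: second moment of a near-martingale driven by a two-state chain
-/

namespace Vale.Agent.Lib.P321

/-- Expectation over strings of length `n`: each next symbol repeats the previous one with
probability `ς`. -/
noncomputable def Ec (ς : ℝ) : ℕ → Bool → (List Bool → ℝ) → ℝ
  | 0, _, φ => φ []
  | n + 1, b, φ =>
      ς * Ec ς n b (fun T => φ (b :: T)) + (1 - ς) * Ec ς n (!b) (fun T => φ ((!b) :: T))

section

variable {ς : ℝ}

theorem Ec_add (n : ℕ) (b : Bool) (φ ψ : List Bool → ℝ) :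
    Ec ς n b (fun T => φ T + ψ T) = Ec ς n b φ + Ec ς n b ψ := by
  induction n generalizing b φ ψ with
  | zero => simp [Ec]
  | succ n ih =>
    simp only [Ec]
    rw [ih, ih]
    ring

theorem Ec_mul (n : ℕ) (b : Bool) (c : ℝ) (φ : List Bool → ℝ) :
    Ec ς n b (fun T => c * φ T) = c * Ec ς n b φ := by
  induction n generalizing b φ with
  | zero => simp [Ec]
  | succ n ih =>
    simp only [Ec]
    rw [ih, ih]
    ring

theorem Ec_const (n : ℕ) (b : Bool) (c : ℝ) : Ec ς n b (fun _ => c) = c := by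
  induction n generalizing b with
  | zero => simp [Ec]
  | succ n ih =>
    simp only [Ec, ih]
    ring

theorem Ec_mono (h0 : 0 ≤ ς) (h1 : ς ≤ 1) (n : ℕ) (b : Bool) {φ ψ : List Bool → ℝ}
    (h : ∀ T, φ T ≤ ψ T) : Ec ς n b φ ≤ Ec ς n b ψ := by
  induction n generalizing b φ ψ with
  | zero => simpa [Ec] using h []
  | succ n ih =>
    simp only [Ec]
    have h2 := ih (b := b) (φ := fun T => φ (b :: T)) (ψ := fun T => ψ (b :: T))
      (fun T => h _)
    have h3 := ih (b := !b) (φ := fun T => φ ((!b) :: T)) (ψ := fun T => ψ ((!b) :: T))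
      (fun T => h _)
    have h4 : 0 ≤ 1 - ς := by linarith
    nlinarith [mul_le_mul_of_nonneg_left h2 h0, mul_le_mul_of_nonneg_left h3 h4]

end

section

variable {σ : Type*} (bit : σ → Bool) (nx : σ → Bool → σ) (I : σ → Bool → ℝ)

/-- The sum of the increments `I` along the string. -/
noncomputable def Ysum : σ → List Bool → ℝ
  | _, [] => 0
  | s, c :: T => I s c + Ysum (nx s c) T

/-- The conditional mean of the increment at `s`. -/
noncomputable def mn (ς : ℝ) (s : σ) : ℝ := ς * I s (bit s) + (1 - ς) * I s (!bit s)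

/-- The compensated increments. -/
noncomputable def Zsum (ς : ℝ) : σ → List Bool → ℝ
  | _, [] => 0
  | s, c :: T => (I s c - mn bit I ς s) + Zsum ς (nx s c) T

/-- The sum of the conditional means. -/
noncomputable def Wsum (ς : ℝ) : σ → List Bool → ℝ
  | _, [] => 0
  | s, c :: T => mn bit I ς s + Wsum ς (nx s c) T

theorem Ysum_eq (ς : ℝ) (s : σ) (T : List Bool) :
    Ysum nx I s T = Zsum bit nx I ς s T + Wsum bit nx I ς s T := by
  induction T generalizing s with
  | nil => simp [Ysum, Zsum, Wsum]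
  | cons c T ih =>
    simp only [Ysum, Zsum, Wsum, ih]
    ring

variable {bit nx I}

theorem Zsum_mean (hbit : ∀ s c, bit (nx s c) = c) (ς : ℝ) (n : ℕ) (s : σ) :
    Ec ς n (bit s) (Zsum bit nx I ς s) = 0 := by
  induction n generalizing s with
  | zero => simp [Ec, Zsum]
  | succ n ih =>
    simp only [Ec, Zsum]
    have h1 := ih (nx s (bit s))
    have h2 := ih (nx s (!bit s))
    rw [hbit] at h1 h2
    rw [Ec_add, Ec_add, Ec_const, Ec_const, h1, h2]
    unfold mn
    ring

theorem Zsum_second {ς : ℝ} (h0 : 0 ≤ ς) (h1 : ς ≤ 1) (Good : σ → Prop) (P : σ → ℝ)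
    (hbit : ∀ s c, bit (nx s c) = c) (hG : ∀ s c, Good s → Good (nx s c))
    (hP : ∀ s c, Good s → I s c ^ 2 ≤ P s - P (nx s c)) (hP0 : ∀ s, Good s → 0 ≤ P s)
    (n : ℕ) (s : σ) (hs : Good s) :
    Ec ς n (bit s) (fun T => Zsum bit nx I ς s T ^ 2) ≤ P s := by
  induction n generalizing s with
  | zero => simpa [Ec, Zsum] using hP0 s hs
  | succ n ih =>
    simp only [Ec, Zsum]
    -- expansion of one branch
    have key : ∀ c, Ec ς n c (fun T => ((I s c - mn bit I ς s) + Zsum bit nx I ς (nx s c) T) ^ 2) ≤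
        (I s c - mn bit I ς s) ^ 2 + P (nx s c) := by
      intro c
      have e1 : (fun T => ((I s c - mn bit I ς s) + Zsum bit nx I ς (nx s c) T) ^ 2) =
          fun T => ((I s c - mn bit I ς s) ^ 2 +
            2 * (I s c - mn bit I ς s) * Zsum bit nx I ς (nx s c) T) +
              Zsum bit nx I ς (nx s c) T ^ 2 := by
        funext T; ring
      rw [e1, Ec_add, Ec_add, Ec_const, Ec_mul]
      have h2 := Zsum_mean (I := I) hbit ς n (nx s c)
      rw [hbit] at h2
      rw [h2]
      have h3 := ih (nx s c) (hG s c hs)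
      rw [hbit] at h3
      linarith
    have hb := key (bit s)
    have hnb := key (!bit s)
    have h4 : 0 ≤ 1 - ς := by linarith
    have hs1 := hP s (bit s) hs
    have hs2 := hP s (!bit s) hs
    have hm : ς * (I s (bit s) - mn bit I ς s) ^ 2 +
        (1 - ς) * (I s (!bit s) - mn bit I ς s) ^ 2 ≤
        ς * I s (bit s) ^ 2 + (1 - ς) * I s (!bit s) ^ 2 := by
      have e : ς * (I s (bit s) - mn bit I ς s) ^ 2 +
          (1 - ς) * (I s (!bit s) - mn bit I ς s) ^ 2 =
          ς * I s (bit s) ^ 2 + (1 - ς) * I s (!bit s) ^ 2 - mn bit I ς s ^ 2 := by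
        unfold mn; ring
      rw [e]
      nlinarith [sq_nonneg (mn bit I ς s)]
    have h5 := mul_le_mul_of_nonneg_left hb h0
    have h6 := mul_le_mul_of_nonneg_left hnb h4
    have h7 := mul_le_mul_of_nonneg_left hs1 h0
    have h8 := mul_le_mul_of_nonneg_left hs2 h4
    nlinarith

theorem Wsum_le {ς : ℝ} (Good : σ → Prop) (Q : σ → ℝ) (hG : ∀ s c, Good s → Good (nx s c))
    (hQ : ∀ s c, Good s → |mn bit I ς s| ≤ Q s - Q (nx s c)) (hQ0 : ∀ s, Good s → 0 ≤ Q s)
    (T : List Bool) (s : σ) (hs : Good s) : |Wsum bit nx I ς s T| ≤ Q s := by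
  induction T generalizing s with
  | nil => simpa [Wsum] using hQ0 s hs
  | cons c T ih =>
    simp only [Wsum]
    have h1 := ih (nx s c) (hG s c hs)
    have h2 := hQ s c hs
    exact (abs_add_le _ _).trans (by linarith)

/-- The second moment bound for the sum of the increments. -/
theorem Ysum_second {ς : ℝ} (h0 : 0 ≤ ς) (h1 : ς ≤ 1) (Good : σ → Prop) (P Q : σ → ℝ)
    (hbit : ∀ s c, bit (nx s c) = c) (hG : ∀ s c, Good s → Good (nx s c))
    (hP : ∀ s c, Good s → I s c ^ 2 ≤ P s - P (nx s c)) (hP0 : ∀ s, Good s → 0 ≤ P s)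
    (hQ : ∀ s c, Good s → |mn bit I ς s| ≤ Q s - Q (nx s c)) (hQ0 : ∀ s, Good s → 0 ≤ Q s)
    (n : ℕ) (s : σ) (hs : Good s) :
    Ec ς n (bit s) (fun T => Ysum nx I s T ^ 2) ≤ 2 * P s + 2 * Q s ^ 2 := by
  have h2 : ∀ T, Ysum nx I s T ^ 2 ≤ 2 * Zsum bit nx I ς s T ^ 2 + 2 * Q s ^ 2 := by
    intro T
    rw [Ysum_eq bit nx I ς s T]
    have h3 := Wsum_le (I := I) Good Q hG hQ hQ0 T s hs
    have h4 : Wsum bit nx I ς s T ^ 2 ≤ Q s ^ 2 := by
      rw [← sq_abs]
      exact pow_le_pow_left₀ (abs_nonneg _) h3 2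
    nlinarith [sq_nonneg (Zsum bit nx I ς s T - Wsum bit nx I ς s T)]
  have h3 := Ec_mono h0 h1 n (bit s) h2
  rw [Ec_add, Ec_mul, Ec_const] at h3
  have h4 := Zsum_second (I := I) h0 h1 Good P hbit hG hP hP0 n s hs
  linarith

end

end Vale.Agent.Lib.P321
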