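import Vale.Agent.Lib.P321.Chain

/-!
# P321: comparison of the uniform law on a stay-class with the i.i.d. stays law
-/

namespace Vale.Agent.Lib.P321

/-- Sum over all strings of length `n`. -/
noncomputable def SumL : ℕ → (List Bool → ℝ) → ℝ
  | 0, φ => φ []
  | n + 1, φ => SumL n (fun T => φ (true :: T)) + SumL n (fun T => φ (false :: T))

theorem SumL_add (n : ℕ) (φ ψ : List Bool → ℝ) :
    SumL n (fun T => φ T + ψ T) = SumL n φ + SumL n ψ := by
  induction n generalizing φ ψ with
  | zero => simp [SumL]
  | succ n ih =>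
    simp only [SumL]
    rw [ih, ih]
    ring

theorem SumL_mul (n : ℕ) (c : ℝ) (φ : List Bool → ℝ) :
    SumL n (fun T => c * φ T) = c * SumL n φ := by
  induction n generalizing φ with
  | zero => simp [SumL]
  | succ n ih =>
    simp only [SumL]
    rw [ih, ih]
    ring

theorem SumL_mono (n : ℕ) {φ ψ : List Bool → ℝ} (h : ∀ T, T.length = n → φ T ≤ ψ T) :
    SumL n φ ≤ SumL n ψ := by
  induction n generalizing φ ψ with
  | zero => simpa [SumL] using h [] rfl
  | succ n ih =>
    simp only [SumL]
    have h1 := ih (φ := fun T => φ (true :: T)) (ψ := fun T => ψ (true :: T))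
      (fun T hT => h _ (by simp [hT]))
    have h2 := ih (φ := fun T => φ (false :: T)) (ψ := fun T => ψ (false :: T))
      (fun T hT => h _ (by simp [hT]))
    linarith

theorem SumL_nonneg (n : ℕ) {φ : List Bool → ℝ} (h : ∀ T, T.length = n → 0 ≤ φ T) :
    0 ≤ SumL n φ := by
  have := SumL_mono n (φ := fun _ => 0) (ψ := φ) h
  have h0 : SumL n (fun _ => (0:ℝ)) = 0 := by
    have := SumL_mul n 0 (fun _ => (0:ℝ))
    simpa using this
  linarith

/-- The number of stays of the string `T` after the symbol `b`. -/
def stay : Bool → List Bool → ℕ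
  | _, [] => 0
  | b, c :: T => (if c = b then 1 else 0) + stay c T

theorem stay_le (b : Bool) (T : List Bool) : stay b T ≤ T.length := by
  induction T generalizing b with
  | nil => simp [stay]
  | cons c T ih =>
    have := ih c
    simp only [stay, List.length_cons]
    split_ifs <;> omega

/-- The binomial coefficient with integer lower index, vanishing for negative index. -/
noncomputable def chooseZ (n : ℕ) (r : ℤ) : ℝ :=
  if r < 0 then 0 else (n.choose r.toNat : ℝ)

theorem chooseZ_nonneg (n : ℕ) (r : ℤ) : 0 ≤ chooseZ n r := by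
  unfold chooseZ; split_ifs <;> positivity

theorem chooseZ_neg {n : ℕ} {r : ℤ} (h : r < 0) : chooseZ n r = 0 := by simp [chooseZ, h]

theorem chooseZ_natCast (n r : ℕ) : chooseZ n (r : ℤ) = (n.choose r : ℝ) := by simp [chooseZ]

theorem chooseZ_pascal (n : ℕ) (r : ℤ) :
    chooseZ (n + 1) r = chooseZ n r + chooseZ n (r - 1) := by
  by_cases h : r < 0
  · rw [chooseZ_neg h, chooseZ_neg h, chooseZ_neg (by omega)]; simp
  · have h0 : 0 ≤ r := by omega
    lift r to ℕ using h0
    cases r with
    | zero =>
      rw [chooseZ_neg (n := n) (r := ((0 : ℕ) : ℤ) - 1) (by norm_num)]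
      simp [chooseZ]
    | succ r =>
      have e : ((r + 1 : ℕ) : ℤ) - 1 = (r : ℤ) := by push_cast; ring
      rw [e, chooseZ_natCast, chooseZ_natCast, chooseZ_natCast, Nat.choose_succ_succ']
      push_cast
      ring

theorem stay_cons_iff (b d : Bool) (T : List Bool) (k : ℤ) :
    ((stay b (d :: T) : ℕ) : ℤ) = k ↔ ((stay d T : ℕ) : ℤ) = k - (if d = b then 1 else 0) := by
  simp only [stay]
  split_ifs <;> push_cast <;> constructor <;> intro h <;> omega

/-- Number of strings of given length and number of stays. -/
theorem count_stay (n : ℕ) (b : Bool) (k : ℤ) (c : ℝ) :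
    SumL n (fun T => if (stay b T : ℤ) = k then c else 0) = c * chooseZ n k := by
  induction n generalizing b k with
  | zero =>
    simp only [SumL, stay, Nat.cast_zero]
    by_cases h : k = 0
    · subst h; simp [chooseZ]
    · have hne : (0:ℤ) ≠ k := fun e => h e.symm
      rw [if_neg hne]
      by_cases h2 : k < 0
      · simp [chooseZ_neg h2]
      · have h3 : 0 ≤ k := by omega
        lift k to ℕ using h3
        have h4 : k ≠ 0 := by
          intro h5; apply h; simp [h5]
        rw [chooseZ_natCast, Nat.choose_eq_zero_of_lt (by omega)]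
        simp
  | succ n ih =>
    simp only [SumL]
    have key : ∀ d : Bool, SumL n (fun T => if ((stay b (d :: T) : ℕ) : ℤ) = k
        then c else 0) = c * chooseZ n (k - (if d = b then 1 else 0)) := by
      intro d
      have e : (fun T => if ((stay b (d :: T) : ℕ) : ℤ) = k then c else 0) =
          fun T => if ((stay d T : ℕ) : ℤ) = k - (if d = b then 1 else 0) then c else 0 := by
        funext T
        exact if_congr (stay_cons_iff b d T k) rfl rfl
      rw [e, ih]
    rw [key true, key false, chooseZ_pascal]
    cases b <;> simp <;> ring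

/-- Sum over a stay class of a function of the prefix. -/
theorem sum_class_prefix (L n : ℕ) (b : Bool) (k : ℤ) (G : List Bool → ℝ) :
    SumL (L + n) (fun T => if (stay b T : ℤ) = k then G (T.take L) else 0) =
      SumL L (fun π => G π * chooseZ n (k - stay b π)) := by
  induction L generalizing b k G with
  | zero =>
    simp only [zero_add, List.take_zero, SumL, stay, Nat.cast_zero, sub_zero]
    exact count_stay n b k (G [])
  | succ L ih =>
    have e0 : L + 1 + n = (L + n) + 1 := by ring
    rw [e0]
    simp only [SumL, List.take_succ_cons]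
    have key : ∀ d : Bool, SumL (L + n)
        (fun T => if ((stay b (d :: T) : ℕ) : ℤ) = k then G (d :: T.take L) else 0) =
        SumL L (fun π => G (d :: π) * chooseZ n (k - ((stay b (d :: π) : ℕ) : ℤ))) := by
      intro d
      have e : (fun T => if ((stay b (d :: T) : ℕ) : ℤ) = k then G (d :: T.take L) else 0) =
          fun T => if ((stay d T : ℕ) : ℤ) = k - (if d = b then 1 else 0)
            then (fun π => G (d :: π)) (T.take L) else 0 := by
        funext T
        exact if_congr (stay_cons_iff b d T k) rfl rfl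
      rw [e]
      have h := ih d (k - (if d = b then 1 else 0)) (fun π => G (d :: π))
      rw [h]
      congr 1
      funext π
      congr 2
      simp only [stay]
      push_cast
      ring
    rw [key true, key false]

/-- The weight of a string under the i.i.d. stays law. -/
noncomputable def wt (ς : ℝ) : Bool → List Bool → ℝ
  | _, [] => 1
  | b, c :: T => (if c = b then ς else 1 - ς) * wt ς c T

theorem Ec_eq_sum (ς : ℝ) (n : ℕ) (b : Bool) (φ : List Bool → ℝ) :
    Ec ς n b φ = SumL n (fun T => wt ς b T * φ T) := by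
  induction n generalizing b φ with
  | zero => simp [Ec, SumL, wt]
  | succ n ih =>
    simp only [Ec, SumL, wt]
    rw [ih, ih]
    cases b
    · simp only [Bool.not_false, if_true, reduceCtorEq, if_false, mul_assoc]
      rw [SumL_mul, SumL_mul]
      ring
    · simp only [Bool.not_true, if_true, reduceCtorEq, if_false, mul_assoc]
      rw [SumL_mul, SumL_mul]

theorem wt_eq (ς : ℝ) (b : Bool) (T : List Bool) :
    wt ς b T = ς ^ stay b T * (1 - ς) ^ (T.length - stay b T) := by
  induction T generalizing b with
  | nil => simp [wt, stay]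
  | cons c T ih =>
    have h := stay_le c T
    simp only [wt, stay, ih, List.length_cons]
    by_cases hc : c = b
    · simp only [hc, if_true]
      have e : T.length + 1 - (1 + stay b T) = T.length - stay b T := by omega
      rw [e, pow_add]
      ring
    · simp only [hc, if_false, zero_add]
      have e : T.length + 1 - stay c T = (T.length - stay c T) + 1 := by omega
      rw [e, pow_succ]
      ring

/-- The ratio bound between the hypergeometric and the binomial weights. -/
theorem rn_aux {n k : ℕ} (hn : 0 < n) (hk : k ≤ n) (L : ℕ) (hL : L ≤ n) (i : ℕ) (hi : i ≤ L) :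
    chooseZ (n - L) ((k : ℤ) - i) * (((n - L : ℕ) : ℝ) + 1) ≤
      ((n : ℝ) + 1) * (n.choose k : ℝ) * (((k : ℝ) / n) ^ i * (1 - (k : ℝ) / n) ^ (L - i)) := by
  have hn0 : (0:ℝ) < n := by exact_mod_cast hn
  set ς : ℝ := (k : ℝ) / n with hς
  have hς0 : 0 ≤ ς := by positivity
  have hς1 : ς ≤ 1 := by
    rw [hς, div_le_one hn0]; exact_mod_cast hk
  have hnς : (n : ℝ) * ς = k := by rw [hς]; field_simp
  have hς2 : 0 ≤ 1 - ς := by linarith
  induction L generalizing i with
  | zero =>
    have hi0 : i = 0 := by omega
    subst hi0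
    simp only [Nat.sub_zero, CharP.cast_eq_zero, sub_zero, pow_zero, mul_one]
    rw [show (k : ℤ) = ((k : ℕ) : ℤ) from rfl, chooseZ_natCast]
    linarith
  | succ L ih =>
    set n' := n - L with hn'
    have hn1 : n' = (n - (L + 1)) + 1 := by omega
    have hnL : ((n' : ℕ) : ℝ) = (n : ℝ) - L := by
      rw [hn', Nat.cast_sub (by omega)]
    have hnn : ((n - (L + 1) : ℕ) : ℝ) + 1 = (n' : ℝ) := by
      rw [hn1]; push_cast; simp
    rw [hnn]
    by_cases hik : (k : ℤ) < i
    · rw [chooseZ_neg (by omega)]
      simp only [zero_mul]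
      positivity
    · have hik' : i ≤ k := by omega
      obtain ⟨r, hr⟩ : ∃ r, k = i + r := ⟨k - i, by omega⟩
      have hrz : (k : ℤ) - i = (r : ℤ) := by rw [hr]; push_cast; ring
      rw [hrz, chooseZ_natCast]
      by_cases hcase : (i : ℝ) ≤ (L : ℝ) * ς + 1 - ς ∧ i ≤ L
      · -- keep `i`
        obtain ⟨hc1, hc2⟩ := hcase
        have h1 := ih (by omega) i hc2
        rw [hrz, chooseZ_natCast] at h1
        have e1 : ((n - (L + 1)).choose r : ℝ) * (n' : ℝ) =
            (n'.choose r : ℝ) * ((n' : ℝ) - r) := by
          by_cases hrn : r ≤ n'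
          · have h3 := Nat.choose_mul_succ_eq (n - (L + 1)) r
            rw [← hn1] at h3
            have h4 : ((((n - (L + 1)).choose r * n' : ℕ)) : ℝ) =
                ((n'.choose r * (n' - r) : ℕ) : ℝ) := by rw [h3]
            push_cast [Nat.cast_sub hrn] at h4
            exact h4
          · have h5 : n' < r := by omega
            rw [Nat.choose_eq_zero_of_lt h5, Nat.choose_eq_zero_of_lt (by omega)]
            simp
        rw [e1]
        have e2 : L + 1 - i = (L - i) + 1 := by omega
        rw [e2, pow_succ]
        have h2 : (n' : ℝ) - r ≤ ((n' : ℝ) + 1) * (1 - ς) := by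
          rw [hnL]
          have : (r : ℝ) = (k : ℝ) - i := by rw [hr]; push_cast; ring
          rw [this, ← hnς]
          nlinarith
        have h6 : (0:ℝ) ≤ (n'.choose r : ℝ) := by positivity
        calc (n'.choose r : ℝ) * ((n' : ℝ) - r)
            ≤ (n'.choose r : ℝ) * (((n' : ℝ) + 1) * (1 - ς)) :=
              mul_le_mul_of_nonneg_left h2 h6
          _ = ((n'.choose r : ℝ) * ((n' : ℝ) + 1)) * (1 - ς) := by ring
          _ ≤ (((n : ℝ) + 1) * (n.choose k : ℝ) * (ς ^ i * (1 - ς) ^ (L - i))) * (1 - ς) :=
              mul_le_mul_of_nonneg_right h1 hς2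
          _ = _ := by ring
      · -- move from `i - 1`
        have hipos : 0 < k := by
          by_contra hk0
          have hk00 : k = 0 := by omega
          have hi00 : i = 0 := by omega
          have : ς = 0 := by rw [hς, hk00]; simp
          apply hcase
          constructor
          · rw [this, hi00]; simp
          · omega
        have hς3 : 0 < ς := by
          rw [hς]
          have : (0:ℝ) < k := by exact_mod_cast hipos
          positivity
        have hi1 : 1 ≤ i := by
          by_contra hi0
          have hi00 : i = 0 := by omega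
          apply hcase
          constructor
          · rw [hi00]
            have : (0:ℝ) ≤ (L : ℝ) * ς := by positivity
            push_cast
            linarith
          · omega
        obtain ⟨i', rfl⟩ : ∃ i', i = i' + 1 := ⟨i - 1, by omega⟩
        have hi'L : i' ≤ L := by omega
        have h1 := ih (by omega) i' hi'L
        have hrz' : (k : ℤ) - (i' : ℤ) = ((r + 1 : ℕ) : ℤ) := by rw [hr]; push_cast; ring
        rw [hrz', chooseZ_natCast] at h1
        have e1 : ((n - (L + 1)).choose r : ℝ) * (n' : ℝ) =
            (n'.choose (r + 1) : ℝ) * ((r : ℝ) + 1) := by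
          have h3 := Nat.add_one_mul_choose_eq (n - (L + 1)) r
          rw [← hn1] at h3
          have h4 : ((n' * (n - (L + 1)).choose r : ℕ) : ℝ) =
              ((n'.choose (r + 1) * (r + 1) : ℕ) : ℝ) := by rw [h3]
          push_cast at h4
          linarith
        rw [e1]
        have e2 : L + 1 - (i' + 1) = L - i' := by omega
        rw [e2, pow_succ]
        have hi2 : (L : ℝ) * ς + 1 - ς ≤ ((i' + 1 : ℕ) : ℝ) := by
          by_contra hc
          push Not at hc
          apply hcase
          refine ⟨hc.le, ?_⟩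
          by_contra hc2
          have hi3 : i' = L := by omega
          rw [hi3] at hc
          push_cast at hc
          have : 0 ≤ (L : ℝ) * (1 - ς) := by positivity
          nlinarith
        have h2 : (r : ℝ) + 1 ≤ ((n' : ℝ) + 1) * ς := by
          rw [hnL]
          have : (r : ℝ) = (k : ℝ) - ((i' + 1 : ℕ) : ℝ) := by rw [hr]; push_cast; ring
          rw [this, ← hnς]
          nlinarith
        have h6 : (0:ℝ) ≤ (n'.choose (r + 1) : ℝ) := by positivity
        calc (n'.choose (r + 1) : ℝ) * ((r : ℝ) + 1)
            ≤ (n'.choose (r + 1) : ℝ) * (((n' : ℝ) + 1) * ς) :=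
              mul_le_mul_of_nonneg_left h2 h6
          _ = ((n'.choose (r + 1) : ℝ) * ((n' : ℝ) + 1)) * ς := by ring
          _ ≤ (((n : ℝ) + 1) * (n.choose k : ℝ) * (ς ^ i' * (1 - ς) ^ (L - i'))) * ς :=
              mul_le_mul_of_nonneg_right h1 hς3.le
          _ = _ := by ring

/-- The ratio bound in the form used. -/
theorem rn_bound {n k L i : ℕ} (hn : 0 < n) (hk : k ≤ n) (hL : 2 * L ≤ n) (hi : i ≤ L) :
    chooseZ (n - L) ((k : ℤ) - i) ≤
      2 * (n.choose k : ℝ) * (((k : ℝ) / n) ^ i * (1 - (k : ℝ) / n) ^ (L - i)) := by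
  have h1 := rn_aux hn hk L (by omega) i hi
  have hn0 : (0:ℝ) < n := by exact_mod_cast hn
  set ς : ℝ := (k : ℝ) / n with hς
  have hς0 : 0 ≤ ς := by positivity
  have hς1 : ς ≤ 1 := by
    rw [hς, div_le_one hn0]; exact_mod_cast hk
  have hς2 : 0 ≤ 1 - ς := by linarith
  set W := (n.choose k : ℝ) * (ς ^ i * (1 - ς) ^ (L - i)) with hW
  have hW0 : 0 ≤ W := by positivity
  have hcast : ((n - L : ℕ) : ℝ) = (n : ℝ) - L := by
    rw [Nat.cast_sub (by omega)]
  have hL' : 2 * (L : ℝ) ≤ n := by exact_mod_cast hL
  have h2 : (n : ℝ) + 1 ≤ 2 * (((n - L : ℕ) : ℝ) + 1) := by rw [hcast]; linarith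
  have h3 : chooseZ (n - L) ((k : ℤ) - i) * (((n - L : ℕ) : ℝ) + 1) ≤
      2 * W * (((n - L : ℕ) : ℝ) + 1) := by
    calc _ ≤ ((n : ℝ) + 1) * (n.choose k : ℝ) * (ς ^ i * (1 - ς) ^ (L - i)) := h1
      _ = ((n : ℝ) + 1) * W := by rw [hW]; ring
      _ ≤ (2 * (((n - L : ℕ) : ℝ) + 1)) * W := mul_le_mul_of_nonneg_right h2 hW0
      _ = _ := by ring
  have h4 : (0:ℝ) < ((n - L : ℕ) : ℝ) + 1 := by positivity
  have h5 := le_of_mul_le_mul_right h3 h4
  rw [hW] at h5
  linarith

/-- The class-average bound: a nonnegative function of the prefix of length `L` averaged over a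
stay class is at most twice its i.i.d. expectation. -/
theorem class_le_iid {L n k : ℕ} (hk : k ≤ L + n) (hL : L ≤ n) (hn : 0 < L + n) (b : Bool)
    (G : List Bool → ℝ) (hG : ∀ T, 0 ≤ G T) :
    SumL (L + n) (fun T => if (stay b T : ℤ) = k then G (T.take L) else 0) ≤
      2 * ((L + n).choose k : ℝ) * Ec ((k : ℝ) / ((L + n : ℕ) : ℝ)) L b G := by
  rw [sum_class_prefix, Ec_eq_sum, ← SumL_mul]
  apply SumL_mono
  intro π hπ
  have hs : stay b π ≤ L := by rw [← hπ]; exact stay_le _ _
  have h1 := rn_bound (n := L + n) (k := k) (L := L) (i := stay b π) hn hk (by omega) hs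
  have e : L + n - L = n := by omega
  rw [e] at h1
  rw [wt_eq, hπ]
  have h2 := hG π
  calc G π * chooseZ n ((k : ℤ) - stay b π) = chooseZ n ((k : ℤ) - stay b π) * G π := by ring
    _ ≤ _ * G π := mul_le_mul_of_nonneg_right h1 h2
    _ = _ := by ring

end Vale.Agent.Lib.P321
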