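import Mathlib

/-!
# P321: definitions for the worst-case trace reconstruction statement
-/

namespace Vale.Agent.Lib.P321

/-- `traceProb q x T` is the probability that the trace of the bit string `x` equals `T`, when
each bit of `x` is deleted independently with probability `q`: the first bit of `x` is deleted
with probability `q` (and then `T` must be a trace of the rest of `x`), and it survives with
probability `1 - q` (and then `T` must start with that bit, followed by a trace of the rest). -/
noncomputable def traceProb (q : ℝ) : List Bool → List Bool → ℝ
  | [], [] => 1
  | [], _ :: _ => 0
  | _ :: x, [] => q * traceProb q x []
  | b :: x, c :: T =>
      q * traceProb q x (c :: T) + if b = c then (1 - q) * traceProb q x T else 0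

/-- The probability that the randomized estimator `est`, given `m` independent traces of `x`,
outputs `x`: the sum over all `m`-tuples `T` of strings of the probability of the tuple `T`
times the probability that `est` outputs `x` on input `T`. -/
noncomputable def successProb (q : ℝ) (m : ℕ) (est : (Fin m → List Bool) → PMF (List Bool))
    (x : List Bool) : ℝ :=
  ∑' T : Fin m → List Bool, (∏ i, traceProb q x (T i)) * (est T x).toReal

end Vale.Agent.Lib.P321
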