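import Vale.Agent.Lib.P321.Param

/-!
# P321: the lower bound on the number of traces
-/

namespace Vale.Agent.Lib.P321

section

variable {q : ℝ}

/-- For every large length there are two distinct strings with trace laws at Hellinger distance
at most `C n^(-3/4)`. -/
theorem core (h0 : 0 < q) (h1 : q < 1) : ∃ C : ℝ, 0 < C ∧ ∃ n₀ : ℕ, ∀ n ≥ n₀, ∃ x y : List Bool,
    x.length = n ∧ y.length = n ∧ x ≠ y ∧ 1 - C / (n : ℝ) ^ (3 / 2 : ℝ) ≤ BC q x y := by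
  obtain ⟨K, D, hK2, hβ, hD, hk1, hk2, hk3⟩ := constants h0 h1
  set κ₀ : ℕ := 2 * K + 8 with hκ₀
  set κ : ℝ := (κ₀ : ℝ) with hκ
  have hκ8 : 8 ≤ κ := by
    rw [hκ, hκ₀]; push_cast
    have : (0 : ℝ) ≤ K := by positivity
    linarith
  have hκ0 : 0 < κ := by linarith
  set KK := Kfin κ (κ ^ 2 / (1 / (2 * (D : ℝ)))) with hKKdef
  have hKK : 0 ≤ KK := Kfin_nonneg hκ0.le (by positivity)
  have hCpos : 0 < κ ^ (3 / 2 : ℝ) * (KK + 8) := by positivity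
  refine ⟨κ ^ (3 / 2 : ℝ) * (KK + 8), hCpos, K * (4 * κ₀ ^ 2) * 2 + 3, ?_⟩
  intro n hn
  set M := (n - 1) / 2 with hM
  set m := M / K with hm
  have hMlow : K * (4 * κ₀ ^ 2) ≤ M := by omega
  have hm4 : 4 * κ₀ ^ 2 ≤ m := by
    rw [hm, Nat.le_div_iff_mul_le (by omega), mul_comm]
    exact hMlow
  have hKm : K * m ≤ M := Nat.mul_div_le M K
  have hMup : M < K * m + K := by
    have e1 := Nat.div_add_mod M K
    have e2 := Nat.mod_lt M (show 0 < K by omega)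
    rw [← hm] at e1
    omega
  have hκ₀2 : κ₀ ≤ κ₀ ^ 2 := by nlinarith
  have hKm2 : K ≤ m := by
    have : K ≤ κ₀ := by omega
    nlinarith
  have hm1 : 1 ≤ m := by omega
  have h2m : 2 * m ≤ K * m := Nat.mul_le_mul_right m hK2
  obtain ⟨t, ht⟩ : ∃ t, M = m + t + 1 := ⟨M - m - 1, by omega⟩
  have hκm : 2 * M + 2 ≤ κ₀ * m := by
    rw [hκ₀]
    nlinarith
  have hμdef : ∃ μ : ℝ, μ = √(m : ℝ) := ⟨_, rfl⟩
  obtain ⟨μ, hμdef⟩ := hμdef
  have hmR : (1 : ℝ) ≤ m := by exact_mod_cast hm1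
  have hμ0 : 0 < μ := by rw [hμdef]; exact Real.sqrt_pos.2 (by linarith)
  have hμ : μ ^ 2 = m := by rw [hμdef]; exact Real.sq_sqrt (by linarith)
  have hm' : 4 * κ ^ 2 ≤ m := by
    rw [hκ]; exact_mod_cast hm4
  have hM1 : ((2 * (m + t + 1) + 1 : ℕ) : ℝ) ≤ κ * m := by
    rw [hκ]
    have : 2 * (m + t + 1) + 1 ≤ κ₀ * m := by omega
    exact_mod_cast this
  have hB := BC_pair (κ := κ) (μ := μ) (K := K) (D := D) (m := m) (t := t) h0 h1 hβ hD hk1 hk2 hk3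
    hκ8 hm' hμ0 hμ hM1 (by omega)
  rw [← hKKdef] at hB
  -- comparing `μ ^ 3` with `n ^ (3 / 2)`
  have hn0 : 0 < n := by omega
  have hnR : (0 : ℝ) < n := by exact_mod_cast hn0
  have hnκ : (n : ℝ) ≤ κ * m := by
    rw [hκ]
    have : n ≤ κ₀ * m := by omega
    exact_mod_cast this
  have hNle : (n : ℝ) ^ (3 / 2 : ℝ) ≤ κ ^ (3 / 2 : ℝ) * μ ^ 3 := by
    have e : (m : ℝ) ^ (3 / 2 : ℝ) = μ ^ 3 := by
      rw [hμdef, Real.sqrt_eq_rpow, ← Real.rpow_natCast, ← Real.rpow_mul (by positivity)]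
      norm_num
    rw [← e, ← Real.mul_rpow hκ0.le (by positivity)]
    exact Real.rpow_le_rpow hnR.le hnκ (by norm_num)
  have hμ3 : 0 < μ ^ 3 := by positivity
  have hN0 : 0 < (n : ℝ) ^ (3 / 2 : ℝ) := by positivity
  have hcmp : (KK + 8) / μ ^ 3 ≤ κ ^ (3 / 2 : ℝ) * (KK + 8) / (n : ℝ) ^ (3 / 2 : ℝ) := by
    rw [div_le_div_iff₀ hμ3 hN0]
    have hp : 0 ≤ KK + 8 := by linarith
    nlinarith [mul_le_mul_of_nonneg_left hNle hp]
  have hfin : 1 - κ ^ (3 / 2 : ℝ) * (KK + 8) / (n : ℝ) ^ (3 / 2 : ℝ) ≤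
      BC q (alt m ++ true :: alt (t + 1)) (alt (m + 1) ++ true :: alt t) := by linarith
  obtain ⟨l1, l2⟩ := alt_pair_length m t
  have hne := alt_pair_ne m t
  obtain hn1 | hn2 : n = 2 * M + 1 ∨ n = 2 * M + 2 := by omega
  · refine ⟨alt m ++ true :: alt (t + 1), alt (m + 1) ++ true :: alt t, ?_, ?_, hne, hfin⟩
    · rw [l1, hn1, ht]
    · rw [l2, hn1, ht]
  · refine ⟨true :: (alt m ++ true :: alt (t + 1)), true :: (alt (m + 1) ++ true :: alt t),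
      ?_, ?_, ?_, hfin.trans (BC_cons h0.le h1.le _ _ (by rw [l1, l2]))⟩
    · rw [List.length_cons, l1, hn2, ht]
    · rw [List.length_cons, l2, hn2, ht]
    · intro h
      exact hne (List.cons.inj h).2

/-- The main theorem: worst-case trace reconstruction needs at least `c n^(3/2)` traces. -/
theorem main (h0 : 0 < q) (h1 : q < 1) : ∃ c : ℝ, 0 < c ∧ ∃ n₀ : ℕ, ∀ n ≥ n₀, ∀ m : ℕ,
    ∀ est : (Fin m → List Bool) → PMF (List Bool),
      (∀ x : List Bool, x.length = n → 2 / 3 ≤ successProb q m est x) →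
        c * (n : ℝ) ^ (3 / 2 : ℝ) ≤ m := by
  obtain ⟨C, hC, n₀, hcore⟩ := core h0 h1
  refine ⟨1 / (18 * C), by positivity, max n₀ (⌈C⌉₊ + 1), ?_⟩
  intro n hn m est hs
  have hn1 : n₀ ≤ n := le_trans (le_max_left _ _) hn
  have hn2 : ⌈C⌉₊ + 1 ≤ n := le_trans (le_max_right _ _) hn
  have hn3 : C ≤ n := by
    have h3 : (⌈C⌉₊ : ℝ) ≤ n := by
      have : ⌈C⌉₊ ≤ n := by omega
      exact_mod_cast this
    exact (Nat.le_ceil C).trans h3
  have hn4 : (1 : ℝ) ≤ n := by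
    have : 1 ≤ n := by omega
    exact_mod_cast this
  have hN : (n : ℝ) ≤ (n : ℝ) ^ (3 / 2 : ℝ) :=
    Real.self_le_rpow_of_one_le hn4 (by norm_num)
  set N : ℝ := (n : ℝ) ^ (3 / 2 : ℝ) with hNdef
  have hN0 : 0 < N := by linarith
  have hε : C / N ≤ 1 := by
    rw [div_le_one hN0]; linarith
  have hε0 : 0 ≤ C / N := by positivity
  obtain ⟨x, y, hx, hy, hne, hBC⟩ := hcore n hn1
  have hpair := success_pair h0.le h1.le m est x y hne (by omega) (hs x hx) (hs y hy)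
  have h1ε : 0 ≤ 1 - C / N := by linarith
  have hpow : (1 - C / N) ^ (2 * m) ≤ BC q x y ^ (2 * m) := pow_le_pow_left₀ h1ε hBC _
  have hbern := one_add_mul_le_pow (a := -(C / N)) (by linarith) (2 * m)
  have e : 1 + -(C / N) = 1 - C / N := by ring
  rw [e] at hbern
  have hlast : (1 : ℝ) + ((2 * m : ℕ) : ℝ) * -(C / N) ≤ 8 / 9 := by linarith
  push_cast at hlast
  have h2 : 1 / 9 ≤ 2 * (m : ℝ) * (C / N) := by linarith
  have h3 : 1 / 9 * N ≤ 2 * (m : ℝ) * C := by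
    have e2 : 2 * (m : ℝ) * (C / N) = 2 * (m : ℝ) * C / N := by ring
    rw [e2, le_div_iff₀ hN0] at h2
    exact h2
  have e3 : 1 / (18 * C) * N = (1 / 9 * N) / (2 * C) := by
    field_simp
    norm_num
  rw [e3, div_le_iff₀ (by positivity)]
  linarith

end

end Vale.Agent.Lib.P321
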