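import Vale.Agent.Lib.P321.Assemble

/-!
# P321: the Hellinger distance of the two trace laws
-/

namespace Vale.Agent.Lib.P321

/-- The Bhattacharyya coefficient of the trace laws of `x` and `y`. -/
noncomputable def BC (q : ℝ) (x y : List Bool) : ℝ :=
  SumAll x.length (fun T => √(traceProb q x T * traceProb q y T))

theorem sqrt_sub_sq_le {P Q : ℝ} (hP : 0 ≤ P) (hQ : 0 ≤ Q) : (√P - √Q) ^ 2 ≤ P + Q := by
  have h1 := Real.sq_sqrt hP
  have h2 := Real.sq_sqrt hQ
  have h3 := Real.sqrt_nonneg P
  have h4 := Real.sqrt_nonneg Q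
  nlinarith [mul_nonneg h3 h4]

theorem sqrt_sub_sq_mul {P Q : ℝ} (hP : 0 ≤ P) (hQ : 0 ≤ Q) :
    (√P - √Q) ^ 2 * (P + Q) ≤ (P - Q) ^ 2 := by
  have h1 := Real.sq_sqrt hP
  have h2 := Real.sq_sqrt hQ
  have h3 := Real.sqrt_nonneg P
  have h4 := Real.sqrt_nonneg Q
  set a := √P
  set b := √Q
  rw [← h1, ← h2]
  have : 0 ≤ (a - b) ^ 2 * (2 * (a * b)) := by positivity
  nlinarith

/-- The comparison of the square-root difference with the exact difference. -/
theorem typ_pointwise {q P Q R c : ℝ} (hq : 0 < q) (hR : 0 ≤ R) (hP : q * R ≤ P) (hQ : q * R ≤ Q)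
    (hPQ : P - Q = R * (q * c)) : (√P - √Q) ^ 2 ≤ q / 2 * (R * c ^ 2) := by
  rcases hR.eq_or_lt with h | h
  · subst h
    have : P = Q := by linarith
    subst this
    simp
  · have hP0 : 0 ≤ P := le_trans (by positivity) hP
    have hQ0 : 0 ≤ Q := le_trans (by positivity) hQ
    have h1 := sqrt_sub_sq_mul hP0 hQ0
    have h2 : 2 * q * R ≤ P + Q := by linarith
    have h3 : (√P - √Q) ^ 2 * (2 * q * R) ≤ (√P - √Q) ^ 2 * (P + Q) :=
      mul_le_mul_of_nonneg_left h2 (by positivity)
    have h4 : (√P - √Q) ^ 2 * (2 * q * R) ≤ (q / 2 * (R * c ^ 2)) * (2 * q * R) := by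
      rw [hPQ] at h1
      calc _ ≤ _ := h3
        _ ≤ _ := h1
        _ = _ := by ring
    exact le_of_mul_le_mul_right h4 (by positivity)

theorem onesSum_nonneg {A B : List Bool → ℝ} (hA : ∀ τ, 0 ≤ A τ) (hB : ∀ τ, 0 ≤ B τ)
    (T : List Bool) : 0 ≤ onesSum A B T := by
  induction T generalizing A with
  | nil => simp [onesSum]
  | cons c T ih =>
    simp only [onesSum]
    have := ih (A := fun τ => A (c :: τ)) (fun τ => hA _)
    split_ifs
    · have := mul_nonneg (hA []) (hB T)
      linarith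
    · linarith

section

variable {q κ μ : ℝ} {m t D : ℕ}

theorem hell_eq (h0 : 0 ≤ q) (h1 : q ≤ 1) (x y : List Bool) (hl : y.length = x.length) :
    SumAll x.length (fun T => (√(traceProb q x T) - √(traceProb q y T)) ^ 2) =
      2 - 2 * BC q x y := by
  have e : (fun T => (√(traceProb q x T) - √(traceProb q y T)) ^ 2) = fun T =>
      traceProb q x T + (traceProb q y T + (-2) * √(traceProb q x T * traceProb q y T)) := by
    funext T
    have hP := traceProb_nonneg h0 h1 x T
    have hQ := traceProb_nonneg h0 h1 y T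
    rw [Real.sqrt_mul hP, sub_sq, Real.sq_sqrt hP, Real.sq_sqrt hQ]
    ring
  rw [e, SumAll_add, SumAll_add, SumAll_mul, sum_trace_eq_one]
  have := sum_trace_eq_one q y
  rw [hl] at this
  rw [this, BC]
  ring

/-- The indicator of the atypical strings. -/
noncomputable def indT (m M D : ℕ) (T : List Bool) : ℝ := if TypT m M D T then 0 else 1

/-- The total typical contribution. -/
theorem typ_total {M : ℕ} (hq0 : 0 < q) (hq1 : q < 1) (hκ : 8 ≤ κ) (hm : 4 * κ ^ 2 ≤ m)
    (hμ0 : 0 < μ) (hμ : μ ^ 2 = m) (hM1 : ((2 * M + 1 : ℕ) : ℝ) ≤ κ * m) (hD : 1 ≤ D)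
    (hMpos : 1 ≤ M) :
    SumAll (2 * M + 1) (fun T => if TypT m M D T then
        traceProb q (alt M) T * chainSum T.length (freeT M T) (m : ℤ) 0 true T ^ 2 else 0) ≤
      2 * (Kfin κ (κ ^ 2 / (1 / (2 * (D : ℝ)))) / μ ^ 3) := by
  have e1 : SumAll (2 * M + 1) (traceProb q (alt M)) = 1 := by
    have h1 := sum_trace_eq_one q (alt M)
    rw [alt_length] at h1
    unfold SumAll at h1 ⊢
    rw [Finset.sum_range_succ _ (2 * M + 1), h1]
    have : SumL (2 * M + 1) (traceProb q (alt M)) = 0 := by
      rw [SumL_congr _ (ψ := fun _ => 0) (fun T hT => by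
        rw [traceProb_long q (alt M) T (by rw [alt_length]; omega)])]
      exact SumL_const_zero _
    rw [this]; simp
  generalize hCC : 2 * (Kfin κ (κ ^ 2 / (1 / (2 * (D : ℝ)))) / μ ^ 3) = C at *
  have h2 : SumAll (2 * M + 1) (fun T => if TypT m M D T then
        traceProb q (alt M) T * chainSum T.length (freeT M T) (m : ℤ) 0 true T ^ 2 else 0) ≤
      C * SumAll (2 * M + 1) (traceProb q (alt M)) := by
    unfold SumAll
    rw [Finset.mul_sum]
    apply Finset.sum_le_sum
    intro N hN
    have hN' : N ≤ 2 * M + 1 := by have := Finset.mem_range.1 hN; omega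
    have := typ_length (N := N) hq0 hq1 hκ hm hμ0 hμ hM1 hD hMpos hN'
    rwa [hCC] at this
  rw [e1, mul_one] at h2
  exact h2

/-- The main Hellinger inequality for the pair of strings. -/
theorem hell_le (hq0 : 0 < q) (hq1 : q < 1) (hκ : 8 ≤ κ) (hm : 4 * κ ^ 2 ≤ m)
    (hμ0 : 0 < μ) (hμ : μ ^ 2 = m) (hM1 : ((2 * (m + t + 1) + 1 : ℕ) : ℝ) ≤ κ * m) (hD : 1 ≤ D) :
    2 - 2 * BC q (alt m ++ true :: alt (t + 1)) (alt (m + 1) ++ true :: alt t) ≤
      q * (Kfin κ (κ ^ 2 / (1 / (2 * (D : ℝ)))) / μ ^ 3) +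
        Ex q (alt m ++ true :: alt (t + 1)) (indT m (m + t + 1) D) +
        Ex q (alt (m + 1) ++ true :: alt t) (indT m (m + t + 1) D) := by
  set x := alt m ++ true :: alt (t + 1) with hx
  set y := alt (m + 1) ++ true :: alt t with hy
  set M := m + t + 1 with hM
  have hxl : x.length = 2 * M + 1 := by
    simp only [hx, List.length_append, List.length_cons, alt_length]
    omega
  have hyl : y.length = 2 * M + 1 := by
    simp only [hy, List.length_append, List.length_cons, alt_length]
    omega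
  have hq0' := hq0.le
  have hq1' := hq1.le
  have hp : 0 ≤ 1 - q := by linarith
  rw [← hell_eq hq0' hq1' x y (by omega), Ex_eq_sum, Ex_eq_sum, hxl, hyl]
  set C := 2 * (Kfin κ (κ ^ 2 / (1 / (2 * (D : ℝ)))) / μ ^ 3) with hC
  have htot := typ_total (M := M) hq0 hq1 hκ hm hμ0 hμ hM1 hD (by omega)
  rw [← hC] at htot
  have hpt : ∀ T : List Bool, (√(traceProb q x T) - √(traceProb q y T)) ^ 2 ≤
      q / 2 * (if TypT m M D T then
        traceProb q (alt M) T * chainSum T.length (freeT M T) (m : ℤ) 0 true T ^ 2 else 0) +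
      (traceProb q x T * indT m M D T + traceProb q y T * indT m M D T) := by
    intro T
    have hP := traceProb_nonneg hq0' hq1' x T
    have hQ := traceProb_nonneg hq0' hq1' y T
    have hR := traceProb_nonneg hq0' hq1' (alt M) T
    unfold indT
    by_cases hT : TypT m M D T
    · rw [if_pos hT, if_pos hT]
      simp only [mul_zero, add_zero]
      have hty := hT
      unfold TypT Typ at hty
      obtain ⟨t1, t2, t3⟩ := hty
      have ht := tok_class (T := T) rfl rfl
      have hS : ((freeT M T : ℕ) : ℤ) = ((m + t + 1 : ℕ) : ℤ) - tok T := by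
        unfold freeT
        rw [Nat.cast_sub (by omega)]
      have hdiff := traceProb_diff hq0 m t (freeT M T) T hS
      have d1 := traceProb_defect q m (t + 1) T
      have d2 := traceProb_defect q (m + 1) t T
      have a1 : m + (t + 1) = M := by omega
      have a2 : m + 1 + t = M := by omega
      rw [a1] at d1
      rw [a2] at d2
      have n1 : 0 ≤ onesSum (traceProb q (alt m)) (traceProb q (alt (t + 1))) T :=
        onesSum_nonneg (traceProb_nonneg hq0' hq1' _) (traceProb_nonneg hq0' hq1' _) T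
      have n2 : 0 ≤ onesSum (traceProb q (alt (m + 1))) (traceProb q (alt t)) T :=
        onesSum_nonneg (traceProb_nonneg hq0' hq1' _) (traceProb_nonneg hq0' hq1' _) T
      apply typ_pointwise hq0 hR
      · rw [hx, d1]
        have := mul_nonneg hp n1
        linarith
      · rw [hy, d2]
        have := mul_nonneg hp n2
        linarith
      · exact hdiff
    · rw [if_neg hT, if_neg hT]
      simp only [mul_zero, zero_add, mul_one]
      exact sqrt_sub_sq_le hP hQ
  refine le_trans (SumAll_mono _ (fun T _ => hpt T)) ?_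
  rw [SumAll_add, SumAll_add, SumAll_mul]
  have hq2 : q / 2 * SumAll (2 * M + 1) (fun T => if TypT m M D T then
        traceProb q (alt M) T * chainSum T.length (freeT M T) (m : ℤ) 0 true T ^ 2 else 0) ≤
      q / 2 * C := mul_le_mul_of_nonneg_left htot (by positivity)
  have e : q / 2 * C = q * (Kfin κ (κ ^ 2 / (1 / (2 * (D : ℝ)))) / μ ^ 3) := by
    rw [hC]; ring
  linarith

/-- The tail bound for a string with a defect. -/
theorem tail_defect {β : ℝ} (hq0 : 0 < q) (hq1 : q < 1) (hβ : β = 1 + (1 - q) ^ 2 / 4)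
    (hD : 4 ≤ β ^ D) (s t m : ℕ) :
    Ex q (alt s ++ true :: alt t) (indT m (s + t) D) ≤
      2 ^ (8 * m) * (1 - (1 - q) / 2) ^ (2 * (s + t) + 1) +
      (2 ^ (2 * m) * (2 * (1 - q ^ 2 / 2) ^ (s + t)) + (1 - (1 - q) ^ 2 / 2) ^ (s + t)) := by
  set M := s + t with hM
  have hq0' := hq0.le
  have hq1' := hq1.le
  have hp : 0 < 1 - q := by linarith
  have hβ1 : 1 ≤ β := by rw [hβ]; nlinarith [sq_nonneg (1 - q)]
  have hβ0 : 0 < β := by linarith
  set l : ℝ := (β ^ D)⁻¹ with hl
  have hl0 : 0 < l := by positivity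
  have hl4 : l ≤ 1 / 4 := by
    rw [hl, one_div]
    exact inv_anti₀ (by norm_num) hD
  have hl1 : l ≤ 1 := by linarith
  set A₁ : List Bool → ℝ := fun T => 2 ^ (8 * m) * (1 / 2 : ℝ) ^ T.length with hA₁
  set A₂ : List Bool → ℝ := fun T => 2 ^ (2 * m) * (1 / 2 : ℝ) ^ (((s + t : ℕ) : ℤ) - tok T) with hA₂
  set A₃ : List Bool → ℝ := fun T => β ^ M * l ^ (cz T) with hA₃
  have h10 : ∀ T, 0 ≤ A₁ T := fun T => by simp only [hA₁]; positivity
  have h20 : ∀ T, 0 ≤ A₂ T := fun T => by simp only [hA₂]; positivity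
  have h30 : ∀ T, 0 ≤ A₃ T := fun T => by simp only [hA₃]; positivity
  have hbd : ∀ T, indT m M D T ≤ A₁ T + (A₂ T + A₃ T) := by
    intro T
    have p1 := h10 T
    have p2 := h20 T
    have p3 := h30 T
    unfold indT
    by_cases hT : TypT m M D T
    · rw [if_pos hT]; linarith
    · rw [if_neg hT]
      have ht := tok_class (T := T) rfl rfl
      have hs := stay_le true T
      unfold TypT Typ at hT
      rw [← ht] at hT
      by_cases c1 : 8 * m ≤ T.length
      · by_cases c2 : tok T + 2 * m ≤ M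
        · have c3 : D * ((T.length - stay true T) / 2) < M := by
            by_contra hh
            exact hT ⟨c1, c2, by omega⟩
          -- the third tail
          have hcz : cz T = (((T.length - stay true T) / 2 : ℕ) : ℤ) := by
            unfold cz
            have := tok_eq T
            omega
          have : (1 : ℝ) ≤ A₃ T := by
            simp only [hA₃]
            rw [hcz, hl, zpow_natCast, inv_pow, ← pow_mul]
            have hle : D * ((T.length - stay true T) / 2) ≤ M := c3.le
            have e : β ^ M = β ^ (D * ((T.length - stay true T) / 2)) *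
                β ^ (M - D * ((T.length - stay true T) / 2)) := by
              rw [← pow_add]; congr 1; omega
            rw [e]
            have hpos : 0 < β ^ (D * ((T.length - stay true T) / 2)) := by positivity
            rw [mul_comm (β ^ (D * ((T.length - stay true T) / 2))), mul_assoc,
              mul_inv_cancel₀ hpos.ne', mul_one]
            exact one_le_pow₀ hβ1
          linarith
        · -- the second tail
          have c2' : M < tok T + 2 * m := by omega
          have : (1 : ℝ) ≤ A₂ T := by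
            simp only [hA₂]
            have e : (1 / 2 : ℝ) = 2⁻¹ := by norm_num
            rw [e, inv_zpow', ← zpow_natCast (2 : ℝ) (2 * m), ← zpow_add₀ (by norm_num)]
            apply one_le_zpow₀ (by norm_num)
            have : ((s + t : ℕ) : ℤ) = (M : ℤ) := by rw [hM]
            push_cast at this ⊢
            omega
          linarith
      · -- the first tail
        have c1' : T.length ≤ 8 * m := by omega
        have : (1 : ℝ) ≤ A₁ T := by
          simp only [hA₁]
          have e : (2 : ℝ) ^ (8 * m) = 2 ^ T.length * 2 ^ (8 * m - T.length) := by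
            rw [← pow_add]; congr 1; omega
          rw [e, mul_comm ((2 : ℝ) ^ T.length), mul_assoc, ← mul_pow]
          norm_num
          exact one_le_pow₀ (by norm_num)
        linarith
  refine le_trans (Ex_mono hq0' hq1' _ (fun T => hbd T)) ?_
  rw [Ex_add, Ex_add, Ex_mul, Ex_mul, Ex_mul, Ex_length]
  have hlen : (alt s ++ true :: alt t).length = 2 * M + 1 := by
    simp only [List.length_append, List.length_cons, alt_length]
    omega
  rw [hlen]
  have t1 : (q + (1 - q) * (1 / 2)) = 1 - (1 - q) / 2 := by ring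
  rw [t1]
  have hfree := Ex_defect_free (l := 1 / 2) hq0 hq1 (by norm_num) (by norm_num) s t
  have hcz := Ex_defect_cz (l := l) hq0 hq1 hl0 hl1 s t
  have e2 : (1 / 2 : ℝ)⁻¹ * (1 - q ^ 2 + q ^ 2 * (1 / 2)) ^ (s + t) = 2 * (1 - q ^ 2 / 2) ^ (s + t) := by
    have : 1 - q ^ 2 + q ^ 2 * (1 / 2) = 1 - q ^ 2 / 2 := by ring
    rw [this]; norm_num
  rw [e2] at hfree
  have hb1 : (2 : ℝ) ^ (2 * m) * Ex q (alt s ++ true :: alt t)
      (fun T => (1 / 2 : ℝ) ^ (((s + t : ℕ) : ℤ) - tok T)) ≤
      2 ^ (2 * m) * (2 * (1 - q ^ 2 / 2) ^ (s + t)) :=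
    mul_le_mul_of_nonneg_left hfree (by positivity)
  have hb2 : β ^ M * Ex q (alt s ++ true :: alt t) (fun T => l ^ cz T) ≤
      (1 - (1 - q) ^ 2 / 2) ^ M := by
    have h1 : β ^ M * Ex q (alt s ++ true :: alt t) (fun T => l ^ cz T) ≤
        β ^ M * (1 - (1 - q) ^ 2 + (1 - q) ^ 2 * l) ^ M :=
      mul_le_mul_of_nonneg_left hcz (by positivity)
    refine h1.trans ?_
    rw [← mul_pow]
    have hp1 : (1 - q) ^ 2 ≤ 1 := by nlinarith
    have hp0 : 0 ≤ (1 - q) ^ 2 := by positivity
    have n1 : 0 ≤ 1 - (1 - q) ^ 2 + (1 - q) ^ 2 * l := by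
      have := mul_nonneg hp0 hl0.le
      linarith
    apply pow_le_pow_left₀ (by positivity)
    have h2 : (1 - q) ^ 2 * l ≤ (1 - q) ^ 2 * (1 / 4) := mul_le_mul_of_nonneg_left hl4 hp0
    have h3 : β * (1 - (1 - q) ^ 2 + (1 - q) ^ 2 * l) ≤ β * (1 - (1 - q) ^ 2 + (1 - q) ^ 2 * (1 / 4)) :=
      mul_le_mul_of_nonneg_left (by linarith) hβ0.le
    refine h3.trans ?_
    rw [hβ]
    nlinarith [sq_nonneg ((1 - q) ^ 2)]
  linarith

end

end Vale.Agent.Lib.P321
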