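import Vale.Agent.Lib.P321.Exact

/-!
# P321: the hypergeometric kernel: ratios, total mass, sup bound and tail bound
-/

namespace Vale.Agent.Lib.P321

/-- The kernel `C(a+j,j) C(S-a+N-1-j, N-1-j) / C(S+N,N)`. -/
noncomputable def Hn (N S a j : ℕ) : ℝ :=
  ((a + j).choose j : ℝ) * (((S - a) + (N - 1 - j)).choose (N - 1 - j) : ℝ) /
    ((S + N).choose N : ℝ)

theorem Hn_nonneg (N S a j : ℕ) : 0 ≤ Hn N S a j := by
  unfold Hn; positivity

theorem Cd_pos (N S : ℕ) : (0 : ℝ) < ((S + N).choose N : ℝ) := by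
  have : 0 < (S + N).choose N := Nat.choose_pos (by omega)
  exact_mod_cast this

theorem Hn_pos {N S a j : ℕ} : 0 < Hn N S a j := by
  unfold Hn
  have h1 : 0 < (a + j).choose j := Nat.choose_pos (by omega)
  have h2 : 0 < ((S - a) + (N - 1 - j)).choose (N - 1 - j) := Nat.choose_pos (by omega)
  have h3 := Cd_pos N S
  have h1' : (0 : ℝ) < ((a + j).choose j : ℝ) := by exact_mod_cast h1
  have h2' : (0 : ℝ) < (((S - a) + (N - 1 - j)).choose (N - 1 - j) : ℝ) := by exact_mod_cast h2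
  positivity

/-- Ratio of the kernel in `a`. -/
theorem Hn_succ_a {N S a j : ℕ} (ha : a < S) (hj : j < N) :
    Hn N S (a + 1) j * (((a : ℝ) + 1) * ((S : ℝ) - a + N - 1 - j)) =
      Hn N S a j * (((a : ℝ) + j + 1) * ((S : ℝ) - a)) := by
  obtain ⟨d, rfl⟩ : ∃ d, S = a + 1 + d := ⟨S - a - 1, by omega⟩
  obtain ⟨l, rfl⟩ : ∃ l, N = j + 1 + l := ⟨N - j - 1, by omega⟩
  have e0 : a + 1 + d - (a + 1) = d := by omega
  have e0' : a + 1 + d - a = d + 1 := by omega
  have e0'' : j + 1 + l - 1 - j = l := by omega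
  unfold Hn
  rw [e0, e0', e0'']
  have e1 : (((a + 1 + j).choose j : ℕ) : ℝ) * ((a : ℝ) + 1) =
      ((a + j).choose j : ℝ) * ((a : ℝ) + j + 1) := by
    have := Nat.choose_mul_succ_eq (a + j) j
    have e : a + j + 1 - j = a + 1 := by omega
    rw [e, show a + j + 1 = a + 1 + j by ring] at this
    have h2 : ((a + j).choose j * (a + 1 + j) : ℕ) = (a + 1 + j).choose j * (a + 1) := this
    have h3 : (((a + j).choose j * (a + 1 + j) : ℕ) : ℝ) = (((a + 1 + j).choose j * (a + 1) : ℕ) : ℝ) := by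
      rw [h2]
    push_cast at h3
    linarith
  have e2 : ((d + l).choose l : ℝ) * ((d : ℝ) + l + 1) = ((d + 1 + l).choose l : ℝ) * ((d : ℝ) + 1) := by
    have := Nat.choose_mul_succ_eq (d + l) l
    have e : d + l + 1 - l = d + 1 := by omega
    rw [e, show d + l + 1 = d + 1 + l by ring] at this
    have h3 : (((d + l).choose l * (d + 1 + l) : ℕ) : ℝ) = (((d + 1 + l).choose l * (d + 1) : ℕ) : ℝ) := by
      rw [this]
    push_cast at h3
    linarith
  push_cast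
  set Cd : ℝ := (((a + 1 + d + (j + 1 + l)).choose (j + 1 + l) : ℕ) : ℝ)
  linear_combination (((d + l).choose l : ℝ) * ((d : ℝ) + l + 1) / Cd) * e1 +
    (((a + j).choose j : ℝ) * ((a : ℝ) + j + 1) / Cd) * e2

/-- Ratio of the kernel in `j`. -/
theorem Hn_succ_j {N S a j : ℕ} (ha : a ≤ S) (hj : j + 1 < N) :
    Hn N S a (j + 1) * (((j : ℝ) + 1) * ((S : ℝ) - a + N - 1 - j)) =
      Hn N S a j * (((a : ℝ) + j + 1) * ((N : ℝ) - 1 - j)) := by
  obtain ⟨d, rfl⟩ : ∃ d, S = a + d := ⟨S - a, by omega⟩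
  obtain ⟨l, rfl⟩ : ∃ l, N = j + 2 + l := ⟨N - j - 2, by omega⟩
  have e0 : a + d - a = d := by omega
  have e1' : j + 2 + l - 1 - (j + 1) = l := by omega
  have e2' : j + 2 + l - 1 - j = l + 1 := by omega
  unfold Hn
  rw [e0, e1', e2']
  have e1 : ((a + (j + 1)).choose (j + 1) : ℝ) * ((j : ℝ) + 1) =
      ((a + j).choose j : ℝ) * ((a : ℝ) + j + 1) := by
    have := Nat.add_one_mul_choose_eq (a + j) j
    have h3 : (((a + j + 1) * (a + j).choose j : ℕ) : ℝ) =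
        (((a + j + 1).choose (j + 1) * (j + 1) : ℕ) : ℝ) := by rw [this]
    push_cast at h3
    rw [show a + (j + 1) = a + j + 1 by ring]
    linarith
  have e2 : ((d + l).choose l : ℝ) * ((d : ℝ) + l + 1) =
      ((d + (l + 1)).choose (l + 1) : ℝ) * ((l : ℝ) + 1) := by
    have := Nat.add_one_mul_choose_eq (d + l) l
    have h3 : (((d + l + 1) * (d + l).choose l : ℕ) : ℝ) =
        (((d + l + 1).choose (l + 1) * (l + 1) : ℕ) : ℝ) := by rw [this]
    push_cast at h3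
    rw [show d + (l + 1) = d + l + 1 by ring]
    linarith
  push_cast
  set Cd : ℝ := (((a + d + (j + 2 + l)).choose (j + 2 + l) : ℕ) : ℝ)
  linear_combination (((d + l).choose l : ℝ) * ((d : ℝ) + l + 1) / Cd) * e1 +
    (((a + j).choose j : ℝ) * ((a : ℝ) + j + 1) / Cd) * e2

/-- Ratio of the kernel along the diagonal. -/
theorem Hn_diag {N S a j : ℕ} (ha : a + 1 ≤ S) (hj : j + 1 < N) :
    Hn N S a (j + 1) * (((j : ℝ) + 1) * ((S : ℝ) - a)) =
      Hn N S (a + 1) j * (((a : ℝ) + 1) * ((N : ℝ) - 1 - j)) := by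
  obtain ⟨d, rfl⟩ : ∃ d, S = a + 1 + d := ⟨S - a - 1, by omega⟩
  obtain ⟨l, rfl⟩ : ∃ l, N = j + 2 + l := ⟨N - j - 2, by omega⟩
  have e0 : a + 1 + d - a = d + 1 := by omega
  have e0' : a + 1 + d - (a + 1) = d := by omega
  have e1' : j + 2 + l - 1 - (j + 1) = l := by omega
  have e2' : j + 2 + l - 1 - j = l + 1 := by omega
  unfold Hn
  rw [e0, e0', e1', e2']
  have e1 : ((a + (j + 1)).choose (j + 1) : ℝ) * ((j : ℝ) + 1) =
      ((a + 1 + j).choose j : ℝ) * ((a : ℝ) + 1) := by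
    have := Nat.choose_succ_right_eq (a + 1 + j) j
    have e : a + 1 + j - j = a + 1 := by omega
    rw [e] at this
    have h3 : (((a + 1 + j).choose (j + 1) * (j + 1) : ℕ) : ℝ) =
        (((a + 1 + j).choose j * (a + 1) : ℕ) : ℝ) := by rw [this]
    push_cast at h3
    rw [show a + (j + 1) = a + 1 + j by ring]
    linarith
  have e2 : ((d + 1 + l).choose l : ℝ) * ((d : ℝ) + 1) =
      ((d + (l + 1)).choose (l + 1) : ℝ) * ((l : ℝ) + 1) := by
    have := Nat.choose_succ_right_eq (d + 1 + l) l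
    have e : d + 1 + l - l = d + 1 := by omega
    rw [e] at this
    have h3 : (((d + 1 + l).choose (l + 1) * (l + 1) : ℕ) : ℝ) =
        (((d + 1 + l).choose l * (d + 1) : ℕ) : ℝ) := by rw [this]
    push_cast at h3
    rw [show d + (l + 1) = d + 1 + l by ring]
    linarith
  push_cast
  set Cd : ℝ := (((a + 1 + d + (j + 2 + l)).choose (j + 2 + l) : ℕ) : ℝ)
  linear_combination (((d + 1 + l).choose l : ℝ) * ((d : ℝ) + 1) / Cd) * e1 +
    (((a + 1 + j).choose j : ℝ) * ((a : ℝ) + 1) / Cd) * e2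

/-- Total mass of the kernel at a fixed level. -/
theorem sum_choose_mul_choose (j l S : ℕ) :
    ∑ a ∈ Finset.range (S + 1), (a + j).choose j * ((S - a) + l).choose l =
      (S + (j + l + 1)).choose (j + l + 1) := by
  induction l generalizing S with
  | zero =>
    simp only [add_zero, Nat.choose_zero_right, mul_one]
    induction S with
    | zero => simp
    | succ S ih =>
      rw [Finset.sum_range_succ, ih]
      have e1 : S + 1 + (j + 1) = (S + j + 1) + 1 := by ring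
      have e2 : S + (j + 1) = S + j + 1 := by ring
      rw [e1, e2, Nat.choose_succ_succ' (S + j + 1) j]
      rw [show S + 1 + j = S + j + 1 by ring]
      ring
  | succ l ihl =>
    induction S with
    | zero =>
      simp
    | succ S ihS =>
      -- Pascal in the second factor
      have key : ∀ a ∈ Finset.range (S + 1 + 1),
          (a + j).choose j * ((S + 1 - a) + (l + 1)).choose (l + 1) =
            (a + j).choose j * ((S + 1 - a) + l).choose l +
              (if a ≤ S then (a + j).choose j * ((S - a) + (l + 1)).choose (l + 1) else 0) := by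
        intro a ha
        have ha' : a ≤ S + 1 := by simpa [Nat.lt_succ_iff] using ha
        split_ifs with h
        · have e : S + 1 - a = (S - a) + 1 := by omega
          rw [e, show (S - a) + 1 + (l + 1) = ((S - a) + 1 + l) + 1 by ring,
            Nat.choose_succ_succ' ((S - a) + 1 + l) l,
            show (S - a) + 1 + l = (S - a) + (l + 1) by ring]
          ring
        · have e : a = S + 1 := by omega
          subst e
          simp
      rw [Finset.sum_congr rfl key, Finset.sum_add_distrib, ihl (S + 1)]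
      rw [Finset.sum_range_succ (fun a => if a ≤ S then _ else 0) (S + 1)]
      have e3 : ∑ x ∈ Finset.range (S + 1),
          (if x ≤ S then (x + j).choose j * ((S - x) + (l + 1)).choose (l + 1) else 0) =
          ∑ x ∈ Finset.range (S + 1), (x + j).choose j * ((S - x) + (l + 1)).choose (l + 1) := by
        apply Finset.sum_congr rfl
        intro x hx
        have : x ≤ S := by simpa [Nat.lt_succ_iff] using hx
        simp [this]
      rw [e3, ihS]
      simp only [show ¬ (S + 1 ≤ S) by omega, if_false, add_zero]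
      have e4 : S + 1 + (j + (l + 1) + 1) = (S + 1 + (j + l + 1)) + 1 := by ring
      have e5 : j + (l + 1) + 1 = (j + l + 1) + 1 := by ring
      rw [e4, e5, Nat.choose_succ_succ' (S + 1 + (j + l + 1)) (j + l + 1)]
      congr 2
      ring

theorem sum_Hn_eq_one {N S j : ℕ} (hj : j < N) :
    ∑ a ∈ Finset.range (S + 1), Hn N S a j = 1 := by
  obtain ⟨l, rfl⟩ : ∃ l, N = j + l + 1 := ⟨N - j - 1, by omega⟩
  have hC := Cd_pos (j + l + 1) S
  unfold Hn
  rw [← Finset.sum_div, div_eq_one_iff_eq hC.ne']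
  have e : j + l + 1 - 1 - j = l := by omega
  rw [e]
  have := sum_choose_mul_choose j l S
  exact_mod_cast this

theorem Hn_le_one {N S a j : ℕ} (ha : a ≤ S) (hj : j < N) : Hn N S a j ≤ 1 := by
  rw [← sum_Hn_eq_one (S := S) hj]
  exact Finset.single_le_sum (f := fun a => Hn N S a j) (fun i _ => Hn_nonneg _ _ _ _)
    (Finset.mem_range.2 (Nat.lt_succ_of_le ha))

/-- The linear form governing the ratio of the kernel in `a`. -/
noncomputable def X0 (N S a j : ℕ) : ℝ :=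
  (a : ℝ) * ((N : ℝ) - 1) - (j : ℝ) * S + ((N : ℝ) - 1 - j)

/-- The exact ratio of the kernel in `a` in terms of `X0`. -/
theorem Hn_succ_a' {N S a j : ℕ} (ha : a < S) (hj : j < N) :
    Hn N S (a + 1) j * (((a : ℝ) + 1) * ((S : ℝ) - a + N - 1 - j)) =
      Hn N S a j * (((a : ℝ) + 1) * ((S : ℝ) - a + N - 1 - j) - X0 N S a j) := by
  rw [Hn_succ_a ha hj]
  unfold X0
  ring

theorem step_down {N S a j : ℕ} (ha : a < S) (hj : j < N) {Y D : ℝ} (hY : 0 ≤ Y) (hD : 0 < D)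
    (hX : Y ≤ X0 N S a j) (hden : ((a : ℝ) + 1) * ((S : ℝ) - a + N - 1 - j) ≤ D) :
    Hn N S (a + 1) j * (1 + Y / D) ≤ Hn N S a j := by
  have hv : (0 : ℝ) < (S : ℝ) - a + N - 1 - j := by
    have h1 : (a : ℝ) + 1 ≤ S := by exact_mod_cast ha
    have h2 : (j : ℝ) + 1 ≤ N := by exact_mod_cast hj
    linarith
  have ha0 : (0 : ℝ) < (a : ℝ) + 1 := by positivity
  set W : ℝ := ((a : ℝ) + 1) * ((S : ℝ) - a + N - 1 - j) with hW
  have hW0 : 0 < W := mul_pos ha0 hv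
  have e := Hn_succ_a' ha hj
  rw [← hW] at e
  have h0 := Hn_nonneg N S a j
  have h1 := Hn_nonneg N S (a + 1) j
  have e1 : Hn N S (a + 1) j * W ≤ Hn N S a j * (W - Y) := by
    rw [e]
    exact mul_le_mul_of_nonneg_left (by linarith) h0
  have e2 : (W - Y) * (1 + Y / D) ≤ W := by
    have e3 : Y / W ≥ Y / D := div_le_div_of_nonneg_left hY hW0 hden
    have e4 : W * (Y / D) ≤ Y := by
      have : Y / D * D = Y := by field_simp
      nlinarith [div_nonneg hY hD.le]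
    nlinarith [div_nonneg hY hD.le]
  have e5 : Hn N S (a + 1) j * (1 + Y / D) * W ≤ Hn N S a j * W := by
    have hh : 0 ≤ 1 + Y / D := by positivity
    calc Hn N S (a + 1) j * (1 + Y / D) * W = (Hn N S (a + 1) j * W) * (1 + Y / D) := by ring
      _ ≤ (Hn N S a j * (W - Y)) * (1 + Y / D) := mul_le_mul_of_nonneg_right e1 hh
      _ = Hn N S a j * ((W - Y) * (1 + Y / D)) := by ring
      _ ≤ Hn N S a j * W := mul_le_mul_of_nonneg_left e2 h0
  exact le_of_mul_le_mul_right e5 hW0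

theorem step_up {N S a j : ℕ} (ha : a < S) (hj : j < N) {Y D : ℝ} (hY : 0 ≤ Y) (hD : 0 < D)
    (hX : X0 N S a j ≤ -Y) (hden : ((a : ℝ) + 1) * ((S : ℝ) - a + N - 1 - j) ≤ D) :
    Hn N S a j * (1 + Y / D) ≤ Hn N S (a + 1) j := by
  have hv : (0 : ℝ) < (S : ℝ) - a + N - 1 - j := by
    have h1 : (a : ℝ) + 1 ≤ S := by exact_mod_cast ha
    have h2 : (j : ℝ) + 1 ≤ N := by exact_mod_cast hj
    linarith
  have ha0 : (0 : ℝ) < (a : ℝ) + 1 := by positivity
  set W : ℝ := ((a : ℝ) + 1) * ((S : ℝ) - a + N - 1 - j) with hW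
  have hW0 : 0 < W := mul_pos ha0 hv
  have e := Hn_succ_a' ha hj
  rw [← hW] at e
  have h0 := Hn_nonneg N S a j
  have e1 : Hn N S a j * (W + Y) ≤ Hn N S (a + 1) j * W := by
    rw [e]
    exact mul_le_mul_of_nonneg_left (by linarith) h0
  have e4 : W * (Y / D) ≤ Y := by
    have : Y / D * D = Y := by field_simp
    nlinarith [div_nonneg hY hD.le]
  have e5 : Hn N S a j * (1 + Y / D) * W ≤ Hn N S (a + 1) j * W := by
    calc Hn N S a j * (1 + Y / D) * W = Hn N S a j * (W + W * (Y / D)) := by ring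
      _ ≤ Hn N S a j * (W + Y) := mul_le_mul_of_nonneg_left (by linarith) h0
      _ ≤ _ := e1
  exact le_of_mul_le_mul_right e5 hW0

/-- Iterating a geometric decrease. -/
theorem geom_down (f : ℕ → ℝ) (θ : ℝ) (hθ : 0 ≤ θ) (k : ℕ)
    (h : ∀ i < k, f (i + 1) * (1 + θ) ≤ f i) : f k * (1 + θ) ^ k ≤ f 0 := by
  induction k with
  | zero => simp
  | succ k ih =>
    have h1 := ih (fun i hi => h i (by omega))
    have h2 := h k (by omega)
    calc f (k + 1) * (1 + θ) ^ (k + 1) = (f (k + 1) * (1 + θ)) * (1 + θ) ^ k := by ring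
      _ ≤ f k * (1 + θ) ^ k := mul_le_mul_of_nonneg_right h2 (by positivity)
      _ ≤ f 0 := h1

/-- Bernoulli in cubed form. -/
theorem cube_bernoulli (θ : ℝ) (hθ : 0 ≤ θ) (k : ℕ) :
    (1 + (k : ℝ) * θ) ^ 3 ≤ (1 + θ) ^ (3 * k) := by
  have h1 : 1 + (k : ℝ) * θ ≤ (1 + θ) ^ k := one_add_mul_le_pow (by linarith) k
  have h2 : (0 : ℝ) ≤ 1 + (k : ℝ) * θ := by positivity
  calc (1 + (k : ℝ) * θ) ^ 3 ≤ ((1 + θ) ^ k) ^ 3 := pow_le_pow_left₀ h2 h1 3
    _ = (1 + θ) ^ (3 * k) := by rw [← pow_mul]; ring_nf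

/-- Decay above the ridge. -/
theorem Hn_decay_up {κ : ℝ} (hκ : 8 ≤ κ) {m N S a j k : ℕ} (hm : 1 ≤ m) (h8 : 8 * m ≤ N)
    (h2 : 2 * m ≤ S) (hN : (N : ℝ) ≤ κ * m) (hS : (S : ℝ) ≤ κ * m) (ha : a ≤ m + 1)
    (hj : j ≤ 3 * m) {Ω : ℝ} (hΩ : ∀ a', a' ≤ S → Hn N S a' j ≤ Ω)
    (hpos : 0 ≤ X0 N S a j) (hk2 : (k : ℝ) * (6 * N) ≤ X0 N S a j) :
    Hn N S a j * (1 + (X0 N S a j / 2) / (2 * κ ^ 2 * m ^ 2)) ^ (3 * k) ≤ Ω := by
  have hm0 : (1 : ℝ) ≤ m := by exact_mod_cast hm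
  have hN0 : (8 : ℝ) * m ≤ N := by exact_mod_cast h8
  have hS0 : (2 : ℝ) * m ≤ S := by exact_mod_cast h2
  have ha0 : (a : ℝ) ≤ m + 1 := by exact_mod_cast ha
  have hκ0 : (0 : ℝ) < κ := by linarith
  have hm1 : (0 : ℝ) < m := by linarith
  have hNpos : (0 : ℝ) < N := by nlinarith
  have hjN : j < N := by omega
  have hX₀le : X0 N S a j ≤ ((a : ℝ) + 1) * N := by
    unfold X0
    have h1 : (0:ℝ) ≤ (j : ℝ) * S := by positivity
    have h2 : (0:ℝ) ≤ (j : ℝ) := by positivity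
    have h3 : (0:ℝ) ≤ (a : ℝ) := by positivity
    nlinarith
  have h6k : 6 * k ≤ a + 1 := by
    have h1 : (k : ℝ) * (6 * N) ≤ ((a : ℝ) + 1) * N := by linarith
    have h3 : (k : ℝ) * 6 ≤ (a : ℝ) + 1 := by
      by_contra hc
      push Not at hc
      nlinarith
    have : ((6 * k : ℕ) : ℝ) ≤ ((a + 1 : ℕ) : ℝ) := by push_cast; linarith
    exact_mod_cast this
  have h3k : 3 * k ≤ a := by omega
  obtain ⟨a', rfl⟩ : ∃ a', a = a' + 3 * k := ⟨a - 3 * k, by omega⟩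
  set Z := X0 N S (a' + 3 * k) j with hZ
  set D : ℝ := 2 * κ ^ 2 * m ^ 2 with hD
  have hDpos : 0 < D := by positivity
  have hθ0 : 0 ≤ (Z / 2) / D := by positivity
  have hstep : ∀ i < 3 * k, Hn N S (a' + (i + 1)) j * (1 + (Z / 2) / D) ≤ Hn N S (a' + i) j := by
    intro i hi
    have hlt : a' + i < S := by omega
    have e := step_down (N := N) (S := S) (a := a' + i) (j := j) hlt hjN (Y := Z / 2)
      (D := D) (by positivity) hDpos ?_ ?_
    · simpa [add_assoc] using e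
    · -- the value of X0
      have e1 : X0 N S (a' + i) j = Z - ((3 * k - i : ℕ) : ℝ) * ((N : ℝ) - 1) := by
        rw [hZ]; unfold X0
        have : ((3 * k - i : ℕ) : ℝ) = 3 * (k : ℝ) - i := by
          rw [Nat.cast_sub hi.le]; push_cast; ring
        rw [this]; push_cast; ring
      rw [e1]
      have e2 : ((3 * k - i : ℕ) : ℝ) ≤ 3 * k := by
        have : 3 * k - i ≤ 3 * k := Nat.sub_le _ _
        exact_mod_cast this
      have e3 : (0:ℝ) ≤ (N : ℝ) - 1 := by linarith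
      have e4 : ((3 * k - i : ℕ) : ℝ) * ((N : ℝ) - 1) ≤ 3 * k * N := by
        have h1 : (0:ℝ) ≤ (k : ℝ) := by positivity
        have h0 : (0:ℝ) ≤ ((3 * k - i : ℕ) : ℝ) := by positivity
        nlinarith
      nlinarith
    · have hi1 : ((a' + i : ℕ) : ℝ) + 1 ≤ m + 1 := by
        have : a' + i + 1 ≤ a' + 3 * k := by omega
        have h3 : ((a' + i + 1 : ℕ) : ℝ) ≤ ((a' + 3 * k : ℕ) : ℝ) := by exact_mod_cast this
        push_cast at h3 ha0 ⊢
        linarith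
      have hi0 : (0:ℝ) ≤ ((a' + i : ℕ) : ℝ) := by positivity
      have hv0 : (S : ℝ) - ((a' + i : ℕ) : ℝ) + N - 1 - j ≤ 2 * κ * m := by
        have : (0:ℝ) ≤ (j : ℝ) := by positivity
        linarith
      have hv1 : (0:ℝ) ≤ (S : ℝ) - ((a' + i : ℕ) : ℝ) + N - 1 - j := by
        have h1 : ((a' + i : ℕ) : ℝ) + 1 ≤ (S : ℝ) := by exact_mod_cast hlt
        have h2 : (j : ℝ) + 1 ≤ N := by exact_mod_cast hjN
        linarith
      calc (((a' + i : ℕ) : ℝ) + 1) * ((S : ℝ) - ((a' + i : ℕ) : ℝ) + N - 1 - j)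
          ≤ ((m : ℝ) + 1) * (2 * κ * m) := mul_le_mul hi1 hv0 hv1 (by positivity)
        _ ≤ D := by
          rw [hD]
          nlinarith [mul_pos hκ0 hm1, mul_pos (mul_pos hκ0 hm1) hm1]
  have := geom_down (fun i => Hn N S (a' + i) j) ((Z / 2) / D) hθ0 (3 * k) hstep
  simp only [add_zero] at this
  exact this.trans (hΩ a' (by omega))

/-- Decay below the ridge. -/
theorem Hn_decay_down {κ : ℝ} (hκ : 8 ≤ κ) {m N S a j k : ℕ} (hm : 1 ≤ m) (h8 : 8 * m ≤ N)
    (h2 : 2 * m ≤ S) (hN : (N : ℝ) ≤ κ * m) (hS : (S : ℝ) ≤ κ * m)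
    (hj : j ≤ 3 * m) {Ω : ℝ} (hΩ : ∀ a', a' ≤ S → Hn N S a' j ≤ Ω)
    (hneg : X0 N S a j ≤ 0) (hk2 : (k : ℝ) * (6 * N) ≤ - X0 N S a j) :
    Hn N S a j * (1 + ((- X0 N S a j) / 2) / (2 * κ ^ 2 * m ^ 2)) ^ (3 * k) ≤ Ω := by
  have hm0 : (1 : ℝ) ≤ m := by exact_mod_cast hm
  have hN0 : (8 : ℝ) * m ≤ N := by exact_mod_cast h8
  have hS0 : (2 : ℝ) * m ≤ S := by exact_mod_cast h2
  have hj0 : (j : ℝ) ≤ 3 * m := by exact_mod_cast hj
  have hκ0 : (0 : ℝ) < κ := by linarith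
  have hm1 : (0 : ℝ) < m := by linarith
  have hNpos : (0 : ℝ) < N := by nlinarith
  have hjN : j < N := by omega
  set Z := - X0 N S a j with hZ
  have hZ0 : 0 ≤ Z := by rw [hZ]; linarith
  set D : ℝ := 2 * κ ^ 2 * m ^ 2 with hD
  have hDpos : 0 < D := by positivity
  have hθ0 : 0 ≤ (Z / 2) / D := by positivity
  have hjS : (a : ℝ) * ((N : ℝ) - 1) + Z ≤ (j : ℝ) * S := by
    rw [hZ]; unfold X0
    have : (j : ℝ) + 1 ≤ N := by exact_mod_cast hjN
    linarith
  have hN1 : (7 : ℝ) * m ≤ (N : ℝ) - 1 := by linarith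
  have hk3 : 3 * (k : ℝ) * ((N : ℝ) - 1) ≤ Z / 2 := by
    have : (0:ℝ) ≤ (k : ℝ) := by positivity
    nlinarith
  have hbig : ((a : ℝ) + 3 * k) * ((N : ℝ) - 1) ≤ (j : ℝ) * S := by nlinarith
  have hbig2 : ((a : ℝ) + 3 * k) * 7 ≤ 3 * (S : ℝ) := by
    have h0 : (0:ℝ) ≤ (a : ℝ) + 3 * k := by positivity
    have h1 : ((a : ℝ) + 3 * k) * (7 * m) ≤ (3 * m) * S := by
      calc ((a : ℝ) + 3 * k) * (7 * m) ≤ ((a : ℝ) + 3 * k) * ((N : ℝ) - 1) :=
            mul_le_mul_of_nonneg_left hN1 h0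
        _ ≤ (j : ℝ) * S := hbig
        _ ≤ (3 * m) * S := mul_le_mul_of_nonneg_right hj0 (by positivity)
    by_contra hc
    push Not at hc
    nlinarith
  have hS2 : (2 : ℝ) ≤ S := by linarith
  have hlt3 : a + 3 * k < S := by
    have : ((a + 3 * k : ℕ) : ℝ) < (S : ℝ) := by push_cast; linarith
    exact_mod_cast this
  have hstep : ∀ i < 3 * k, Hn N S (a + i) j * (1 + (Z / 2) / D) ≤ Hn N S (a + (i + 1)) j := by
    intro i hi
    have hlt : a + i < S := by omega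
    have e := step_up (N := N) (S := S) (a := a + i) (j := j) hlt hjN (Y := Z / 2)
      (D := D) (by positivity) hDpos ?_ ?_
    · simpa [add_assoc] using e
    · have e1 : X0 N S (a + i) j = - Z + (i : ℝ) * ((N : ℝ) - 1) := by
        rw [hZ]; unfold X0; push_cast; ring
      rw [e1]
      have e2 : (i : ℝ) ≤ 3 * k := by
        have : i ≤ 3 * k := hi.le
        exact_mod_cast this
      have e3 : (i : ℝ) * ((N : ℝ) - 1) ≤ 3 * k * ((N : ℝ) - 1) :=
        mul_le_mul_of_nonneg_right e2 (by linarith)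
      linarith
    · have hi1 : ((a + i : ℕ) : ℝ) + 1 ≤ S := by exact_mod_cast hlt
      have hi0 : (0:ℝ) ≤ ((a + i : ℕ) : ℝ) := by positivity
      have hv0 : (S : ℝ) - ((a + i : ℕ) : ℝ) + N - 1 - j ≤ 2 * κ * m := by
        have : (0:ℝ) ≤ (j : ℝ) := by positivity
        linarith
      have hv1 : (0:ℝ) ≤ (S : ℝ) - ((a + i : ℕ) : ℝ) + N - 1 - j := by
        have : (j : ℝ) + 1 ≤ N := by exact_mod_cast hjN
        linarith
      calc (((a + i : ℕ) : ℝ) + 1) * ((S : ℝ) - ((a + i : ℕ) : ℝ) + N - 1 - j)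
          ≤ ((κ * m) : ℝ) * (2 * κ * m) := mul_le_mul (hi1.trans hS) hv0 hv1 (by positivity)
        _ = D := by rw [hD]; ring
  have hgeom : ∀ i, i ≤ 3 * k → Hn N S a j * (1 + (Z / 2) / D) ^ i ≤ Hn N S (a + i) j := by
    intro i
    induction i with
    | zero => simp
    | succ i ih =>
      intro hi
      have h1 := ih (by omega)
      have h2 := hstep i (by omega)
      calc Hn N S a j * (1 + (Z / 2) / D) ^ (i + 1) = (Hn N S a j * (1 + (Z / 2) / D) ^ i) * (1 + (Z / 2) / D) := by ring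
        _ ≤ Hn N S (a + i) j * (1 + (Z / 2) / D) :=
            mul_le_mul_of_nonneg_right h1 (by positivity)
        _ ≤ _ := h2
  exact (hgeom (3 * k) le_rfl).trans (hΩ _ hlt3.le)

/-- Comparing the decay with the scale of `X`. -/
theorem tail_compare {κ : ℝ} (hκ : 8 ≤ κ) {m N S a j : ℕ} (hm : 1 ≤ m) (h8 : 8 * m ≤ N)
    (hN : (N : ℝ) ≤ κ * m) (ha : a ≤ m + 1) (hj : j ≤ 3 * m) :
    1 + ((a : ℝ) * N - j * S) ^ 2 / (96 * κ ^ 3 * m ^ 3) ≤
      2 * (1 + ((⌊|X0 N S a j| / (6 * N)⌋₊ : ℕ) : ℝ) * ((|X0 N S a j| / 2) / (2 * κ ^ 2 * m ^ 2))) := by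
  have hm0 : (1 : ℝ) ≤ m := by exact_mod_cast hm
  have hN0 : (8 : ℝ) * m ≤ N := by exact_mod_cast h8
  have ha0 : (a : ℝ) ≤ m + 1 := by exact_mod_cast ha
  have hj0 : (j : ℝ) ≤ 3 * m := by exact_mod_cast hj
  have hκ0 : (0 : ℝ) < κ := by linarith
  have hm1 : (0 : ℝ) < m := by linarith
  have hNpos : (0 : ℝ) < N := by nlinarith
  set X₀ := X0 N S a j with hX₀
  set Z := |X₀| with hZ
  have hZ0 : 0 ≤ Z := abs_nonneg _
  set D : ℝ := 2 * κ ^ 2 * m ^ 2 with hD
  have hDpos : 0 < D := by positivity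
  set θ : ℝ := (Z / 2) / D with hθ
  have hθ0 : 0 ≤ θ := by positivity
  set k := ⌊Z / (6 * N)⌋₊ with hk
  have hX : ((a : ℝ) * N - j * S) ^ 2 ≤ 2 * Z ^ 2 + 2 * (κ * m) ^ 2 := by
    have e : (a : ℝ) * N - j * S = X₀ + ((a : ℝ) + j + 1 - N) := by
      rw [hX₀]; unfold X0; ring
    have h1 : |(a : ℝ) + j + 1 - N| ≤ κ * m := by
      rw [abs_le]
      constructor
      · have : (0:ℝ) ≤ (a : ℝ) + j + 1 := by positivity
        linarith
      · nlinarith
    have h2 : ((a : ℝ) + j + 1 - N) ^ 2 ≤ (κ * m) ^ 2 := by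
      rw [← sq_abs]; exact pow_le_pow_left₀ (abs_nonneg _) h1 2
    have h3 : X₀ ^ 2 = Z ^ 2 := by rw [hZ, sq_abs]
    rw [e]
    nlinarith [sq_nonneg (X₀ - ((a : ℝ) + j + 1 - N))]
  have hden : (0 : ℝ) < 96 * κ ^ 3 * m ^ 3 := by positivity
  have hkθ : 0 ≤ (k : ℝ) * θ := by positivity
  by_cases hZbig : 12 * (N : ℝ) ≤ Z
  · have hk4 : Z / (12 * N) ≤ (k : ℝ) := by
      have hy : Z / (6 * N) - 1 < (k : ℝ) := by
        have := Nat.lt_floor_add_one (Z / (6 * N))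
        linarith
      have hy2 : 2 ≤ Z / (6 * N) := by
        rw [le_div_iff₀ (by positivity)]; linarith
      have hy3 : Z / (12 * N) = Z / (6 * N) / 2 := by
        field_simp; ring
      linarith
    have hfin : Z ^ 2 / (48 * κ ^ 3 * m ^ 3) ≤ (k : ℝ) * θ := by
      have h1 : Z / (12 * N) * θ ≤ (k : ℝ) * θ := mul_le_mul_of_nonneg_right hk4 hθ0
      refine le_trans ?_ h1
      have h3 : Z / (12 * N) * θ = Z ^ 2 / (48 * κ ^ 2 * m ^ 2 * N) := by
        rw [hθ, hD]; field_simp; ring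
      rw [h3]
      apply div_le_div_of_nonneg_left (by positivity) (by positivity)
      have : κ ^ 2 * m ^ 2 * (N : ℝ) ≤ κ ^ 2 * m ^ 2 * (κ * m) :=
        mul_le_mul_of_nonneg_left hN (by positivity)
      nlinarith
    have h4 : ((a : ℝ) * N - j * S) ^ 2 / (96 * κ ^ 3 * m ^ 3) ≤
        Z ^ 2 / (48 * κ ^ 3 * m ^ 3) + 1 := by
      rw [div_le_iff₀ hden]
      have h5 : (Z ^ 2 / (48 * κ ^ 3 * m ^ 3) + 1) * (96 * κ ^ 3 * m ^ 3) =
          2 * Z ^ 2 + 96 * κ ^ 3 * m ^ 3 := by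
        field_simp; ring
      rw [h5]
      have h6 : 2 * (κ * m) ^ 2 ≤ 96 * κ ^ 3 * m ^ 3 := by
        have h7 : (1:ℝ) ≤ κ * m := by nlinarith
        have h8' : 0 < (κ * m) ^ 2 := by positivity
        have : 96 * κ ^ 3 * m ^ 3 = 96 * (κ * m) ^ 2 * (κ * m) := by ring
        rw [this]; nlinarith
      linarith
    linarith
  · push Not at hZbig
    have hZ2 : Z ^ 2 ≤ (12 * (κ * m)) ^ 2 := by
      apply pow_le_pow_left₀ hZ0
      linarith
    have h4 : ((a : ℝ) * N - j * S) ^ 2 / (96 * κ ^ 3 * m ^ 3) ≤ 1 := by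
      rw [div_le_one hden]
      have h7 : (8:ℝ) ≤ κ * m := by nlinarith
      have h8' : 0 < (κ * m) ^ 2 := by positivity
      have : 96 * κ ^ 3 * m ^ 3 = 96 * (κ * m) ^ 2 * (κ * m) := by ring
      rw [this]
      nlinarith
    linarith

/-- The tail bound for the kernel. -/
theorem Hn_tail {κ : ℝ} (hκ : 8 ≤ κ) {m N S a j : ℕ} (hm : 1 ≤ m) (h8 : 8 * m ≤ N) (h2 : 2 * m ≤ S)
    (hN : (N : ℝ) ≤ κ * m) (hS : (S : ℝ) ≤ κ * m) (ha : a ≤ m + 1) (hj : j ≤ 3 * m)
    {Ω : ℝ} (hΩ : ∀ a', a' ≤ S → Hn N S a' j ≤ Ω) :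
    Hn N S a j * (1 + ((a : ℝ) * N - j * S) ^ 2 / (96 * κ ^ 3 * m ^ 3)) ^ 3 ≤ 8 * Ω := by
  have hm0 : (1 : ℝ) ≤ m := by exact_mod_cast hm
  have hN0 : (8 : ℝ) * m ≤ N := by exact_mod_cast h8
  have hκ0 : (0 : ℝ) < κ := by linarith
  have hm1 : (0 : ℝ) < m := by linarith
  have hNpos : (0 : ℝ) < N := by nlinarith
  have hcomp := tail_compare (S := S) hκ hm h8 hN ha hj
  set Z := |X0 N S a j| with hZ
  set k := ⌊Z / (6 * N)⌋₊ with hk
  have hk1 : (k : ℝ) ≤ Z / (6 * N) := Nat.floor_le (by positivity)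
  have hk2 : (k : ℝ) * (6 * N) ≤ Z := by
    rwa [le_div_iff₀ (by positivity)] at hk1
  set θ : ℝ := (Z / 2) / (2 * κ ^ 2 * m ^ 2) with hθ
  have hθ0 : 0 ≤ θ := by positivity
  have hmain : Hn N S a j * (1 + θ) ^ (3 * k) ≤ Ω := by
    rcases le_total 0 (X0 N S a j) with hpos | hneg
    · have hZe : Z = X0 N S a j := abs_of_nonneg hpos
      rw [hθ, hZe]
      exact Hn_decay_up hκ hm h8 h2 hN hS ha hj hΩ hpos (by rw [← hZe]; exact hk2)
    · have hZe : Z = - X0 N S a j := abs_of_nonpos hneg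
      rw [hθ, hZe]
      exact Hn_decay_down hκ hm h8 h2 hN hS hj hΩ hneg (by rw [← hZe]; exact hk2)
  have hbern := cube_bernoulli θ hθ0 k
  have hΩ0 : 0 ≤ Ω := (Hn_nonneg N S 0 j).trans (hΩ 0 (Nat.zero_le _))
  have h0 := Hn_nonneg N S a j
  have hbase : (0:ℝ) ≤ 1 + ((a : ℝ) * N - j * S) ^ 2 / (96 * κ ^ 3 * m ^ 3) := by positivity
  calc Hn N S a j * (1 + ((a : ℝ) * N - j * S) ^ 2 / (96 * κ ^ 3 * m ^ 3)) ^ 3
      ≤ Hn N S a j * (2 * (1 + (k : ℝ) * θ)) ^ 3 :=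
        mul_le_mul_of_nonneg_left (pow_le_pow_left₀ hbase hcomp 3) h0
    _ = 8 * (Hn N S a j * (1 + (k : ℝ) * θ) ^ 3) := by ring
    _ ≤ 8 * (Hn N S a j * (1 + θ) ^ (3 * k)) := by
        have := mul_le_mul_of_nonneg_left hbern h0
        linarith
    _ ≤ 8 * Ω := by linarith

end Vale.Agent.Lib.P321
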