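import Vale.Agent.Lib.P321.Kernel

/-!
# P321: the sup bound for the kernel at the bulk levels
-/

namespace Vale.Agent.Lib.P321

/-- Location of the maximum of the kernel. -/
theorem Hn_mode {κ : ℝ} (hκ : 8 ≤ κ) {m N S j : ℕ} (hm : 4 * κ ^ 2 ≤ m) (h8 : 8 * m ≤ N)
    (h2 : 2 * m ≤ S) (hN : (N : ℝ) ≤ κ * m) (hj : j ≤ 3 * m)
    (hj2 : (m : ℝ) ≤ κ * ((j : ℝ) + 1)) :
    ∃ b : ℕ, b + 1 < S ∧ (∀ a ≤ S, Hn N S a j ≤ Hn N S (b + 1) j) ∧ X0 N S b j ≤ 0 ∧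
      0 ≤ X0 N S (b + 1) j ∧ (j : ℝ) * S ≥ (m : ℝ) ^ 2 / κ := by
  have hκ0 : (0 : ℝ) < κ := by linarith
  have hm8 : (256 : ℝ) ≤ m := by nlinarith
  have hm1 : (0 : ℝ) < m := by linarith
  have hmn : 256 ≤ m := by exact_mod_cast hm8
  have hN0 : (8 : ℝ) * m ≤ N := by exact_mod_cast h8
  have hS0 : (2 : ℝ) * m ≤ S := by exact_mod_cast h2
  have hj0 : (j : ℝ) ≤ 3 * m := by exact_mod_cast hj
  have hjN : j < N := by omega
  have hNpos : (0 : ℝ) < N := by linarith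
  obtain ⟨A, hA, hmax⟩ := Finset.exists_max_image (Finset.range (S + 1))
    (fun a => Hn N S a j) ⟨0, by simp⟩
  have hA' : A ≤ S := by simpa [Nat.lt_succ_iff] using hA
  have hmax' : ∀ a ≤ S, Hn N S a j ≤ Hn N S A j := fun a ha =>
    hmax a (Finset.mem_range.2 (Nat.lt_succ_of_le ha))
  -- the level `j` is large
  have hj3 : (m : ℝ) / (2 * κ) ≤ j := by
    rw [div_le_iff₀ (by positivity)]
    have h1 : (4 : ℝ) * κ ≤ m / κ := by
      rw [le_div_iff₀ hκ0]; nlinarith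
    have h2' : (m : ℝ) / κ ≤ (j : ℝ) + 1 := by
      rw [div_le_iff₀ hκ0]; linarith
    have h3 : (m : ℝ) / κ * κ = m := by field_simp
    nlinarith
  have hjS : (m : ℝ) ^ 2 / κ ≤ (j : ℝ) * S := by
    have h1 : (m : ℝ) / (2 * κ) * (2 * m) ≤ (j : ℝ) * S :=
      mul_le_mul hj3 hS0 (by positivity) (by positivity)
    have h2' : (m : ℝ) / (2 * κ) * (2 * m) = (m : ℝ) ^ 2 / κ := by
      field_simp
    linarith
  have hjS2 : κ * (m : ℝ) * 4 ≤ (m : ℝ) ^ 2 / κ := by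
    rw [le_div_iff₀ hκ0]; nlinarith
  -- the maximum is not at `0`
  have hA1 : 1 ≤ A := by
    by_contra hc
    have hA0 : A = 0 := by omega
    subst hA0
    have hX : X0 N S 0 j ≤ -1 := by
      unfold X0
      have : (0:ℝ) ≤ (j : ℝ) := by positivity
      push_cast
      nlinarith
    have hv : (0:ℝ) < (((0 : ℕ) : ℝ) + 1) * ((S : ℝ) - (0 : ℕ) + N - 1 - j) := by
      have h3 : (j : ℝ) + 1 ≤ N := by exact_mod_cast hjN
      push_cast
      have h4 : (0:ℝ) ≤ (S : ℝ) := by positivity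
      linarith
    have h1 := step_up (N := N) (S := S) (a := 0) (j := j) (by omega) hjN (Y := 1)
      zero_le_one hv hX le_rfl
    have h2 := hmax' 1 (by omega)
    have h3 : 0 < Hn N S 0 j := Hn_pos
    have h4 := div_pos one_pos hv
    simp only [zero_add] at h1 h2
    nlinarith [mul_pos h3 h4]
  obtain ⟨b, rfl⟩ : ∃ b, A = b + 1 := ⟨A - 1, by omega⟩
  -- `X0 b ≤ 0`
  have hXb : X0 N S b j ≤ 0 := by
    by_contra hc
    push Not at hc
    have hv : (0:ℝ) < ((b : ℝ) + 1) * ((S : ℝ) - b + N - 1 - j) := by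
      have h3 : (j : ℝ) + 1 ≤ N := by exact_mod_cast hjN
      have h4 : (b : ℝ) + 1 ≤ S := by exact_mod_cast hA'
      have h5 : (0:ℝ) < (b : ℝ) + 1 := by positivity
      apply mul_pos h5; linarith
    have h1 := step_down (N := N) (S := S) (a := b) (j := j) (by omega) hjN
      (Y := X0 N S b j) hc.le hv le_rfl le_rfl
    have h2 := hmax' b (by omega)
    have h3 : 0 < Hn N S (b + 1) j := Hn_pos
    have h4 : 0 < X0 N S b j / (((b : ℝ) + 1) * ((S : ℝ) - b + N - 1 - j)) := div_pos hc hv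
    nlinarith [mul_pos h3 h4]
  have hb7 : (b : ℝ) * 7 ≤ 3 * S := by
    have h3 : (b : ℝ) * ((N : ℝ) - 1) ≤ (j : ℝ) * S := by
      unfold X0 at hXb
      have : (j : ℝ) + 1 ≤ N := by exact_mod_cast hjN
      linarith
    have h4 : (b : ℝ) * (7 * m) ≤ (3 * m) * S := by
      have h5 : (0:ℝ) ≤ (b : ℝ) := by positivity
      have h6 : (b : ℝ) * (7 * m) ≤ (b : ℝ) * ((N : ℝ) - 1) :=
        mul_le_mul_of_nonneg_left (by linarith) h5
      have h7 : (j : ℝ) * S ≤ (3 * m) * S := mul_le_mul_of_nonneg_right hj0 (by positivity)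
      linarith
    by_contra hc
    push Not at hc
    nlinarith
  have hSbig : (512 : ℝ) ≤ S := by linarith
  have hAS : b + 1 < S := by
    have : ((b + 1 : ℕ) : ℝ) < (S : ℝ) := by push_cast; linarith
    exact_mod_cast this
  -- `X0 A ≥ 0`
  have hXA : 0 ≤ X0 N S (b + 1) j := by
    by_contra hc
    push Not at hc
    have hv : (0:ℝ) < (((b + 1 : ℕ) : ℝ) + 1) * ((S : ℝ) - ((b + 1 : ℕ) : ℝ) + N - 1 - j) := by
      have h3 : (j : ℝ) + 1 ≤ N := by exact_mod_cast hjN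
      have h4 : ((b + 1 : ℕ) : ℝ) + 1 ≤ S := by exact_mod_cast hAS
      have h5 : (0:ℝ) < ((b + 1 : ℕ) : ℝ) + 1 := by positivity
      apply mul_pos h5; linarith
    have h1 := step_up (N := N) (S := S) (a := b + 1) (j := j) hAS hjN
      (Y := - X0 N S (b + 1) j) (by linarith) hv (by linarith) le_rfl
    have h2 := hmax' (b + 1 + 1) (by omega)
    have h3 : 0 < Hn N S (b + 1) j := Hn_pos
    have h4 : 0 < (- X0 N S (b + 1) j) /
        ((((b + 1 : ℕ) : ℝ) + 1) * ((S : ℝ) - ((b + 1 : ℕ) : ℝ) + N - 1 - j)) :=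
      div_pos (by linarith) hv
    nlinarith [mul_pos h3 h4]
  exact ⟨b, hAS, hmax', hXb, hXA, hjS⟩

/-- Lower bound for the location of the maximum. -/
theorem mode_low {κ : ℝ} (hκ : 8 ≤ κ) {m N S j b : ℕ} (hm : 4 * κ ^ 2 ≤ m)
    (hN : (N : ℝ) ≤ κ * m) (hjN : j < N) (hjS : (j : ℝ) * S ≥ (m : ℝ) ^ 2 / κ)
    (hXA : 0 ≤ X0 N S (b + 1) j) :
    (m : ℝ) / κ ^ 2 ≤ ((b + 1 : ℕ) : ℝ) + 1 := by
  have hκ0 : (0 : ℝ) < κ := by linarith
  have hm8 : (256 : ℝ) ≤ m := by nlinarith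
  have hm1 : (0 : ℝ) < m := by linarith
  have hNpos : (0 : ℝ) < N := by
    have : 0 < N := by omega
    exact_mod_cast this
  rw [div_le_iff₀ (by positivity)]
  have h3 : (j : ℝ) * S ≤ (((b + 1 : ℕ) : ℝ) + 1) * N := by
    unfold X0 at hXA
    have h5 : (0:ℝ) ≤ ((b + 1 : ℕ) : ℝ) := by positivity
    have h6 : (0:ℝ) ≤ (j : ℝ) := by positivity
    nlinarith
  have h4 : (m : ℝ) ^ 2 / κ ≤ (((b + 1 : ℕ) : ℝ) + 1) * (κ * m) := by
    have h5 : (0:ℝ) ≤ ((b + 1 : ℕ) : ℝ) + 1 := by positivity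
    have h6 := mul_le_mul_of_nonneg_left hN h5
    linarith
  rw [div_le_iff₀ hκ0] at h4
  by_contra hc
  push Not at hc
  have : (((b + 1 : ℕ) : ℝ) + 1) * κ ^ 2 * m < m * m := mul_lt_mul_of_pos_right hc hm1
  nlinarith

/-- One-step lower bound to the right of the mode. -/
theorem mode_step {κ : ℝ} (hκ : 8 ≤ κ) {m N S j b d : ℕ} (hm : 1 ≤ m) (h8 : 8 * m ≤ N)
    (hN : (N : ℝ) ≤ κ * m) (hj : j ≤ 3 * m) (hd : b + 1 + d < S)
    (hXb : X0 N S b j ≤ 0) (hA : (m : ℝ) / κ ^ 2 ≤ ((b + 1 : ℕ) : ℝ) + 1) :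
    Hn N S (b + 1 + d) j * (1 - ((d : ℝ) + 1) * (κ ^ 3 / (4 * m))) ≤ Hn N S (b + 1 + d + 1) j := by
  have hκ0 : (0 : ℝ) < κ := by linarith
  have hm0 : (1 : ℝ) ≤ m := by exact_mod_cast hm
  have hm1 : (0 : ℝ) < m := by linarith
  have hN0 : (8 : ℝ) * m ≤ N := by exact_mod_cast h8
  have hj0 : (j : ℝ) ≤ 3 * m := by exact_mod_cast hj
  have hjN : j < N := by omega
  set A := b + 1 with hAdef
  set ρ : ℝ := κ ^ 3 / (4 * m) with hρ
  have hρ0 : 0 ≤ ρ := by positivity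
  have hX : X0 N S (A + d) j ≤ ((d : ℝ) + 1) * (κ * m) := by
    have e1 : X0 N S (A + d) j = X0 N S b j + ((d : ℝ) + 1) * ((N : ℝ) - 1) := by
      unfold X0; rw [hAdef]; push_cast; ring
    rw [e1]
    have h5 : (0:ℝ) < (d : ℝ) + 1 := by positivity
    have h6 : ((d : ℝ) + 1) * ((N : ℝ) - 1) ≤ ((d : ℝ) + 1) * (κ * m) :=
      mul_le_mul_of_nonneg_left (by linarith) h5.le
    linarith
  have hv : (4 : ℝ) * m ≤ (S : ℝ) - ((A + d : ℕ) : ℝ) + N - 1 - j := by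
    have h4 : ((A + d : ℕ) : ℝ) + 1 ≤ S := by exact_mod_cast hd
    linarith
  have hA3 : (m : ℝ) / κ ^ 2 ≤ ((A + d : ℕ) : ℝ) + 1 := by
    have : ((A : ℕ) : ℝ) ≤ ((A + d : ℕ) : ℝ) := by
      have : A ≤ A + d := by omega
      exact_mod_cast this
    linarith
  set W : ℝ := (((A + d : ℕ) : ℝ) + 1) * ((S : ℝ) - ((A + d : ℕ) : ℝ) + N - 1 - j) with hW
  have hW1 : 4 * (m : ℝ) ^ 2 / κ ^ 2 ≤ W := by
    have h5 : (0:ℝ) ≤ (m : ℝ) / κ ^ 2 := by positivity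
    have h6 : (m : ℝ) / κ ^ 2 * (4 * m) ≤ W := by
      rw [hW]
      exact mul_le_mul hA3 hv (by positivity) (by positivity)
    have h7 : (m : ℝ) / κ ^ 2 * (4 * m) = 4 * (m : ℝ) ^ 2 / κ ^ 2 := by ring
    linarith
  have hW0 : 0 < W := lt_of_lt_of_le (by positivity) hW1
  have e := Hn_succ_a' hd hjN
  rw [← hW] at e
  have h0 := Hn_nonneg N S (A + d) j
  -- the comparison
  have hcmp : ((d : ℝ) + 1) * (κ * m) ≤ ((d : ℝ) + 1) * ρ * W := by
    have h5 : (0:ℝ) ≤ ((d : ℝ) + 1) * ρ := by positivity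
    have h6 : ((d : ℝ) + 1) * ρ * (4 * (m : ℝ) ^ 2 / κ ^ 2) ≤ ((d : ℝ) + 1) * ρ * W :=
      mul_le_mul_of_nonneg_left hW1 h5
    have h7 : ((d : ℝ) + 1) * ρ * (4 * (m : ℝ) ^ 2 / κ ^ 2) = ((d : ℝ) + 1) * (κ * m) := by
      rw [hρ]; field_simp
    linarith
  have e2 : Hn N S (A + d) j * (1 - ((d : ℝ) + 1) * ρ) * W ≤ Hn N S (A + d + 1) j * W := by
    rw [e]
    have : (1 - ((d : ℝ) + 1) * ρ) * W ≤ W - X0 N S (A + d) j := by nlinarith
    calc Hn N S (A + d) j * (1 - ((d : ℝ) + 1) * ρ) * W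
        = Hn N S (A + d) j * ((1 - ((d : ℝ) + 1) * ρ) * W) := by ring
      _ ≤ _ := mul_le_mul_of_nonneg_left this h0
  exact le_of_mul_le_mul_right e2 hW0

/-- Iterating the lower bound. -/
theorem mode_iter (f : ℕ → ℝ) (hf : ∀ d, 0 ≤ f d) (ρ : ℝ) (hρ : 0 ≤ ρ) (D : ℕ)
    (h : ∀ d < D, f d * (1 - ((d : ℝ) + 1) * ρ) ≤ f (d + 1)) :
    ∀ d ≤ D, f 0 * (1 - (d : ℝ) * ((d : ℝ) + 1) / 2 * ρ) ≤ f d := by
  intro d
  induction d with
  | zero => simp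
  | succ d ih =>
    intro hd
    have h1 := ih (by omega)
    have h2 := h d (by omega)
    have h5 := hf 0
    have h6 := hf d
    rcases le_or_gt 0 (1 - ((d : ℝ) + 1) * ρ) with h3 | h3
    · have h7 := mul_le_mul_of_nonneg_right h1 h3
      have hpp : 0 ≤ f 0 * (((d : ℝ) * ((d : ℝ) + 1) / 2 * ρ) * (((d : ℝ) + 1) * ρ)) := by
        positivity
      push_cast
      nlinarith
    · push_cast
      have hXX : f 0 * (1 - ((d : ℝ) + 1) * ((d : ℝ) + 1 + 1) / 2 * ρ) ≤ 0 := by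
        apply mul_nonpos_of_nonneg_of_nonpos h5
        have : (0:ℝ) ≤ (d : ℝ) := by positivity
        nlinarith
      linarith [hf (d + 1)]

/-- Summing the values near the maximum. -/
theorem mode_sum {N S j A D : ℕ} (hjN : j < N) (hDS : A + D ≤ S)
    (hhalf : ∀ d : ℕ, d ≤ D → Hn N S A j / 2 ≤ Hn N S (A + d) j) :
    ((D : ℝ) + 1) * (Hn N S A j / 2) ≤ 1 := by
  calc ((D : ℝ) + 1) * (Hn N S A j / 2) = ∑ _d ∈ Finset.range (D + 1), (Hn N S A j / 2) := by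
        simp
    _ ≤ ∑ d ∈ Finset.range (D + 1), Hn N S (A + d) j := by
        apply Finset.sum_le_sum
        intro d hd
        exact hhalf d (by simpa [Nat.lt_succ_iff] using hd)
    _ = ∑ a ∈ (Finset.range (D + 1)).image (fun d => A + d), Hn N S a j := by
        rw [Finset.sum_image]
        intro x _ y _ h
        simpa using h
    _ ≤ ∑ a ∈ Finset.range (S + 1), Hn N S a j := by
        apply Finset.sum_le_sum_of_subset_of_nonneg
        · intro x hx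
          simp only [Finset.mem_image, Finset.mem_range] at hx ⊢
          obtain ⟨d, hd, rfl⟩ := hx
          omega
        · intro i _ _
          exact Hn_nonneg _ _ _ _
    _ = 1 := sum_Hn_eq_one hjN

/-- The quadratic term stays below `1/2` on the range of `d`. -/
theorem mode_half_aux {κ μ : ℝ} (hκ : 8 ≤ κ) {m d D : ℕ} (hm1 : (0:ℝ) < m) (hμ : μ ^ 2 = m)
    (hd : d ≤ D) (hD1 : (D : ℝ) ≤ μ / κ ^ 2) :
    (d : ℝ) * ((d : ℝ) + 1) / 2 * (κ ^ 3 / (4 * m)) ≤ 1 / 2 := by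
  have hκ0 : (0 : ℝ) < κ := by linarith
  have h3 : (d : ℝ) ≤ D := by exact_mod_cast hd
  have h3' : (d : ℝ) ≤ μ / κ ^ 2 := h3.trans hD1
  have h4 : (d : ℝ) * ((d : ℝ) + 1) / 2 ≤ (d : ℝ) ^ 2 := by
    rcases Nat.eq_zero_or_pos d with h | h
    · subst h; simp
    · have : (1:ℝ) ≤ d := by exact_mod_cast h
      nlinarith
  have h5 : (d : ℝ) ^ 2 ≤ (μ / κ ^ 2) ^ 2 := pow_le_pow_left₀ (by positivity) h3' 2
  have h6 : (μ / κ ^ 2) ^ 2 * (κ ^ 3 / (4 * m)) = 1 / (4 * κ) := by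
    rw [div_pow, hμ]; field_simp
  have h7 : (1:ℝ) / (4 * κ) ≤ 1 / 2 := by
    apply div_le_div_of_nonneg_left (by norm_num) (by norm_num)
    linarith
  calc (d : ℝ) * ((d : ℝ) + 1) / 2 * (κ ^ 3 / (4 * m)) ≤ (μ / κ ^ 2) ^ 2 * (κ ^ 3 / (4 * m)) :=
        mul_le_mul_of_nonneg_right (h4.trans h5) (by positivity)
    _ ≤ 1 / 2 := by rw [h6]; exact h7

theorem mode_b7 {m N S j b : ℕ} (hm : 1 ≤ m) (h8 : 8 * m ≤ N) (hj : j ≤ 3 * m)
    (hXb : X0 N S b j ≤ 0) : (b : ℝ) * 7 ≤ 3 * S := by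
  have hm0 : (1 : ℝ) ≤ m := by exact_mod_cast hm
  have hm1 : (0 : ℝ) < m := by linarith
  have hN0 : (8 : ℝ) * m ≤ N := by exact_mod_cast h8
  have hj0 : (j : ℝ) ≤ 3 * m := by exact_mod_cast hj
  have hjN : j < N := by omega
  have h3 : (b : ℝ) * ((N : ℝ) - 1) ≤ (j : ℝ) * S := by
    unfold X0 at hXb
    have : (j : ℝ) + 1 ≤ N := by exact_mod_cast hjN
    linarith
  have h4 : (b : ℝ) * (7 * m) ≤ (3 * m) * S := by
    have h5 : (0:ℝ) ≤ (b : ℝ) := by positivity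
    have h6 : (b : ℝ) * (7 * m) ≤ (b : ℝ) * ((N : ℝ) - 1) :=
      mul_le_mul_of_nonneg_left (by linarith) h5
    have h7 : (j : ℝ) * S ≤ (3 * m) * S := mul_le_mul_of_nonneg_right hj0 (by positivity)
    linarith
  have h5 : ((b : ℝ) * 7) * m ≤ (3 * S) * m := by linarith
  exact le_of_mul_le_mul_right h5 hm1

/-- The value of the kernel at the maximum is small at the bulk levels. -/
theorem Hn_sup {κ μ : ℝ} (hκ : 8 ≤ κ) {m N S j : ℕ} (hm : 4 * κ ^ 2 ≤ m) (h8 : 8 * m ≤ N)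
    (h2 : 2 * m ≤ S) (hN : (N : ℝ) ≤ κ * m) (hj : j ≤ 3 * m)
    (hj2 : (m : ℝ) ≤ κ * ((j : ℝ) + 1)) (hμ0 : 0 < μ) (hμ : μ ^ 2 = m) (a : ℕ) (ha : a ≤ S) :
    Hn N S a j ≤ 2 * κ ^ 2 / μ := by
  have hκ0 : (0 : ℝ) < κ := by linarith
  have hκ2 : (64 : ℝ) ≤ κ ^ 2 := by nlinarith
  have hm8 : (256 : ℝ) ≤ m := by linarith
  have hm1 : (0 : ℝ) < m := by linarith
  have hmn : 1 ≤ m := by
    have : (1:ℝ) ≤ m := by linarith
    exact_mod_cast this
  have hS0 : (2 : ℝ) * m ≤ S := by exact_mod_cast h2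
  have hjN : j < N := by omega
  obtain ⟨b, hAS, hmax', hXb, hXA, hjS⟩ := Hn_mode hκ hm h8 h2 hN hj hj2
  have hA2 := mode_low hκ hm hN hjN hjS hXA
  have hb7 := mode_b7 hmn h8 hj hXb
  have hρ0 : 0 ≤ κ ^ 3 / (4 * (m:ℝ)) := by positivity
  -- the range of `d`
  set D := ⌊μ / κ ^ 2⌋₊ with hDdef
  have hD1 : (D : ℝ) ≤ μ / κ ^ 2 := Nat.floor_le (by positivity)
  have hD2 : μ / κ ^ 2 < (D : ℝ) + 1 := Nat.lt_floor_add_one _
  have hμ2 : 1 ≤ μ := by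
    by_contra hc
    push Not at hc
    have : μ ^ 2 < 1 := by
      have := mul_lt_mul'' hc hc hμ0.le hμ0.le
      simpa [pow_two] using this
    linarith
  have hμ1 : μ ≤ m := by
    rw [← hμ, pow_two]
    exact le_mul_of_one_le_right hμ0.le hμ2
  have hDμ : (D : ℝ) ≤ μ := by
    refine hD1.trans ?_
    apply div_le_self hμ0.le
    linarith
  have hDS : b + 1 + D ≤ S := by
    have : ((b + 1 + D : ℕ) : ℝ) ≤ (S : ℝ) := by
      push_cast
      linarith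
    exact_mod_cast this
  have hlow := mode_iter (fun d => Hn N S (b + 1 + d) j) (fun d => Hn_nonneg _ _ _ _)
    (κ ^ 3 / (4 * (m:ℝ))) hρ0 D
    (fun d hd => mode_step hκ hmn h8 hN hj (b := b) (d := d) (S := S) (by omega) hXb hA2)
  have hhalf : ∀ d : ℕ, d ≤ D → Hn N S (b + 1) j / 2 ≤ Hn N S (b + 1 + d) j := by
    intro d hd
    have h1 := hlow d hd
    simp only [add_zero] at h1
    have h2 := mode_half_aux hκ hm1 hμ hd hD1
    have h5 := Hn_nonneg N S (b + 1) j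
    have h6 : Hn N S (b + 1) j * (1 / 2) ≤
        Hn N S (b + 1) j * (1 - (d : ℝ) * ((d : ℝ) + 1) / 2 * (κ ^ 3 / (4 * (m:ℝ)))) :=
      mul_le_mul_of_nonneg_left (by linarith) h5
    linarith
  have hsum := mode_sum hjN hDS hhalf
  have h1 := hmax' a ha
  refine h1.trans ?_
  have h5 := Hn_nonneg N S (b + 1) j
  rw [le_div_iff₀ hμ0]
  have h6 : μ ≤ κ ^ 2 * ((D : ℝ) + 1) := by
    rw [div_lt_iff₀ (by positivity)] at hD2
    linarith
  calc Hn N S (b + 1) j * μ ≤ Hn N S (b + 1) j * (κ ^ 2 * ((D : ℝ) + 1)) :=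
        mul_le_mul_of_nonneg_left h6 h5
    _ = 2 * κ ^ 2 * (((D : ℝ) + 1) * (Hn N S (b + 1) j / 2)) := by ring
    _ ≤ 2 * κ ^ 2 * 1 := mul_le_mul_of_nonneg_left hsum (by positivity)
    _ = 2 * κ ^ 2 := by ring

end Vale.Agent.Lib.P321
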