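import Vale.Agent.Lib.P321.Kernel2
import Vale.Agent.Lib.P321.Bulk
import Vale.Agent.Lib.P321.Class

/-!
# P321: the kernel on integer arguments, exact ratios at the bulk points
-/

namespace Vale.Agent.Lib.P321

/-- The kernel with `f = 0` at integer `a`. -/
noncomputable def Hz (N S : ℕ) (a : ℤ) (j : ℕ) : ℝ :=
  ker N S false a j / ((S + N).choose N : ℝ)

/-- The kernel with `f = 1` at integer `a`. -/
noncomputable def Gz (N S : ℕ) (a : ℤ) (j : ℕ) : ℝ :=
  ker N S true a j / ((S + N).choose N : ℝ)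

theorem hk_false (N S : ℕ) (a : ℤ) (j : ℕ) :
    hk N S false a j = Hz N S a j - Hz N S (a + 1) j := by
  unfold hk Hz; ring

theorem hk_true (N S : ℕ) (a : ℤ) (j : ℕ) :
    hk N S true a j = Gz N S a j - Gz N S (a + 1) j := by
  unfold hk Gz; ring

theorem Hz_neg {N S : ℕ} {a : ℤ} (h : a < 0) (j : ℕ) : Hz N S a j = 0 := by
  unfold Hz ker; rw [chZ_neg h]; simp

theorem Gz_neg {N S : ℕ} {a : ℤ} (h : a < 0) (j : ℕ) : Gz N S a j = 0 := by
  unfold Gz ker; rw [chZ_neg h]; simp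

theorem Hz_nonneg (N S : ℕ) (a : ℤ) (j : ℕ) : 0 ≤ Hz N S a j := by
  unfold Hz ker
  have := chZ_nonneg a j
  have := chZ_nonneg (((S : ℕ) : ℤ) + fb false - a) (N - 1 - j)
  have := Cd_pos N S
  positivity

theorem Gz_nonneg (N S : ℕ) (a : ℤ) (j : ℕ) : 0 ≤ Gz N S a j := by
  unfold Gz ker
  have := chZ_nonneg a j
  have := chZ_nonneg (((S : ℕ) : ℤ) + fb true - a) (N - 1 - j)
  have := Cd_pos N S
  positivity

theorem Hz_nat {N S n : ℕ} (hn : n ≤ S) (j : ℕ) : Hz N S (n : ℤ) j = Hn N S n j := by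
  unfold Hz Hn ker
  have e : ((S : ℕ) : ℤ) + (fb false : ℕ) - (n : ℤ) = ((S - n : ℕ) : ℤ) := by
    simp [fb, Nat.cast_sub hn]
  rw [e, chZ_natCast, chZ_natCast]

theorem Gz_nat {N S n j : ℕ} (hn : n ≤ S) (hj : j < N) :
    Gz N S (n : ℤ) j * ((S : ℝ) - n + 1) = Hn N S n j * ((S : ℝ) - n + N - j) := by
  unfold Gz Hn ker
  have e : ((S : ℕ) : ℤ) + (fb true : ℕ) - (n : ℤ) = ((S - n + 1 : ℕ) : ℤ) := by
    simp only [fb, if_true]
    push_cast [Nat.cast_sub hn]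
    ring
  rw [e, chZ_natCast, chZ_natCast]
  obtain ⟨d, rfl⟩ : ∃ d, S = n + d := ⟨S - n, by omega⟩
  obtain ⟨l, rfl⟩ : ∃ l, N = j + 1 + l := ⟨N - j - 1, by omega⟩
  have e0 : n + d - n = d := by omega
  have e0'' : j + 1 + l - 1 - j = l := by omega
  rw [e0, e0'']
  have e2 : ((d + l).choose l : ℝ) * ((d : ℝ) + l + 1) =
      ((d + 1 + l).choose l : ℝ) * ((d : ℝ) + 1) := by
    have := Nat.choose_mul_succ_eq (d + l) l
    have e : d + l + 1 - l = d + 1 := by omega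
    rw [e, show d + l + 1 = d + 1 + l by ring] at this
    have h3 : (((d + l).choose l * (d + 1 + l) : ℕ) : ℝ) =
        (((d + 1 + l).choose l * (d + 1) : ℕ) : ℝ) := by
      rw [this]
    push_cast at h3
    linarith
  push_cast
  set Cd : ℝ := (((n + d + (j + 1 + l)).choose (j + 1 + l) : ℕ) : ℝ)
  linear_combination (- ((n + j).choose j : ℝ) / Cd) * e2

/-! ### ratios in terms of the expansions -/

/-- The real arguments of a natural point. -/
theorem Xr_cast (N S a j : ℕ) : X0 N S a j = Xr (a : ℝ) j S N := rfl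

theorem ratio1 {N S n j : ℕ} (hn : n < S) (hj : j < N) :
    Hn N S (n + 1) j = Hn N S n j * (1 - eA (n : ℝ) j S N) := by
  have e := Hn_succ_a' hn hj
  rw [Xr_cast] at e
  unfold eA
  have h3 : (0:ℝ) < (S : ℝ) - n + N - 1 - j := by
    have h1 : (n : ℝ) + 1 ≤ S := by exact_mod_cast hn
    have h2 : (j : ℝ) + 1 ≤ N := by exact_mod_cast hj
    linarith
  have hv : vv (n : ℝ) j S N = (S : ℝ) - n + N - 1 - j := rfl
  rw [hv]
  have h4 : (0:ℝ) < ((n : ℝ) + 1) * ((S : ℝ) - n + N - 1 - j) := by positivity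
  have h5 := h4.ne'
  field_simp
  linear_combination e

theorem ratio2 {N S n j : ℕ} (hn : n ≤ S) (hj : j + 1 < N) :
    Hn N S n (j + 1) = Hn N S n j * (1 + e2 (n : ℝ) j S N) := by
  have e := Hn_succ_j hn hj
  unfold e2
  have h3 : (0:ℝ) < (S : ℝ) - n + N - 1 - j := by
    have h1 : (n : ℝ) ≤ S := by exact_mod_cast hn
    have h2 : (j : ℝ) + 1 + 1 ≤ N := by exact_mod_cast hj
    linarith
  have hv : vv (n : ℝ) j S N = (S : ℝ) - n + N - 1 - j := rfl
  rw [hv]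
  have h4 : (0:ℝ) < ((j : ℝ) + 1) * ((S : ℝ) - n + N - 1 - j) := by positivity
  have h5 := h4.ne'
  field_simp
  unfold Xr
  linear_combination e

theorem ratio3 {N S b j : ℕ} (hb : b + 1 ≤ S) (hj : j + 1 < N) :
    Hn N S b (j + 1) = Hn N S (b + 1) j * (1 + e3 ((b + 1 : ℕ) : ℝ) j S N) := by
  have e := Hn_diag hb hj
  unfold e3
  have h3 : (0:ℝ) < (S : ℝ) - b := by
    have h1 : (b : ℝ) + 1 ≤ S := by exact_mod_cast hb
    linarith
  have e' : (S : ℝ) - ((b + 1 : ℕ) : ℝ) + 1 = (S : ℝ) - b := by push_cast; ring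
  rw [e']
  have h4 : (0:ℝ) < ((j : ℝ) + 1) * ((S : ℝ) - b) := by positivity
  have h5 := h4.ne'
  field_simp
  push_cast
  linear_combination e

theorem ratio4 {N S n j : ℕ} (hn : n < S) (hj : j + 1 < N) :
    Hn N S (n + 1) (j + 1) = Hn N S n (j + 1) * (1 - e4 (n : ℝ) j S N) := by
  have e := ratio1 (N := N) (S := S) (n := n) (j := j + 1) hn hj
  have e' : eA (n : ℝ) ((j + 1 : ℕ) : ℝ) S N = e4 (n : ℝ) j S N := by
    unfold eA e4 Xr vv
    push_cast
    congr 1 <;> ring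
  rw [e'] at e
  exact e

theorem ratio5 {N S b j : ℕ} (hb : b < S) (hj : j + 1 < N) :
    Hn N S (b + 1) (j + 1) = Hn N S b (j + 1) * (1 - e5 ((b + 1 : ℕ) : ℝ) j S N) := by
  have e := ratio1 (N := N) (S := S) (n := b) (j := j + 1) hb hj
  have e' : eA (b : ℝ) ((j + 1 : ℕ) : ℝ) S N = e5 ((b + 1 : ℕ) : ℝ) j S N := by
    unfold eA e5 Xr vv
    push_cast
    congr 1 <;> ring
  rw [e'] at e
  exact e

theorem ratioG0 {N S n j : ℕ} (hn : n ≤ S) (hj : j < N) :
    Gz N S (n : ℤ) j = Hn N S n j * W0 (n : ℝ) j S N := by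
  have e := Gz_nat hn hj
  unfold W0
  have h1 : (0:ℝ) < (S : ℝ) - n + 1 := by
    have : (n : ℝ) ≤ S := by exact_mod_cast hn
    linarith
  have h5 := h1.ne'
  field_simp
  linear_combination e

theorem ratioG1 {N S n j : ℕ} (hn : n < S) (hj : j < N) :
    Gz N S ((n : ℤ) + 1) j = Hn N S (n + 1) j * W1 (n : ℝ) j S N := by
  have e := Gz_nat (N := N) (S := S) (n := n + 1) (j := j) hn hj
  unfold W1
  have h1 : (0:ℝ) < (S : ℝ) - n := by
    have : (n : ℝ) + 1 ≤ S := by exact_mod_cast hn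
    linarith
  have h5 := h1.ne'
  field_simp
  push_cast at e
  have e2 : (S : ℝ) - ((n : ℝ) + 1) + 1 = (S : ℝ) - n := by ring
  rw [e2] at e
  linear_combination e

end Vale.Agent.Lib.P321
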