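import Vale.Agent.Lib.P321.Reduce

/-!
# P321: the parameters and the two strings for every length
-/

namespace Vale.Agent.Lib.P321

theorem sqrt_cs {a b c d : ℝ} (ha : 0 ≤ a) (hb : 0 ≤ b) (hc : 0 ≤ c) (hd : 0 ≤ d) :
    √(a * c) + √(b * d) ≤ √((a + b) * (c + d)) := by
  apply Real.le_sqrt_of_sq_le
  rw [Real.sqrt_mul ha, Real.sqrt_mul hb]
  have h1 := Real.sq_sqrt ha
  have h2 := Real.sq_sqrt hb
  have h3 := Real.sq_sqrt hc
  have h4 := Real.sq_sqrt hd
  set α := √a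
  set β := √b
  set γ := √c
  set δ := √d
  rw [← h1, ← h2, ← h3, ← h4]
  nlinarith [sq_nonneg (α * δ - β * γ)]

section

variable {q : ℝ}

/-- Prepending a bit does not decrease the Bhattacharyya coefficient. -/
theorem BC_cons (h0 : 0 ≤ q) (h1 : q ≤ 1) (x y : List Bool) (hl : y.length = x.length) :
    BC q x y ≤ BC q (true :: x) (true :: y) := by
  unfold BC
  simp only [List.length_cons]
  set n := x.length with hn
  set φ : List Bool → ℝ := fun T => √(traceProb q x T * traceProb q y T) with hφ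
  have hp : 0 ≤ 1 - q := by linarith
  have e0 : SumAll (n + 1) φ = SumAll n φ := by
    unfold SumAll
    rw [Finset.sum_range_succ _ (n + 1)]
    have : SumL (n + 1) φ = 0 := by
      rw [SumL_congr _ (ψ := fun _ => 0) (fun T hT => by
        simp only [hφ]
        rw [traceProb_long q x T (by omega)]
        simp)]
      exact SumL_const_zero _
    rw [this]; simp
  have e1 := SumAll_succ n φ
  rw [e0] at e1
  rw [SumAll_succ]
  have b0 : √(traceProb q (true :: x) [] * traceProb q (true :: y) []) = q * φ [] := by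
    simp only [traceProb_cons_nil, hφ]
    have : q * traceProb q x [] * (q * traceProb q y []) =
        q ^ 2 * (traceProb q x [] * traceProb q y []) := by ring
    rw [this, Real.sqrt_mul (by positivity), Real.sqrt_sq h0]
  have b1 : q * SumAll n (fun T => φ (true :: T)) + (1 - q) * SumAll n φ ≤
      SumAll n (fun T => √(traceProb q (true :: x) (true :: T) *
        traceProb q (true :: y) (true :: T))) := by
    rw [← SumAll_mul, ← SumAll_mul, ← SumAll_add]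
    apply SumAll_mono
    intro T _
    simp only [traceProb_cons_cons, if_true, hφ]
    have n1 := traceProb_nonneg h0 h1 x (true :: T)
    have n2 := traceProb_nonneg h0 h1 x T
    have n3 := traceProb_nonneg h0 h1 y (true :: T)
    have n4 := traceProb_nonneg h0 h1 y T
    have := sqrt_cs (mul_nonneg h0 n1) (mul_nonneg hp n2) (mul_nonneg h0 n3) (mul_nonneg hp n4)
    have e3 : q * traceProb q x (true :: T) * (q * traceProb q y (true :: T)) =
        q ^ 2 * (traceProb q x (true :: T) * traceProb q y (true :: T)) := by ring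
    have e4 : (1 - q) * traceProb q x T * ((1 - q) * traceProb q y T) =
        (1 - q) ^ 2 * (traceProb q x T * traceProb q y T) := by ring
    have s1 : √(q ^ 2 * (traceProb q x (true :: T) * traceProb q y (true :: T))) =
        q * √(traceProb q x (true :: T) * traceProb q y (true :: T)) := by
      rw [Real.sqrt_mul (by positivity), Real.sqrt_sq h0]
    have s2 : √((1 - q) ^ 2 * (traceProb q x T * traceProb q y T)) =
        (1 - q) * √(traceProb q x T * traceProb q y T) := by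
      rw [Real.sqrt_mul (by positivity), Real.sqrt_sq hp]
    rw [e3, e4, s1, s2] at this
    simpa using this
  have b2 : SumAll n (fun T => √(traceProb q (true :: x) (false :: T) *
      traceProb q (true :: y) (false :: T))) = q * SumAll n (fun T => φ (false :: T)) := by
    rw [← SumAll_mul]
    unfold SumAll
    apply Finset.sum_congr rfl
    intro N _
    apply SumL_congr
    intro T _
    simp only [traceProb_cons_cons, hφ]
    have : q * traceProb q x (false :: T) * (q * traceProb q y (false :: T)) =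
        q ^ 2 * (traceProb q x (false :: T) * traceProb q y (false :: T)) := by ring
    simp only [Bool.true_eq_false, if_false, add_zero]
    rw [this, Real.sqrt_mul (by positivity), Real.sqrt_sq h0]
  rw [b0, b2]
  nlinarith

theorem alt_pair_ne (m t : ℕ) : alt m ++ true :: alt (t + 1) ≠ alt (m + 1) ++ true :: alt t := by
  intro h
  rw [alt_add m 1, List.append_assoc] at h
  have := List.append_cancel_left h
  simp [alt] at this

theorem alt_pair_length (m t : ℕ) :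
    (alt m ++ true :: alt (t + 1)).length = 2 * (m + t + 1) + 1 ∧
      (alt (m + 1) ++ true :: alt t).length = 2 * (m + t + 1) + 1 := by
  simp only [List.length_append, List.length_cons, alt_length]
  omega

/-- The constants depending on `q` only. -/
theorem constants (h0 : 0 < q) (h1 : q < 1) : ∃ K D : ℕ, 2 ≤ K ∧
    4 ≤ (1 + (1 - q) ^ 2 / 4) ^ D ∧ 1 ≤ D ∧ (1 - (1 - q) / 2) ^ K ≤ 1 / 2 ^ 9 ∧
    (1 - q ^ 2 / 2) ^ K ≤ 1 / 8 ∧ (1 - (1 - q) ^ 2 / 2) ^ K ≤ 1 / 2 := by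
  have hp : 0 < 1 - q := by linarith
  have hq2 : 0 < q ^ 2 := by positivity
  have hp2 : 0 < (1 - q) ^ 2 := by positivity
  have hp3 : (1 - q) ^ 2 < 1 := by nlinarith
  have hq3 : q ^ 2 < 1 := by nlinarith
  obtain ⟨D, hD⟩ := pow_unbounded_of_one_lt 4 (show 1 < 1 + (1 - q) ^ 2 / 4 by linarith)
  have hD1 : 1 ≤ D := by
    by_contra hh
    have : D = 0 := by omega
    subst this
    norm_num at hD
  obtain ⟨K₁, hK₁⟩ := exists_pow_lt_of_lt_one (show (0 : ℝ) < 1 / 2 ^ 9 by norm_num)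
    (show 1 - (1 - q) / 2 < 1 by linarith)
  obtain ⟨K₂, hK₂⟩ := exists_pow_lt_of_lt_one (show (0 : ℝ) < 1 / 8 by norm_num)
    (show 1 - q ^ 2 / 2 < 1 by linarith)
  obtain ⟨K₃, hK₃⟩ := exists_pow_lt_of_lt_one (show (0 : ℝ) < 1 / 2 by norm_num)
    (show 1 - (1 - q) ^ 2 / 2 < 1 by linarith)
  refine ⟨K₁ + K₂ + K₃ + 2, D, by omega, hD.le, hD1, ?_, ?_, ?_⟩
  · exact (pow_le_pow_of_le_one (by linarith) (by linarith) (by omega)).trans hK₁.le
  · exact (pow_le_pow_of_le_one (by linarith) (by linarith) (by omega)).trans hK₂.le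
  · exact (pow_le_pow_of_le_one (by linarith) (by linarith) (by omega)).trans hK₃.le

/-- The tail bound in final form. -/
theorem tail_final {K D : ℕ} (h0 : 0 < q) (h1 : q < 1) (hβ : 4 ≤ (1 + (1 - q) ^ 2 / 4) ^ D)
    (hk1 : (1 - (1 - q) / 2) ^ K ≤ 1 / 2 ^ 9) (hk2 : (1 - q ^ 2 / 2) ^ K ≤ 1 / 8)
    (hk3 : (1 - (1 - q) ^ 2 / 2) ^ K ≤ 1 / 2) (s t m : ℕ) (hM : K * m ≤ s + t) :
    Ex q (alt s ++ true :: alt t) (indT m (s + t) D) ≤ 4 * (1 / 2 : ℝ) ^ m := by
  have hT := tail_defect (D := D) h0 h1 rfl hβ s t m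
  refine hT.trans ?_
  set M := s + t
  have hp : 0 < 1 - q := by linarith
  have hq2 : 0 < q ^ 2 := by positivity
  have hp2 : 0 < (1 - q) ^ 2 := by positivity
  have hp3 : (1 - q) ^ 2 < 1 := by nlinarith
  have hq3 : q ^ 2 < 1 := by nlinarith
  have a1 : 0 ≤ 1 - (1 - q) / 2 := by linarith
  have a2 : 1 - (1 - q) / 2 ≤ 1 := by linarith
  have b1 : 0 ≤ 1 - q ^ 2 / 2 := by linarith
  have b2 : 1 - q ^ 2 / 2 ≤ 1 := by linarith
  have c1 : 0 ≤ 1 - (1 - q) ^ 2 / 2 := by linarith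
  have c2 : 1 - (1 - q) ^ 2 / 2 ≤ 1 := by linarith
  have t1 : (2 : ℝ) ^ (8 * m) * (1 - (1 - q) / 2) ^ (2 * M + 1) ≤ (1 / 2 : ℝ) ^ m := by
    have e1 : (1 - (1 - q) / 2) ^ (2 * M + 1) ≤ (1 / 2 ^ 9 : ℝ) ^ m := by
      calc (1 - (1 - q) / 2) ^ (2 * M + 1) ≤ (1 - (1 - q) / 2) ^ (K * m) :=
            pow_le_pow_of_le_one a1 a2 (by omega)
        _ = ((1 - (1 - q) / 2) ^ K) ^ m := pow_mul _ _ _
        _ ≤ _ := pow_le_pow_left₀ (by positivity) hk1 m
    have e2 : (2 : ℝ) ^ (8 * m) = (2 ^ 8) ^ m := pow_mul _ _ _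
    calc _ ≤ (2 : ℝ) ^ (8 * m) * (1 / 2 ^ 9 : ℝ) ^ m :=
          mul_le_mul_of_nonneg_left e1 (by positivity)
      _ = _ := by
        rw [e2, ← mul_pow]; norm_num
  have t2 : (2 : ℝ) ^ (2 * m) * (2 * (1 - q ^ 2 / 2) ^ M) ≤ 2 * (1 / 2 : ℝ) ^ m := by
    have e1 : (1 - q ^ 2 / 2) ^ M ≤ (1 / 8 : ℝ) ^ m := by
      calc (1 - q ^ 2 / 2) ^ M ≤ (1 - q ^ 2 / 2) ^ (K * m) :=
            pow_le_pow_of_le_one b1 b2 hM
        _ = ((1 - q ^ 2 / 2) ^ K) ^ m := pow_mul _ _ _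
        _ ≤ _ := pow_le_pow_left₀ (by positivity) hk2 m
    have e2 : (2 : ℝ) ^ (2 * m) = (2 ^ 2) ^ m := pow_mul _ _ _
    calc _ ≤ (2 : ℝ) ^ (2 * m) * (2 * (1 / 8 : ℝ) ^ m) := by
          apply mul_le_mul_of_nonneg_left _ (by positivity)
          linarith
      _ = 2 * ((2 ^ 2 * (1 / 8 : ℝ)) ^ m) := by
        rw [e2, mul_pow]; ring
      _ = _ := by norm_num
  have t3 : (1 - (1 - q) ^ 2 / 2) ^ M ≤ (1 / 2 : ℝ) ^ m := by
    calc (1 - (1 - q) ^ 2 / 2) ^ M ≤ (1 - (1 - q) ^ 2 / 2) ^ (K * m) :=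
          pow_le_pow_of_le_one c1 c2 hM
      _ = ((1 - (1 - q) ^ 2 / 2) ^ K) ^ m := pow_mul _ _ _
      _ ≤ _ := pow_le_pow_left₀ (by positivity) hk3 m
  linarith

theorem sq_le_two_pow (m : ℕ) : m ^ 2 ≤ 2 * 2 ^ m := by
  induction m with
  | zero => norm_num
  | succ m ih =>
    by_cases h : m ≤ 2
    · interval_cases m <;> norm_num
    · have h3 : 3 ≤ m := by omega
      rw [pow_succ 2 m]
      nlinarith

theorem half_pow_le {μ : ℝ} {m : ℕ} (hμ1 : 1 ≤ μ) (hμ : μ ^ 2 = m) :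
    (1 / 2 : ℝ) ^ m ≤ 2 / μ ^ 3 := by
  have h1 : ((m : ℝ)) ^ 2 ≤ 2 * 2 ^ m := by exact_mod_cast sq_le_two_pow m
  have hμ3 : 0 < μ ^ 3 := by positivity
  have h2 : μ ^ 3 ≤ (m : ℝ) ^ 2 := by
    rw [← hμ]
    have : μ ^ 3 * 1 ≤ μ ^ 3 * μ := mul_le_mul_of_nonneg_left hμ1 hμ3.le
    nlinarith
  have h3 : μ ^ 3 ≤ 2 * 2 ^ m := h2.trans h1
  rw [le_div_iff₀ hμ3, one_div, inv_pow]
  have hp : (0 : ℝ) < 2 ^ m := by positivity
  calc (2 ^ m : ℝ)⁻¹ * μ ^ 3 ≤ (2 ^ m : ℝ)⁻¹ * (2 * 2 ^ m) :=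
        mul_le_mul_of_nonneg_left h3 (by positivity)
    _ = 2 := by field_simp

/-- The bound on the Bhattacharyya coefficient of the pair at given parameters. -/
theorem BC_pair {κ μ : ℝ} {K D m t : ℕ} (h0 : 0 < q) (h1 : q < 1)
    (hβ : 4 ≤ (1 + (1 - q) ^ 2 / 4) ^ D) (hD : 1 ≤ D)
    (hk1 : (1 - (1 - q) / 2) ^ K ≤ 1 / 2 ^ 9) (hk2 : (1 - q ^ 2 / 2) ^ K ≤ 1 / 8)
    (hk3 : (1 - (1 - q) ^ 2 / 2) ^ K ≤ 1 / 2)
    (hκ : 8 ≤ κ) (hm : 4 * κ ^ 2 ≤ m) (hμ0 : 0 < μ) (hμ : μ ^ 2 = m)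
    (hM1 : ((2 * (m + t + 1) + 1 : ℕ) : ℝ) ≤ κ * m) (hK : K * m ≤ m + t + 1) :
    1 - (Kfin κ (κ ^ 2 / (1 / (2 * (D : ℝ)))) + 8) / μ ^ 3 ≤
      BC q (alt m ++ true :: alt (t + 1)) (alt (m + 1) ++ true :: alt t) := by
  have hH := hell_le (t := t) h0 h1 hκ hm hμ0 hμ hM1 hD
  have hx := tail_final (K := K) (D := D) h0 h1 hβ hk1 hk2 hk3 m (t + 1) m (by omega)
  have hy := tail_final (K := K) (D := D) h0 h1 hβ hk1 hk2 hk3 (m + 1) t m (by omega)
  have a1 : m + (t + 1) = m + t + 1 := by omega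
  have a2 : m + 1 + t = m + t + 1 := by omega
  rw [a1] at hx
  rw [a2] at hy
  have hμ1 : 1 ≤ μ := by
    have : (1 : ℝ) ≤ m := by nlinarith
    rw [← hμ] at this
    nlinarith
  have hhalf := half_pow_le hμ1 hμ
  have hμ3 : 0 < μ ^ 3 := by positivity
  have hK0 : 0 ≤ Kfin κ (κ ^ 2 / (1 / (2 * (D : ℝ)))) :=
    Kfin_nonneg (by linarith) (by positivity)
  set KK := Kfin κ (κ ^ 2 / (1 / (2 * (D : ℝ))))
  have e : q * (KK / μ ^ 3) ≤ KK / μ ^ 3 := by
    have : 0 ≤ KK / μ ^ 3 := by positivity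
    nlinarith
  have e2 : (KK + 8) / μ ^ 3 = KK / μ ^ 3 + 8 / μ ^ 3 := by ring
  have e3 : 8 / μ ^ 3 = 4 * (2 / μ ^ 3) := by ring
  have e4 : 0 ≤ KK / μ ^ 3 := by positivity
  rw [e2, e3]
  nlinarith

end

end Vale.Agent.Lib.P321
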