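import Vale.Agent.Lib.P321.Hell

/-!
# P321: from the Bhattacharyya coefficient to the number of traces
-/

namespace Vale.Agent.Lib.P321

/-- The abstract two-point bound. -/
theorem tv_bound {ι : Type*} (s : Finset ι) (A B a b : ι → ℝ) (hA : ∀ i, 0 ≤ A i)
    (hB : ∀ i, 0 ≤ B i) (ha : ∀ i, 0 ≤ a i) (hb : ∀ i, 0 ≤ b i) (hab : ∀ i, a i + b i ≤ 1)
    (sA : ∑ i ∈ s, A i = 1) (sB : ∑ i ∈ s, B i = 1)
    (hsucc : 4 / 3 ≤ ∑ i ∈ s, (A i * a i + B i * b i)) :
    (∑ i ∈ s, √(A i * B i)) ^ 2 ≤ 8 / 9 := by
  set D := ∑ i ∈ s, |A i - B i| with hD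
  set ρ := ∑ i ∈ s, √(A i * B i) with hρ
  have h1 : ∀ i, A i * a i + B i * b i ≤ (A i + B i + |A i - B i|) / 2 := by
    intro i
    set M := (A i + B i + |A i - B i|) / 2 with hM
    have hM1 : A i ≤ M := by
      have := le_abs_self (A i - B i)
      rw [hM]; linarith
    have hM2 : B i ≤ M := by
      have := neg_abs_le (A i - B i)
      rw [hM]; linarith
    have hM0 : 0 ≤ M := le_trans (hA i) hM1
    have h3 := mul_le_mul_of_nonneg_right hM1 (ha i)
    have h4 := mul_le_mul_of_nonneg_right hM2 (hb i)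
    have h5 := mul_le_mul_of_nonneg_left (hab i) hM0
    linarith
  have h2 : ∑ i ∈ s, (A i * a i + B i * b i) ≤ (1 + 1 + D) / 2 := by
    calc _ ≤ ∑ i ∈ s, (A i + B i + |A i - B i|) / 2 := Finset.sum_le_sum (fun i _ => h1 i)
      _ = _ := by
        rw [← Finset.sum_div, Finset.sum_add_distrib, Finset.sum_add_distrib, sA, sB]
  have hD23 : 2 / 3 ≤ D := by linarith
  have hD0 : 0 ≤ D := by linarith
  -- Cauchy-Schwarz
  have hcs : D ^ 2 ≤ (∑ i ∈ s, (√(A i) - √(B i)) ^ 2) * (∑ i ∈ s, (√(A i) + √(B i)) ^ 2) := by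
    have e : D = ∑ i ∈ s, |√(A i) - √(B i)| * (√(A i) + √(B i)) := by
      rw [hD]
      apply Finset.sum_congr rfl
      intro i _
      have h3 : A i - B i = (√(A i) - √(B i)) * (√(A i) + √(B i)) := by
        have := Real.sq_sqrt (hA i)
        have := Real.sq_sqrt (hB i)
        nlinarith
      rw [h3, abs_mul, abs_of_nonneg (a := √(A i) + √(B i)) (by positivity)]
    rw [e]
    have := Finset.sum_mul_sq_le_sq_mul_sq s (fun i => |√(A i) - √(B i)|)
      (fun i => √(A i) + √(B i))
    simpa only [sq_abs] using this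
  have e1 : ∑ i ∈ s, (√(A i) - √(B i)) ^ 2 = 2 - 2 * ρ := by
    have : ∀ i ∈ s, (√(A i) - √(B i)) ^ 2 = A i + B i - 2 * √(A i * B i) := by
      intro i _
      rw [Real.sqrt_mul (hA i), sub_sq, Real.sq_sqrt (hA i), Real.sq_sqrt (hB i)]
      ring
    rw [Finset.sum_congr rfl this, Finset.sum_sub_distrib, Finset.sum_add_distrib, sA, sB, hρ,
      Finset.mul_sum]
    ring
  have e2 : ∑ i ∈ s, (√(A i) + √(B i)) ^ 2 = 2 + 2 * ρ := by
    have : ∀ i ∈ s, (√(A i) + √(B i)) ^ 2 = A i + B i + 2 * √(A i * B i) := by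
      intro i _
      rw [Real.sqrt_mul (hA i), add_sq, Real.sq_sqrt (hA i), Real.sq_sqrt (hB i)]
      ring
    rw [Finset.sum_congr rfl this, Finset.sum_add_distrib, Finset.sum_add_distrib, sA, sB, hρ,
      Finset.mul_sum]
    ring
  rw [e1, e2] at hcs
  nlinarith

/-- The strings of length at most `n`. -/
def listsUpTo : ℕ → Finset (List Bool)
  | 0 => {[]}
  | n + 1 => insert [] ((listsUpTo n).image (List.cons true) ∪ (listsUpTo n).image (List.cons false))

theorem mem_listsUpTo (n : ℕ) (T : List Bool) : T ∈ listsUpTo n ↔ T.length ≤ n := by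
  induction n generalizing T with
  | zero =>
    simp [listsUpTo]
  | succ n ih =>
    simp only [listsUpTo, Finset.mem_insert, Finset.mem_union, Finset.mem_image]
    cases T with
    | nil => simp
    | cons c T =>
      simp only [List.length_cons, reduceCtorEq, false_or, List.cons.injEq]
      constructor
      · rintro (⟨a, ha, h1, h2⟩ | ⟨a, ha, h1, h2⟩)
        · subst h2; have := (ih a).1 ha; omega
        · subst h2; have := (ih a).1 ha; omega
      · intro h
        have := (ih T).2 (by omega)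
        cases c
        · right; exact ⟨T, this, rfl, rfl⟩
        · left; exact ⟨T, this, rfl, rfl⟩

theorem sum_listsUpTo (n : ℕ) (φ : List Bool → ℝ) :
    ∑ T ∈ listsUpTo n, φ T = SumAll n φ := by
  induction n generalizing φ with
  | zero => simp [listsUpTo, SumAll, SumL]
  | succ n ih =>
    rw [SumAll_succ, ← ih, ← ih]
    simp only [listsUpTo]
    have h1 : ([] : List Bool) ∉ (listsUpTo n).image (List.cons true) ∪
        (listsUpTo n).image (List.cons false) := by
      simp
    rw [Finset.sum_insert h1, Finset.sum_union, Finset.sum_image, Finset.sum_image]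
    · ring
    · intro a _ b _ h; simpa using h
    · intro a _ b _ h; simpa using h
    · rw [Finset.disjoint_left]
      intro a ha hb
      simp only [Finset.mem_image] at ha hb
      obtain ⟨u, _, rfl⟩ := ha
      obtain ⟨v, _, hv⟩ := hb
      simp at hv

/-- The sum of a product over the tuples. -/
theorem sum_tuples (n m : ℕ) (φ : List Bool → ℝ) :
    ∑ T ∈ Fintype.piFinset (fun _ : Fin m => listsUpTo n), ∏ i, φ (T i) = SumAll n φ ^ m := by
  rw [← sum_listsUpTo, ← Finset.prod_univ_sum]
  simp

section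

variable {q : ℝ}

/-- The two-point bound for an estimator. -/
theorem success_pair (h0 : 0 ≤ q) (h1 : q ≤ 1) (m : ℕ)
    (est : (Fin m → List Bool) → PMF (List Bool)) (x y : List Bool) (hne : x ≠ y)
    (hl : y.length = x.length) (hx : 2 / 3 ≤ successProb q m est x)
    (hy : 2 / 3 ≤ successProb q m est y) : BC q x y ^ (2 * m) ≤ 8 / 9 := by
  classical
  set n := x.length with hn
  set s := Fintype.piFinset (fun _ : Fin m => listsUpTo n) with hs
  set A : (Fin m → List Bool) → ℝ := fun T => ∏ i, traceProb q x (T i) with hA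
  set B : (Fin m → List Bool) → ℝ := fun T => ∏ i, traceProb q y (T i) with hB
  set a : (Fin m → List Bool) → ℝ := fun T => (est T x).toReal with ha
  set b : (Fin m → List Bool) → ℝ := fun T => (est T y).toReal with hb
  have hA0 : ∀ T, 0 ≤ A T := fun T => Finset.prod_nonneg (fun i _ => traceProb_nonneg h0 h1 _ _)
  have hB0 : ∀ T, 0 ≤ B T := fun T => Finset.prod_nonneg (fun i _ => traceProb_nonneg h0 h1 _ _)
  have ha0 : ∀ T, 0 ≤ a T := fun T => ENNReal.toReal_nonneg
  have hb0 : ∀ T, 0 ≤ b T := fun T => ENNReal.toReal_nonneg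
  have hab : ∀ T, a T + b T ≤ 1 := by
    intro T
    have h2 : est T x + est T y ≤ 1 := by
      have h3 := ENNReal.sum_le_tsum (f := fun z => est T z) ({x, y} : Finset (List Bool))
      rw [Finset.sum_pair hne, (est T).tsum_coe] at h3
      exact h3
    have h4 : est T x ≠ ⊤ := (est T).apply_ne_top x
    have h5 : est T y ≠ ⊤ := (est T).apply_ne_top y
    have h6 := ENNReal.toReal_mono ENNReal.one_ne_top h2
    rw [ENNReal.toReal_add h4 h5] at h6
    simpa [ha, hb] using h6
  have hzero : ∀ z : List Bool, z.length = n → ∀ T, T ∉ s → ∏ i, traceProb q z (T i) = 0 := by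
    intro z hz T hT
    rw [hs, Fintype.mem_piFinset] at hT
    push Not at hT
    obtain ⟨i, hi⟩ := hT
    rw [mem_listsUpTo] at hi
    exact Finset.prod_eq_zero (Finset.mem_univ i) (traceProb_long q z (T i) (by omega))
  have hsx : successProb q m est x = ∑ T ∈ s, A T * a T := by
    unfold successProb
    apply tsum_eq_sum
    intro T hT
    have : A T = 0 := hzero x rfl T hT
    simp only [hA] at this
    rw [this]; simp
  have hsy : successProb q m est y = ∑ T ∈ s, B T * b T := by
    unfold successProb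
    apply tsum_eq_sum
    intro T hT
    have : B T = 0 := hzero y hl T hT
    simp only [hB] at this
    rw [this]; simp
  have sA : ∑ T ∈ s, A T = 1 := by
    rw [hs]
    simp only [hA]
    rw [sum_tuples, sum_trace_eq_one]
    simp
  have sB : ∑ T ∈ s, B T = 1 := by
    rw [hs]
    simp only [hB]
    rw [sum_tuples, ← hl, sum_trace_eq_one]
    simp
  have hsucc : 4 / 3 ≤ ∑ T ∈ s, (A T * a T + B T * b T) := by
    rw [Finset.sum_add_distrib, ← hsx, ← hsy]
    linarith
  have key := tv_bound s A B a b hA0 hB0 ha0 hb0 hab sA sB hsucc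
  have e : ∑ T ∈ s, √(A T * B T) = BC q x y ^ m := by
    have e1 : ∀ T, √(A T * B T) = ∏ i, √(traceProb q x (T i) * traceProb q y (T i)) := by
      intro T
      simp only [hA, hB]
      rw [← Finset.prod_mul_distrib, Real.sqrt_prod]
      intro i _
      exact mul_nonneg (traceProb_nonneg h0 h1 _ _) (traceProb_nonneg h0 h1 _ _)
    simp only [e1]
    rw [hs]
    exact sum_tuples n m (fun t => √(traceProb q x t * traceProb q y t))
  rw [e, ← pow_mul, mul_comm m 2] at key
  exact key

end

end Vale.Agent.Lib.P321
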